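import Vale.Agent.P177.Full.Mass
import Vale.Agent.P177.AR.LevAR
import Vale.Agent.P177.KM.KProd
import Vale.Agent.P177.Perf.KTor
import Vale.Agent.P177.Flag.FamP

/-!
P177, assembly: finiteness of the Koszul masses of the product ideals of the package.
-/

namespace Vale.Agent.P177.Full

open Vale.Agent.P202.Mix Vale.Agent.P177.Lev Vale.Agent.P177.SL Vale.Agent.P177.KM
  Vale.Agent.P177.Mass Vale.Agent.P177.PI Vale.Agent.P177.Perf Vale.Agent.P177.KG
  WittVector Polynomial Filter TensorProduct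
open scoped ENNReal

universe u

section Fam

variable {R C : Type u} [CommRing R] [CommRing C] [Algebra R C] {n : ℕ}

/-- (K2) with an arbitrary degree `s`. -/
theorem len_KH_mulJ_le' (L : AddLen R) (y : Fin n → C) (J : ℕ → Ideal C) (hJ : Antitone J)
    (b s i : ℕ) (hs : b + n ≤ s) (hex : KosEx y J s i) :
    L.len (KH (fun l => mulJ R (J b) (y l)) i) ≤
      ∑ _S ∈ (Finset.univ : Finset (Finset (Fin n))).filter (fun S => S.card = i),
        L.len (↥(J b) ⧸ subJ R (J b) (J (s - i))) := by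
  refine len_KH_le L (fun l => mulJ R (J b) (y l)) (fun _ => subJ R (J b) (J (s - i))) i ?_
  intro v hv hv0 hz
  by_cases hi : i < n
  · obtain ⟨w, hw, hw0, hwz⟩ := hex (fun S => (v S : C)) (fun S hS => hv S hS)
      (fun S hS => by rw [hv0 S hS]; rfl) (by
        funext S
        rw [← kz_mulJ (R := R), hz]
        rfl)
    have hw1 : ∀ S, w S ∈ J b := by
      intro S
      by_cases h : S.card = i + 1
      · exact hJ (by omega) (hw S h)
      · rw [hw0 S h]; exact zero_mem _
    refine ⟨fun S => ⟨w S, hw1 S⟩, fun S hS => Subtype.ext (hw0 S hS), ?_⟩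
    funext S
    apply Subtype.ext
    rw [kz_mulJ]
    exact congrFun hwz S
  · obtain ⟨w, hw, hw0, hwz⟩ := hex (fun S => (v S : C)) (fun S hS => hv S hS)
      (fun S hS => by rw [hv0 S hS]; rfl) (by
        funext S
        rw [← kz_mulJ (R := R), hz]
        rfl)
    have hw1 : ∀ S, w S = 0 := by
      intro S
      refine hw0 S ?_
      have := S.card_le_univ
      rw [Fintype.card_fin] at this
      omega
    refine ⟨0, fun S _ => rfl, ?_⟩
    rw [map_zero]
    funext S
    apply Subtype.ext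
    have h1 := congrFun hwz S
    have h2 : w = 0 := funext hw1
    rw [h2, kd_zero] at h1
    exact h1

/-- (K) with an arbitrary degree `s`. -/
theorem len_KH_mulJ_lt_top' (L : AddLen R) (h : R) (hL : Kil L h)
    (y : Fin n → C) (J : ℕ → Ideal C) (hJ : Antitone J) (b s i : ℕ) (hs : b + n ≤ s)
    (hex : KosEx y J s i) (Y : Ideal C) (hY : L.len (C ⧸ Y) < ⊤)
    (hJY : ∀ x ∈ J b, x ∈ Y → h • x ∈ J (s - i)) :
    L.len (KH (fun l => mulJ R (J b) (y l)) i) < ⊤ := by
  refine lt_of_le_of_lt (len_KH_mulJ_le' L y J hJ b s i hs hex) ?_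
  rw [Finset.sum_const, nsmul_eq_mul]
  refine ENNReal.mul_lt_top (ENNReal.natCast_lt_top _) ?_
  exact lt_of_le_of_lt (len_quot_subJ_le L h hL (J b) (J (s - i)) Y hJY) hY

end Fam

section Pi

variable (p : ℕ) [hp : Fact p.Prime] {ι : Type u} [Nonempty ι] {C : ι → Type u}
  [∀ e, CommRing (C e)] [∀ e, CharP (C e) p] [∀ e, PerfectRing (C e) p] {n : ℕ}

attribute [local instance] charP_pi perfectRing_pi

/-- **(K) over a product ring**, for the ideals `perfHull (P e)`. -/
theorem len_KH_pi_lt_top (L : AddLen (WittVector p (∀ e, C e))) (y : Fin n → ∀ e, C e)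
    (P : ∀ e, Ideal (C e)) (hP : ∀ e, (P e).FG) (h : ∀ e, C e) (hh : Kil L (teichmuller p h))
    (hY : L.len (WittVector p (∀ e, C e) ⧸ (Ideal.span {(p : WittVector p (∀ e, C e))} ⊔
      Ideal.span (Set.range fun l => teichmuller p (y l)))) < ⊤) (B : ℕ)
    (hAR : ∀ e, ∀ x ∈ perfHull p (P e),
      x ∈ perfHull p (Ideal.span (Set.range fun l => y l e) ^ B) →
        h e * x ∈ perfHull p (Ideal.span (Set.range fun l => y l e) ^ (n + 1) * P e)) (i : ℕ) :
    let := algW p (∀ e, C e)
    L.len (KH (fun l => mulJ (WittVector p (∀ e, C e)) (Ideal.pi fun e => perfHull p (P e))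
      (y l)) i) < ⊤ := by
  intro _
  set J : ℕ → Ideal (∀ e, C e) := fun b => piI fun e => PJ p (P e) (fun l => y l e) b with hJ
  have hJa : Antitone J := piI_antitone _ fun e => PJ_antitone p (P e) _
  have h0 : (Ideal.pi fun e => perfHull p (P e)) = J 0 := by
    ext x
    rw [hJ]
    simp only [mem_piI, PJ, pow_zero, mul_one]
  have hY' : L.len ((∀ e, C e) ⧸ Ideal.span (Set.range y)) < ⊤ := by
    rw [len_W_quot p L y _ rfl]
    exact hY
  have hYle : Ideal.span (Set.range y) ^ B ≤ piI fun e =>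
      perfHull p (Ideal.span (Set.range fun l => y l e) ^ B) := by
    intro x hx e
    apply le_perfHull
    have h1 := Ideal.mem_map_of_mem (Pi.evalRingHom C e) hx
    rw [Ideal.map_pow, Ideal.map_span, ← Set.range_comp] at h1
    exact h1
  rw [h0]
  refine len_KH_mulJ_lt_top' L (teichmuller p h) hh y J hJa 0 (n + 1) i (by omega)
    (kosEx_piI y _ _ _ fun e => kosEx_PJ p (P e) (hP e) _ _ (by omega) i)
    (piI fun e => perfHull p (Ideal.span (Set.range fun l => y l e) ^ B))
    (len_quot_lt_top_of_pow_le L _ (Submodule.fg_span (Set.finite_range y)) hY' B _ hYle) ?_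
  intro x hx hxY
  have h2 : (teichmuller p h) • x = h * x := by
    rw [algW_smul_def, teichmuller_coeff_zero]
  rw [h2]
  refine hJa (show n + 1 - i ≤ n + 1 by omega) ?_
  intro e
  have hx' : x e ∈ perfHull p (P e) := by
    have h3 : x e ∈ PJ p (P e) (fun l => y l e) 0 := hx e
    rwa [PJ, pow_zero, mul_one] at h3
  have h4 := hAR e (x e) hx' (hxY e)
  rw [mul_comm (Ideal.span _ ^ _)] at h4
  exact h4

/-- the same in terms of `KC`. -/
theorem len_KC_pi_lt_top (L : AddLen (WittVector p (∀ e, C e))) (y : Fin n → ∀ e, C e)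
    (P : ∀ e, Ideal (C e)) (hP : ∀ e, (P e).FG) (h : ∀ e, C e) (hh : Kil L (teichmuller p h))
    (hY : L.len (WittVector p (∀ e, C e) ⧸ (Ideal.span {(p : WittVector p (∀ e, C e))} ⊔
      Ideal.span (Set.range fun l => teichmuller p (y l)))) < ⊤) (B : ℕ)
    (hAR : ∀ e, ∀ x ∈ perfHull p (P e),
      x ∈ perfHull p (Ideal.span (Set.range fun l => y l e) ^ B) →
        h e * x ∈ perfHull p (Ideal.span (Set.range fun l => y l e) ^ (n + 1) * P e)) (i : ℕ) :
    let := algW p (∀ e, C e)
    (ALen.of L).len ((KC (R := WittVector p (∀ e, C e)) ↥(Ideal.pi fun e => perfHull p (P e))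
      (List.ofFn fun l => teichmuller p (y l))).H i) < ⊤ := by
  intro _
  have h1 := len_KH_pi_lt_top p L y P hP h hh hY B hAR i
  have h2 := len_KH_eq (C := WittVector p (∀ e, C e)) (ALen.of L)
    (fun l => mulJ (WittVector p (∀ e, C e)) (Ideal.pi fun e => perfHull p (P e)) (y l))
    (fun l => teichmuller p (y l)) (fun l v => Subtype.ext (by
      show y l * (v : ∀ e, C e) = (teichmuller p (y l)) • (v : ∀ e, C e)
      rw [algW_smul_def, teichmuller_coeff_zero])) i
  rw [ALen.res_len] at h2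
  rw [← h2]
  exact h1

end Pi

section Tail

variable (p : ℕ) [Fact p.Prime] {ι : Type u} (C : ι → Type u) [∀ e, CommRing (C e)]

/-- the components outside a large set are invisible. -/
theorem kil_massU (U : Ultrafilter ι) (L : ∀ e, AddLen (WittVector p (C e))) (T : ∀ e, C e)
    (hT : ∀ᶠ e in (U : Filter ι), T e = 1) :
    Kil (SL.massU p C U L) (teichmuller p T) := by
  intro M _ _ hM
  refine le_antisymm ?_ zero_le
  refine ulim_le U (hT.mono fun e he => ?_)
  let _ := (prW p C e).toAlgebra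
  have hs : Subsingleton (WittVector p (C e) ⊗[WittVector p (∀ e, C e)] M) := by
    refine subsingleton_of_forall_eq 0 fun z => ?_
    induction z using TensorProduct.induction_on with
    | zero => rfl
    | tmul a m =>
      have h1 : (a : WittVector p (C e)) = teichmuller p T • a := by
        rw [Algebra.smul_def]
        change a = prW p C e (teichmuller p T) * a
        rw [prW_teichmuller, he, map_one, one_mul]
      rw [h1, TensorProduct.smul_tmul, hM, TensorProduct.tmul_zero]
    | add y z hy hz => rw [hy, hz, add_zero]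
  have h0 : (compLen p C e (L e)).len M =
      (L e).len (WittVector p (C e) ⊗[WittVector p (∀ e, C e)] M) := rfl
  rw [h0, SL.len_subsingleton]

theorem Kil.etaLen' {R : Type u} [CommRing R] {L : AddLen R} {h : R} (hL : Kil L h) (η : R) :
    Kil (etaLen L η) h := by
  intro M _ _ hM
  refine le_antisymm ?_ zero_le
  exact (etaLen_le L η M).trans (hL M hM).le

end Tail

namespace Pkg

variable {p : ℕ} [Fact p.Prime] {k : Type u} [Field k] [CharP k p] {r : ℕ}
variable {Λ : Type u} [CommRing Λ] [IsLocalRing Λ] {ψ : Λ →+* WittVector p (Rp p k r)}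
variable {Ω : Type u} [Field Ω] [Algebra Λ Ω] {s : ℕ} {b : Fin s → Ω} {F G : Fin s → Λ[X]}
    {D : ℕ} {ε : ℝ≥0∞} {Φ : ℕ → ℕ} (K : Pkg ψ b F G D ε Φ)

theorem kil_η : Kil K.mass (teichmuller p K.η) := by
  intro M _ _ hM
  refine K.mass_eq_zero 1 M fun x => ?_
  rw [pow_one]
  exact hM x

/-- the element which is `1` at the levels `≥ N` and `0` elsewhere. -/
noncomputable def tl (N : ℕ) : K.C := fun e => if N ≤ e.down then 1 else 0

theorem kil_tl (N : ℕ) : Kil K.mass (teichmuller p (K.tl N)) := by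
  refine Kil.etaLen' (kil_massU p K.Ce K.U _ (K.tl N) ?_) _
  refine (K.ev N).mono fun e he => ?_
  exact if_pos he

/-- the product ideals of the package. -/
noncomputable def JK {R : ℕ} {κ : Fin R → Type} (idx : ∀ i, κ i → Fin s) (n : Fin R → ℕ) :
    Ideal K.C :=
  Ideal.pi fun e => perfHull p (∏ i, Ideal.span (Set.range fun t => (K.lv e).c (idx i t)) ^ n i)

/-- **finiteness of the Koszul masses.** -/
theorem KC_lt_top [IsNoetherianRing Λ] {u' : Fin r → Λ}
    {red : Λ →+* R0 k r ⧸ Ideal.span {(MvPowerSeries.X 0 : R0 k r)}}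
    (hb : IsBase p k r Λ u' ψ red) (hΦ : ∀ j, j * (p ^ j * p ^ j) ≤ Φ j)
    {R : ℕ} {κ : Fin R → Type} [∀ i, Finite (κ i)] (idx : ∀ i, κ i → Fin s)
    (hidx : ∀ i, ∃ t, b (idx i t) ≠ 0) (n : Fin R → ℕ) (i : ℕ) :
    let := algW p K.C
    (ALen.of K.mass).len ((KC (R := WittVector p K.C) ↥(K.JK idx n)
      (List.ofFn fun l => teichmuller p (xC p k r K.C l))).H i) < ⊤ := by
  obtain ⟨w, c, h⟩ := AR.exists_lev_ar hb b F G D ε Φ hΦ idx hidx n
  obtain ⟨e1, h1⟩ := h (r + 1 + 1)
  refine len_KC_pi_lt_top p K.mass (fun l => (xC p k r K.C l : ∀ e, K.Ce e))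
    (fun e => ∏ i, Ideal.span (Set.range fun t => (K.lv e).c (idx i t)) ^ n i) (fun e => ?_)
    (K.tl e1 * K.η ^ w) ?_ ?_ (r + 1 + 1 + c) ?_ i
  · refine Finset.prod_induction _ Ideal.FG (fun _ _ => Ideal.FG.mul) ?_ fun i _ => ?_
    · rw [Ideal.one_eq_top]
      exact ⟨{1}, by simp [Ideal.span_singleton_one]⟩
    · exact Ideal.FG.pow (Submodule.fg_span (Set.finite_range _))
  · have h2 : teichmuller p (K.tl e1 * K.η ^ w) =
        teichmuller p (K.tl e1) * teichmuller p K.η ^ w := by rw [map_mul, map_pow]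
    rw [h2]
    exact (K.kil_tl e1).mul (K.kil_η.pow w)
  · have h3 := K.mass_ne_top
    rw [vW, Ideal.span_insert] at h3
    exact lt_top_iff_ne_top.2 h3
  · intro e x hx hx'
    have h4 : (K.tl e1 * K.η ^ w) e = K.tl e1 e * K.η e ^ w := rfl
    rw [h4]
    by_cases he : e1 ≤ e.down
    · rw [tl, if_pos he, one_mul]
      exact h1 (e.down + K.N) (by omega) (K.lv e) x hx hx'
    · rw [tl, if_neg he, zero_mul, zero_mul]
      exact zero_mem _

end Pkg

end Vale.Agent.P177.Full
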