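import Vale.Agent.P177.Full.Mass
import Vale.Agent.P177.Flag.FamP

/-!
P177, block LEVGLUE: the flag data over the product ring of a package.
-/

namespace Vale.Agent.P177.PI

open WittVector Vale.Agent.P177.Flag

universe u v w

section general

variable {W : Type u} [CommRing W] {G : Type v} [AddCommGroup G] {n : ℕ}
  {F : RFam W G} {τ : ∀ j : ℕ, (Fin j → Fin n) → W} {d : ℕ → G} {good : G → Prop} {η : W}

theorem FDataE.mul_left (h : FDataE F τ d good η) (y : W) : FDataE F τ d good (y * η) where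
  d_zero := h.d_zero
  mem := h.mem
  zero := h.zero
  same j ρ t := by rw [mul_assoc]; exact Ideal.mul_mem_left _ _ (h.same j ρ t)
  incl j ρ t := by rw [mul_assoc]; exact Ideal.mul_mem_left _ _ (h.incl j ρ t)
  step j ρ t := by rw [mul_assoc]; exact Ideal.mul_mem_left _ _ (h.step j ρ t)
  top i t := by rw [mul_assoc]; exact Ideal.mul_mem_left _ _ (h.top i t)
  good_add := h.good_add
  inj := h.inj

theorem EigNA.mul_left {X : Matrix (Fin n) (Fin n) W} {c : ℕ → W} (h : EigNA F τ d η X c)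
    (y : W) : EigNA F τ d (y * η) X c := by
  intro j hj ρ t
  rw [mul_assoc]
  exact Ideal.mul_mem_left _ _ (h j hj ρ t)

/-- change of the scalars. -/
theorem EigNA.congr {X : Matrix (Fin n) (Fin n) W} {c c' : ℕ → W} (h : EigNA F τ d η X c)
    (hmem : ∀ j t, τ j t ∈ F.M (d j)) (y : W)
    (hc : ∀ j < n, ∀ s, ∀ x ∈ F.M s, (y * (c' j - c j)) * x ∈ F.N s) :
    EigNA F τ d (y * η) X c' := by
  intro j hj ρ t
  have h1 : (fun i : Fin n => (∑ l, X i l * τ (j + 1) (Fin.cons l ρ)) -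
      c' j * τ (j + 1) (Fin.cons i ρ)) =
      (fun i : Fin n => (∑ l, X i l * τ (j + 1) (Fin.cons l ρ)) -
        c j * τ (j + 1) (Fin.cons i ρ)) +
      (-(c' j - c j)) • (fun i : Fin n => τ (j + 1) (Fin.cons i ρ)) := by
    funext i
    simp only [Pi.add_apply, Pi.smul_apply, smul_eq_mul]
    ring
  rw [h1, wdg_add, wdg_smul, smul_eq_mul, mul_add]
  refine add_mem ?_ ?_
  · rw [mul_assoc]
    exact Ideal.mul_mem_left _ _ (h j hj ρ t)
  · have h2 := hc j hj _ _ (wdg_mem_M (F := F) hmem (j := j) (s := d (j + 1))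
      (v := fun i => τ (j + 1) (Fin.cons i ρ)) (fun i => hmem _ _) t)
    have h3 : y * η * (-(c' j - c j) * wdg (τ j) (fun i => τ (j + 1) (Fin.cons i ρ)) t) =
        (-η) * ((y * (c' j - c j)) * wdg (τ j) (fun i => τ (j + 1) (Fin.cons i ρ)) t) := by ring
    rw [h3]
    exact Ideal.mul_mem_left _ _ h2

end general

section pull

variable {ι : Type v} {W : Type u} [CommRing W] {V : ι → Type w} [∀ e, CommRing (V e)]
  {G : Type*} [AddCommGroup G] {n : ℕ}
  {π : ∀ e, W →+* V e} {F : ∀ e, RFam (V e) G}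
  {τ : ∀ j : ℕ, (Fin j → Fin n) → W} {d : ℕ → G} {good : G → Prop} {η : W}

theorem eigNA_pull {X : Matrix (Fin n) (Fin n) W} {c : ℕ → W}
    (h : ∀ e, EigNA (F e) (fun j t => π e (τ j t)) d (π e η) (X.map (π e)) (fun j => π e (c j))) :
    EigNA (RFam.pull π F) τ d η X c := by
  intro j hj ρ t
  refine (RFam.mem_pull_N).2 fun e => ?_
  have := h e j hj ρ t
  rw [map_mul, map_wdg]
  simpa [Matrix.map_apply] using this

end pull

end Vale.Agent.P177.PI

namespace Vale.Agent.P177.Full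

open Vale.Agent.P202.Mix Vale.Agent.P177.Lev Vale.Agent.P177.SL WittVector Polynomial
open Vale.Agent.P177.Flag
open scoped ENNReal

universe u

theorem rt_eq_rt (p : ℕ) [Fact p.Prime] {C : Type u} [CommRing C] [CharP C p] [PerfectRing C p]
    (n : ℕ) (a : C) : rt p n a = PI.rt p n a := by
  apply PI.pow_pow_inj p n
  rw [PI.rt_pow]
  exact rt_pow_self _ _ _ _

namespace Pkg

variable {p : ℕ} [Fact p.Prime] {k : Type u} [Field k] [CharP k p] {r : ℕ}
variable {Λ : Type u} [CommRing Λ] [IsLocalRing Λ] {ψ : Λ →+* WittVector p (Rp p k r)}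
variable {Ω : Type u} [Field Ω] [Algebra Λ Ω] {s : ℕ} {b : Fin s → Ω} {F G : Fin s → Λ[X]}
    {D : ℕ} {ε : ℝ≥0∞} {Φ : ℕ → ℕ} (K : Pkg ψ b F G D ε Φ) {n : ℕ}

theorem XI_eq_xiM (C : Type u) [CommRing C] [Algebra (Rp p k r) C] (M : ℕ) :
    PI.XI p (tC p k r C) M = xiM p k r C M := by
  rw [PI.XI, xiM, Ideal.span_insert]

/-- the relations at the level `e`, modulo `p ^ M`, `M p ^ j ≤ I + 1`. -/
theorem lRel (e : ULift.{u} ℕ) {M : ℕ} (hM : p ^ K.j e * M ≤ K.I e + 1) :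
    PI.LRel p b (laW ψ (K.Ce e)) (fun l => K.c l e) (tC p k r (K.Ce e)) (K.η e) (K.j e) M where
  rel f hf := by
    rw [XI_eq_xiM]
    exact root_xi (K.te_reg e) (K.Θ e) (K.j e) (K.I e + 1) M hM _ ((K.lv e).rel f hf)
  dvd l hl := by
    obtain ⟨a, ha⟩ := (K.lv e).dvd l hl
    refine ⟨PI.rt p (K.j e) a, ?_⟩
    rw [← PI.rt_mul]
    change rt p (K.j e) (K.Θ e) = _
    rw [rt_eq_rt]
    congr 1

/-- the ideals generated by the Pluecker coordinates at the level `e`. -/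
def IJ (n : ℕ) (ix : ∀ j, (Fin j → Fin n) → Fin s) (e : ULift.{u} ℕ) : Fin n → Ideal (K.Ce e) :=
  PI.IdR n ix fun l => K.c l e

/-- the perfect ideals of the product ring. -/
def J (n : ℕ) (ix : ∀ j, (Fin j → Fin n) → Fin s) (z : Fin n → ℤ) : Ideal K.C :=
  PI.JP p (K.IJ n ix) z

/-- the graded family over the product ring. -/
noncomputable def fam (n : ℕ) (ix : ∀ j, (Fin j → Fin n) → Fin s) (N : ℕ) :
    PI.RFam (WittVector p K.C) (Fin n → ℤ) :=
  PI.famP p (K.IJ n ix) (tC p k r K.C : ∀ e, K.Ce e) N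

theorem isPerf_J (n : ℕ) (ix : ∀ j, (Fin j → Fin n) → Fin s) (z : Fin n → ℤ) :
    PI.IsPerf p (K.J n ix z) := PI.isPerf_JP p _ _

theorem fam_M (ix : ∀ j, (Fin j → Fin n) → Fin s) (N : ℕ) (z : Fin n → ℤ) :
    (K.fam n ix N).M z = PI.WI p (K.J n ix z) := PI.famP_M p _ _ _ _

theorem fam_N (ix : ∀ j, (Fin j → Fin n) → Fin s) (N : ℕ) (z : Fin n → ℤ) :
    (K.fam n ix N).N z = PI.XI p (tC p k r K.C) N * PI.WI p (K.J n ix z) :=
  PI.famP_N p _ _ _ _

theorem prj_tauW (ix : ∀ j, (Fin j → Fin n) → Fin s) (e : ULift.{u} ℕ) (j : ℕ)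
    (t : Fin j → Fin n) : PI.prj p K.Ce e (PI.tauW p n ix K.c j t) =
      PI.tauW p n ix (fun l => K.c l e) j t := by
  unfold PI.tauW
  split_ifs
  · rw [map_one]
  · rw [PI.prj_te]
  · rw [map_zero]

theorem prj_tev (e : ULift.{u} ℕ) (f : MvPolynomial (Fin s) Λ) :
    PI.prj p K.Ce e (PI.tev p (laW ψ K.C) K.c f) =
      PI.tev p (laW ψ (K.Ce e)) (fun l => K.c l e) f :=
  K.pr_eval₂ e f K.c

variable {R : Type u} [CommRing R] [Algebra Λ R] {L : Type u} [AddCommGroup L] [Module Λ L]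
  [Module R L] [IsScalarTower Λ R L] {bL : Module.Basis (Fin n) Λ L} {v : ℕ → Fin n → Ω}
  {σ : Fin n → R →ₐ[Λ] Ω} {ix : ∀ j, (Fin j → Fin n) → Fin s} {N : ℕ}

/-- **LEVGLUE**: the flag data over the product ring. -/
theorem fDataE (hfl : EigFlag bL v σ) (hN0 : 0 < N)
    (hN : ∀ e, N * p ^ K.j e * p ^ K.j e ≤ K.I e + 1)
    (hix : ∀ j, 1 ≤ j → j ≤ n → ∀ t : Fin j → Fin n, b (ix j t) = detT v j t) :
    PI.FDataE (K.fam n ix N) (PI.tauW p n ix K.c) (PI.dg n) (PI.gd n)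
      (teichmuller p K.η ^ (2 * n + 1)) := by
  have hp : 0 < p := (Fact.out : p.Prime).pos
  refine PI.fDataE_pull (fun x y h => PI.prj_ext p h) fun e => ?_
  have h1 := (K.lRel e (M := N * p ^ K.j e) (by rw [mul_comm]; exact hN e)).fDataE_flag p hfl
    (K.te_reg e) (by positivity) (N := N) le_rfl hix
  have h2 : (fun j t => PI.prj p K.Ce e (PI.tauW p n ix K.c j t)) =
      PI.tauW p n ix (fun l => K.c l e) := by
    funext j t
    exact K.prj_tauW ix e j t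
  rw [h2, map_pow, PI.prj_te]
  exact h1

/-- **LEVGLUE**: the eigenvalue relations over the product ring. -/
theorem eigNA (hfl : EigFlag bL v σ) (hN0 : 0 < N)
    (hN : ∀ e, N * p ^ K.j e * p ^ K.j e ≤ K.I e + 1)
    (hix : ∀ j, 1 ≤ j → j ≤ n → ∀ t : Fin j → Fin n, b (ix j t) = detT v j t)
    (x : R) (f : ℕ → MvPolynomial (Fin s) Λ)
    (hf : ∀ j (hj : j < n), MvPolynomial.aeval b (f j) = σ ⟨j, hj⟩ x) :
    PI.EigNA (K.fam n ix N) (PI.tauW p n ix K.c) (PI.dg n) (teichmuller p K.η ^ (2 * n + 1))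
      ((actMat bL x).map (laW ψ K.C)) (fun j => PI.tev p (laW ψ K.C) K.c (f j)) := by
  have hp : 0 < p := (Fact.out : p.Prime).pos
  refine PI.eigNA_pull fun e => ?_
  have h1 := (K.lRel e (M := N * p ^ K.j e) (by rw [mul_comm]; exact hN e)).eigNA_flag p hfl
    (K.te_reg e) (by positivity) (N := N) le_rfl hix x f hf
  have h2 : (fun j t => PI.prj p K.Ce e (PI.tauW p n ix K.c j t)) =
      PI.tauW p n ix (fun l => K.c l e) := by
    funext j t
    exact K.prj_tauW ix e j t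
  have h3 : (fun j => PI.prj p K.Ce e (PI.tev p (laW ψ K.C) K.c (f j))) =
      fun j => PI.tev p (laW ψ (K.Ce e)) (fun l => K.c l e) (f j) := by
    funext j
    exact K.prj_tev e (f j)
  have h4 : ((actMat bL x).map (laW ψ K.C)).map (PI.prj p K.Ce e) =
      (actMat bL x).map (laW ψ (K.Ce e)) := by
    ext i j : 1
    rw [Matrix.map_apply, Matrix.map_apply, Matrix.map_apply]
    exact K.pr_laW e _
  rw [h2, h3, h4, map_pow, PI.prj_te]
  exact h1

/-- **LEVGLUE**: the eigenvalue relations, for scalars `c' j` congruent to the polynomials. -/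
theorem eigNA' (hfl : EigFlag bL v σ) (hN0 : 0 < N)
    (hN : ∀ e, N * p ^ K.j e * p ^ K.j e ≤ K.I e + 1)
    (hix : ∀ j, 1 ≤ j → j ≤ n → ∀ t : Fin j → Fin n, b (ix j t) = detT v j t)
    (x : R) (f : ℕ → MvPolynomial (Fin s) Λ)
    (hf : ∀ j (hj : j < n), MvPolynomial.aeval b (f j) = σ ⟨j, hj⟩ x)
    (c' : ℕ → WittVector p K.C) (m : ℕ)
    (hc' : ∀ j < n, teichmuller p K.η ^ m * (c' j - PI.tev p (laW ψ K.C) K.c (f j)) ∈
      PI.XI p (tC p k r K.C) N) :
    PI.EigNA (K.fam n ix N) (PI.tauW p n ix K.c) (PI.dg n)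
      (teichmuller p K.η ^ (m + (2 * n + 1))) ((actMat bL x).map (laW ψ K.C)) c' := by
  rw [pow_add]
  refine (K.eigNA hfl hN0 hN hix x f hf).congr (K.fDataE hfl hN0 hN hix).mem _ ?_
  intro j hj z y hy
  rw [fam_N]
  rw [fam_M] at hy
  exact Ideal.mul_mem_mul (hc' j hj) hy

theorem fDataE' (hfl : EigFlag bL v σ) (hN0 : 0 < N)
    (hN : ∀ e, N * p ^ K.j e * p ^ K.j e ≤ K.I e + 1)
    (hix : ∀ j, 1 ≤ j → j ≤ n → ∀ t : Fin j → Fin n, b (ix j t) = detT v j t) (m : ℕ) :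
    PI.FDataE (K.fam n ix N) (PI.tauW p n ix K.c) (PI.dg n) (PI.gd n)
      (teichmuller p K.η ^ (m + (2 * n + 1))) := by
  rw [pow_add]
  exact (K.fDataE hfl hN0 hN hix).mul_left _

theorem tauAt (e : ULift.{u} ℕ) (i : Fin n) :
    PI.TauAt p (K.IJ n ix e) (fun j t => PI.prj p K.Ce e (PI.tauW p n ix K.c j t)) (PI.dg n)
      ((i : ℕ) + 1) i := by
  have h2 : (fun j t => PI.prj p K.Ce e (PI.tauW p n ix K.c j t)) =
      PI.tauW p n ix (fun l => K.c l e) := by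
    funext j t
    exact K.prj_tauW ix e j t
  rw [h2]
  exact PI.tauAt p i

theorem colN (j : ℕ) (hj : j < n) :
    PI.ColN (K.fam n ix N) (PI.tauW p n ix K.c) (PI.dg n) (j + 1) (PI.sb n + PI.dg n j) :=
  PI.famP_colN p (fun e i => PI.fg_IdR i) (fun e => K.te_reg e) N j hj
    fun e => K.tauAt e ⟨j, hj⟩

theorem skoN (j : ℕ) (hj : j < n) :
    PI.SkoN (K.fam n ix N) (PI.tauW p n ix K.c) (PI.dg n) j
      (PI.sb n + PI.dg n j - PI.dg n (j + 1)) := by
  refine PI.famP_skoN p (fun e i => PI.fg_IdR i) (fun e => K.te_reg e) N j hj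
    (PI.tauW_zero p) fun e h => ?_
  obtain ⟨i, rfl⟩ : ∃ i, j = i + 1 := ⟨j - 1, by omega⟩
  exact K.tauAt e ⟨i, by omega⟩

end Pkg

end Vale.Agent.P177.Full
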