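import Vale.Agent.P177.Full.MainC
import Vale.Agent.P177.Full.FlagP
import Vale.Agent.P177.Full.Adm

/-!
P177, inner assembly: the flag formula for the package `X : Core`.
-/

namespace Vale.Agent.P177.Full

open TensorProduct IsLocalRing RingTheory.Sequence Function Vale.Agent.P202.Mix
  Vale.Agent.P177.Flag Vale.Agent.P177.PI Vale.Agent.P177.Lev Vale.Agent.P177.Ap
  Vale.Agent.P177.TH WittVector
open scoped ENNReal

universe u

namespace Core

variable {p : ℕ} [Fact p.Prime] {R : Type u} [CommRing R] [IsRegularLocalRing R]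
    [CharP (ResidueField R) p] [PerfectRing (ResidueField R) p] {d : ℕ} {P : Ideal R}
    {hs : List R} {r : ℕ} [IsRegularLocalRing (Lam p (ResidueField R) r)]
    [Algebra (Lam p (ResidueField R) r) R] {Ω : Type u} [Field Ω]
    [Algebra (Lam p (ResidueField R) r) Ω] {F : Fin 2 → FlagMod (Lam p (ResidueField R) r) Ω hs}
    (X : Core p d P hs r Ω F)

/-- the family of the flag `i`, modulo `p ^ (2 c0)`. -/
noncomputable abbrev fm (i : Fin 2) : RFam (WittVector p X.K.C) (Fin (F i).n → ℤ) :=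
  X.K.fam (F i).n (X.pl i) (X.c0 * (1 + 1))

theorem etaNull_of_kil {w : WittVector p X.K.C} (hw : KM.Kil X.K.mass w) :
    EtaNull X.LD (inW R (WittVector p X.K.C) w) := by
  intro M _ _ k hk
  show X.LD.len M = 0
  let _ : Module (WittVector p X.K.C) M := Module.compHom M (inW R (WittVector p X.K.C))
  have h1 : X.LD.len M = X.K.mass.len M :=
    B8.pullL_len (inW R (WittVector p X.K.C)) X.K.mass M fun _ _ => rfl
  rw [h1]
  refine hw.pow k M fun x => ?_
  have h2 := hk x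
  rw [← map_pow] at h2
  exact h2

theorem mem_kill {i : Fin 2} {β : R} (hβ : β ∈ Ideal.ofList hs) (l : (F i).L) : β • l = 0 := by
  have h1 : Ideal.ofList hs ≤ LinearMap.ker (LinearMap.toSpanSingleton R (F i).L l) := by
    rw [Ideal.ofList, Ideal.span_le]
    intro s hs'
    exact (F i).kill s hs' l
  exact h1 hβ

theorem hN_le (e : ULift.{u} ℕ) : X.c0 * (1 + 1) * p ^ X.K.j e * p ^ X.K.j e ≤ X.K.I e + 1 := by
  have h1 := X.gr_le (X.K.j e)
  have h2 := X.K.le_I e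
  calc X.c0 * (1 + 1) * p ^ X.K.j e * p ^ X.K.j e
      = (2 * X.c0) * (p ^ X.K.j e * p ^ X.K.j e) := by ring
    _ ≤ (X.K.j e + 2 * X.c0) * (p ^ X.K.j e * p ^ X.K.j e) :=
        Nat.mul_le_mul_right _ (Nat.le_add_left _ _)
    _ ≤ X.K.I e + 1 := (h1.trans h2).trans (Nat.le_succ _)

theorem α_regular : IsSMulRegular R X.α := by
  have := regular_isDomain R
  intro x y h
  exact mul_left_cancel₀ X.α_ne h

/-- **The flag formula for `X : Core`**, with the error element `[e0] ^ k`, `e0` a multiple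
of `η` with `mass`-null torsion. -/
theorem chi_flag (i : Fin 2) (hn : 0 < (F i).n) (hd : ringKrullDim R = d) (hd1 : 1 ≤ d)
    (nn : ℕ) (hnn : d ≤ nn)
    (hfin : ∀ l, X.LD.len (TorM (R ⊗[ℤ] WittVector p X.K.C) l
      (TenM X.la (X.YJ (X.Jb i)) (F i).L) ((R ⊗[ℤ] WittVector p X.K.C) ⊗[R] (R ⧸ P))) < ⊤)
    -- the error element
    (e0 y0 : X.K.C) (he0 : e0 = X.K.η * y0) (hkil : KM.Kil X.K.mass (teichmuller p e0))
    -- the scalars
    (cc : R → ℕ → WittVector p X.K.C)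
    (ff : R → ℕ → MvPolynomial (Fin X.m) (Lam p (ResidueField R) r))
    (hff : ∀ x j (hj : j < (F i).n), MvPolynomial.aeval X.b (ff x j) = (F i).σ ⟨j, hj⟩ x)
    (m' : ℕ)
    (hcc : ∀ x, ∀ j < (F i).n, teichmuller p X.K.η ^ m' *
      (cc x j - tev p (laW X.ψ X.K.C) X.K.c (ff x j)) ∈
        XI p (tC p (ResidueField R) r X.K.C) (X.c0 * (1 + 1)))
    -- the pieces
    (k : ℕ) (N : ℕ → Type u) [∀ j, AddCommGroup (N j)]
    [∀ j, Module (R ⊗[ℤ] WittVector p X.K.C) (N j)]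
    (π : ∀ j, Gr (X.fm i) (sb (F i).n + dg (F i).n j - dg (F i).n (j + 1)) →+ N j)
    (hπ : ∀ j < (F i).n, ∀ m : N j, ∃ g,
      π j g = inW R (WittVector p X.K.C) (teichmuller p e0) ^ k • m)
    (hπ0 : ∀ j < (F i).n, ∀ x, π j x = 0 → teichmuller p e0 ^ k • x = 0)
    (hπW : ∀ j < (F i).n, ∀ (a : WittVector p X.K.C) (x),
      π j (a • x) = inW R (WittVector p X.K.C) a • π j x)
    (hπR : ∀ j < (F i).n, ∀ (x : R) (y),
      π j (cc x j • y) = inR R (WittVector p X.K.C) x • π j y)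
    (H : ℕ → Type u) [∀ j, AddCommGroup (H j)] [∀ j, Module (R ⊗[ℤ] WittVector p X.K.C) (H j)]
    (hH : ∀ j < (F i).n, ∀ v : H j, inR R (WittVector p X.K.C) X.α • v = 0 → v = 0)
    (hHfin : ∀ j < (F i).n, ∀ l, X.LD.len (TorM (R ⊗[ℤ] WittVector p X.K.C) l (H j)
      ((R ⊗[ℤ] WittVector p X.K.C) ⊗[R] (R ⧸ P))) < ⊤)
    (f : ∀ j, H j →ₗ[R ⊗[ℤ] WittVector p X.K.C] N j)
    (hf : ∀ j < (F i).n, Function.Surjective (f j))
    (hker : ∀ j < (F i).n, ∀ v, f j v = 0 ↔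
      ∃ w, v = inR R (WittVector p X.K.C) X.α ^ (1 + 1) • w) :
    TH.chi X.LD nn (TenM X.la (X.YJ (X.Jb i)) (F i).L)
        ((R ⊗[ℤ] WittVector p X.K.C) ⊗[R] (R ⧸ P)) =
      ∑ j ∈ Finset.range (F i).n, TH.chi X.LD nn (H j)
        ((R ⊗[ℤ] WittVector p X.K.C) ⊗[R] (R ⧸ P)) := by
  have hc2 : 0 < X.c0 * (1 + 1) := Nat.mul_pos X.c0_pos (by norm_num)
  have hix : ∀ j, 1 ≤ j → j ≤ (F i).n → ∀ t : Fin j → Fin (F i).n,
      X.b (X.pl i j t) = detT (F i).v j t := fun j _ hj t => X.pl_spec i j hj t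
  have hflat : Module.Flat ℤ (WittVector p X.K.C) := flat_int_witt p X.K.C
  obtain ⟨M', hM'⟩ : ∃ M', M' = m' + (2 * (F i).n + 1) := ⟨_, rfl⟩
  have hpow : teichmuller p e0 ^ M' = teichmuller p y0 ^ M' * teichmuller p X.K.η ^ M' := by
    rw [he0, map_mul, mul_pow, mul_comm]
  have hdata : FDataE (X.fm i) (tauW p (F i).n (X.pl i) X.K.c) (dg (F i).n) (gd (F i).n)
      (teichmuller p e0 ^ M') := by
    rw [hpow, hM']
    exact (X.K.fDataE' (F i).flag hc2 X.hN_le hix m').mul_left _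
  have hEig : ∀ x, EigNA (X.fm i) (tauW p (F i).n (X.pl i) X.K.c) (dg (F i).n)
      (teichmuller p e0 ^ M') ((actMat (F i).b x).map X.la) (cc x) := fun x => by
    rw [hpow, hM']
    exact (X.K.eigNA' (F i).flag hc2 X.hN_le hix x (ff x) (hff x) (cc x) m' (hcc x)).mul_left _
  have hEk : (teichmuller p e0 ^ M') ^ k =
      teichmuller p e0 ^ ((m' + 2 * (F i).n) * k) * teichmuller p e0 ^ k := by
    rw [← pow_mul, ← pow_add, hM']
    congr 1
    ring
  have hM : (X.fm i).M (sb (F i).n) = WI p (X.Jb i) := X.K.fam_M _ _ _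
  have hN : (X.fm i).N (sb (F i).n) = (Ideal.span {xiW p (tC p (ResidueField R) r X.K.C)} ⊔
      Ideal.span {(p : WittVector p X.K.C) ^ (X.c0 * (1 + 1))}) * WI p (X.Jb i) := by
    rw [← hM]
    exact famP_N_eq p _ _ _ _
  have hreg : ∀ y : X.YJ (X.Jb i), (p : WittVector p X.K.C) • y = 0 → y = 0 := by
    refine jsh_regular p (X.K.isPerf_J _ _ _) ?_
    rw [mem_nonZeroDivisors_iff_right]
    intro x hx
    funext e
    exact (mem_nonZeroDivisors_iff_right.1 (X.K.te_reg e)) _ (congrFun hx e)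
  have hπ' : ∀ j < (F i).n, ∀ m : N j, ∃ g,
      π j g = iWt R (WittVector p X.K.C) (teichmuller p e0 ^ M') ^ k • m := by
    intro j hj m
    obtain ⟨g, hg⟩ := hπ j hj m
    refine ⟨teichmuller p e0 ^ ((m' + 2 * (F i).n) * k) • g, ?_⟩
    rw [hπW j hj, hg, smul_smul, ← map_pow (iWt R (WittVector p X.K.C)), hEk,
      map_mul (iWt R (WittVector p X.K.C)), map_pow (iWt R (WittVector p X.K.C)) _ k]
    rfl
  have hπ0' : ∀ j < (F i).n, ∀ x, π j x = 0 → (teichmuller p e0 ^ M') ^ k • x = 0 := by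
    intro j hj x hx
    rw [hEk, mul_smul, hπ0 j hj x hx, smul_zero]
  exact chi_flag_XM (F := X.fm i) (F i).b d hd hd1 nn hnn P X.α_mem X.α_regular (p := p)
    (c := X.c0) (m := 1) X.α_add (fun l => mem_kill X.β_mem l) k X.la
    (X.etaNull_of_kil (hkil.pow M')) le_rfl hdata hn (s := sb (F i).n) (gd_sb _)
    (fun j _ => gd_sb_sub _ j) (fun j _ => gd_sb_sub' _ (j + 1))
    (fun j hj => X.K.colN j hj) (fun j hj => X.K.skoN j hj)
    (ξ := xiW p (tC p (ResidueField R) r X.K.C)) hM hN hreg hfin cc hEig N π hπ' hπ0'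
    hπW hπR H (fun j hj => ⟨0, fun v hv => by rw [hH j hj v hv, smul_zero]⟩) hHfin f hf hker

end Core

end Vale.Agent.P177.Full
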