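import Vale.Agent.P177.Full.CoreDefs
import Vale.Agent.P177.Full.CoreFlag

/-!
P177, inner assembly: notation for the final theorems (Euler characteristics of the honest modules).
-/

namespace Vale.Agent.P177.Full

open TensorProduct IsLocalRing Function Vale.Agent.P202.Mix Vale.Agent.P177.Flag
  Vale.Agent.P177.PI Vale.Agent.P177.Lev WittVector
open scoped ENNReal

universe u

namespace Core

variable {p : ℕ} [Fact p.Prime] {R : Type u} [CommRing R] [IsRegularLocalRing R]
    [CharP (ResidueField R) p] [PerfectRing (ResidueField R) p] {d : ℕ} {P : Ideal R}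
    {hs : List R} {r : ℕ} [IsRegularLocalRing (Lam p (ResidueField R) r)]
    [Algebra (Lam p (ResidueField R) r) R] {Ω : Type u} [Field Ω]
    [Algebra (Lam p (ResidueField R) r) Ω] {F : Fin 2 → FlagMod (Lam p (ResidueField R) r) Ω hs}
    (X : Core p d P hs r Ω F)

/-- the ideals of the pieces. -/
noncomputable abbrev Jp (i : Fin 2) (j : ℕ) : Ideal X.K.C :=
  X.K.J (F i).n (X.pl i) (PI.sb (F i).n + PI.dg (F i).n j - PI.dg (F i).n (j + 1))

/-- the Euler characteristic of the honest module of `J` and `σ`. -/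
noncomputable abbrev chiH {C' : Type u} [CommRing C'] [CharP C' p] [PerfectRing C' p]
    (f : X.K.C →+* C') (nn : ℕ) (σ : R →ₐ[Lam p (ResidueField R) r] Ω) (J : Ideal X.K.C) : ℝ :=
  TH.chi X.LD nn (X.HJ f σ J) ((R ⊗[ℤ] WittVector p X.K.C) ⊗[R] (R ⧸ P))

end Core

end Vale.Agent.P177.Full
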