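import Vale.Agent.P177.Full.Gam
import Vale.Agent.P177.Full.Adm
import Vale.Agent.P177.Nat.Cut
import Vale.Agent.P177.Nat.NatZ
import Vale.Agent.P177.Nat.NatW

/-!
P177, inner assembly: the ideals `J` of the flag family in the honest ring `C'` cut the dimension.
-/

namespace Vale.Agent.P177.Full

open TensorProduct IsLocalRing RingTheory.Sequence Function Module Vale.Agent.P177.Flag
  Vale.Agent.P202.Mix Vale.Agent.P177.Lev WittVector
open scoped ENNReal

universe u

/-- `p` is a prime element of `W(k)[[u]]`. -/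
theorem prime_p_lam (p : ℕ) [Fact p.Prime] (k : Type u) [Field k] [CharP k p] [PerfectRing k p]
    (r : ℕ) : Prime ((p : ℕ) : MvPowerSeries (Fin r) (WittVector p k)) := by
  have h0 : Prime (p : WittVector p k) := (WittVector.irreducible p).prime
  have h1 : (Ideal.span {(p : WittVector p k)}).IsPrime :=
    (Ideal.span_singleton_prime h0.ne_zero).2 h0
  have hdom : IsDomain (WittVector p k ⧸ Ideal.span {(p : WittVector p k)}) :=
    Ideal.Quotient.isDomain _
  let q := MvPowerSeries.map (σ := Fin r) (Ideal.Quotient.mk (Ideal.span {(p : WittVector p k)}))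
  have hp0 : ((p : ℕ) : MvPowerSeries (Fin r) (WittVector p k)) ≠ 0 := by
    intro h
    have h2 := congrArg (MvPowerSeries.constantCoeff) h
    rw [map_natCast, map_zero] at h2
    exact h0.ne_zero h2
  have hker : RingHom.ker q = Ideal.span {((p : ℕ) : MvPowerSeries (Fin r) (WittVector p k))} := by
    ext f
    rw [RingHom.mem_ker, Ideal.mem_span_singleton]
    constructor
    · intro h
      have h3 : ∀ n, ∃ y, MvPowerSeries.coeff n f = (p : WittVector p k) * y := by
        intro n
        have h4 := congrArg (MvPowerSeries.coeff n) h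
        rw [MvPowerSeries.coeff_map, map_zero, Ideal.Quotient.eq_zero_iff_mem,
          Ideal.mem_span_singleton] at h4
        exact h4
      choose y hy using h3
      let Y : MvPowerSeries (Fin r) (WittVector p k) := fun n => y n
      refine ⟨Y, ?_⟩
      ext1 n
      have h6 : MvPowerSeries.coeff n Y = y n := rfl
      rw [hy n, ← map_natCast (MvPowerSeries.C : WittVector p k →+* _), MvPowerSeries.coeff_C_mul,
        h6]
    · rintro ⟨y, rfl⟩
      rw [map_mul, map_natCast]
      have h5 : ((p : ℕ) : MvPowerSeries (Fin r)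
          (WittVector p k ⧸ Ideal.span {(p : WittVector p k)})) = 0 := by
        rw [← map_natCast (MvPowerSeries.C :
            (WittVector p k ⧸ Ideal.span {(p : WittVector p k)}) →+* _),
          ← map_natCast (Ideal.Quotient.mk (Ideal.span {(p : WittVector p k)})),
          Ideal.Quotient.eq_zero_iff_mem.2 (Ideal.mem_span_singleton_self _), map_zero]
      rw [h5, zero_mul]
  have hd : IsDomain (MvPowerSeries (Fin r)
      (WittVector p k ⧸ Ideal.span {(p : WittVector p k)})) := NoZeroDivisors.to_isDomain _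
  rw [← Ideal.span_singleton_prime hp0, ← hker]
  exact RingHom.ker_isPrime q

namespace Pkg

variable {p : ℕ} [Fact p.Prime] {k : Type u} [Field k] [CharP k p] {r : ℕ}
variable {Λ : Type u} [CommRing Λ] [IsLocalRing Λ] {ψ : Λ →+* WittVector p (Rp p k r)}
variable {Ω : Type u} [Field Ω] [Algebra Λ Ω] {s : ℕ} {b : Fin s → Ω}
    {F G : Fin s → Polynomial Λ} {D : ℕ} {ε : ℝ≥0∞} {Φ : ℕ → ℕ} (K : Pkg ψ b F G D ε Φ) {n : ℕ}

/-- the ideals `J` are closed under roots. -/
theorem sp_Jz (ix : ∀ j, (Fin j → Fin n) → Fin s) (z : Fin n → ℤ) : CN.SP p (K.J n ix z) :=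
  CN.SP_pi fun _ => CN.SP_perfHull _

/-- the lower levels do not matter. -/
theorem tl_mul_mem {M0 M : ℕ} {x : WittVector p K.C}
    (hx : x ∈ K.xiP fun e => if M0 ≤ e.down then M else 0) :
    teichmuller p (K.tl M0) * x ∈ xiM p k r K.C M := by
  refine K.xiP_le_xiM (n := fun _ => M) (fun _ => le_rfl) ?_
  rw [mem_xiP] at hx ⊢
  intro e
  rw [map_mul, pr_te]
  by_cases h : M0 ≤ e.down
  · have h1 := hx e
    rw [if_pos h] at h1
    exact Ideal.mul_mem_left _ _ h1
  · have h1 : K.tl M0 e = 0 := if_neg h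
    rw [h1, teichmuller_zero, zero_mul]
    exact zero_mem _

end Pkg

namespace Core

variable {p : ℕ} [Fact p.Prime] {R : Type u} [CommRing R] [IsRegularLocalRing R]
    [CharP (ResidueField R) p] [PerfectRing (ResidueField R) p] {d : ℕ} {P : Ideal R}
    {hs : List R} {r : ℕ} [IsRegularLocalRing (Lam p (ResidueField R) r)]
    [Algebra (Lam p (ResidueField R) r) R] {Ω : Type u} [Field Ω]
    [Algebra (Lam p (ResidueField R) r) Ω] {F : Fin 2 → FlagMod (Lam p (ResidueField R) r) Ω hs}
    (X : Core p d P hs r Ω F)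

theorem le_I_of (M : ℕ) (e : ULift.{u} ℕ) :
    p ^ X.K.j e * (if M + 2 ≤ e.down then M + 1 else 0) ≤ X.K.I e + 1 := by
  by_cases h : M + 2 ≤ e.down
  · rw [if_pos h]
    have h1 := X.K.le_I e
    have h2 := X.gr_le (X.K.j e)
    have h3 := X.K.le_j e
    have h4 : 1 ≤ p ^ X.K.j e := Nat.one_le_pow _ _ (Fact.out : p.Prime).pos
    calc p ^ X.K.j e * (M + 1) ≤ p ^ X.K.j e * ((X.K.j e + 2 * X.c0) * p ^ X.K.j e) := by
          refine Nat.mul_le_mul_left _ ?_
          calc M + 1 ≤ (X.K.j e + 2 * X.c0) * 1 := by omega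
            _ ≤ _ := Nat.mul_le_mul_left _ h4
      _ = (X.K.j e + 2 * X.c0) * (p ^ X.K.j e * p ^ X.K.j e) := by ring
      _ ≤ _ := by omega
  · rw [if_neg h, mul_zero]
    exact Nat.zero_le _

/-- **The dimension of `C'/J'`**: the parameters `t, u` are nilpotent modulo `J'` and `r` elements
of `(t, u)`. -/
theorem exists_cut (hN : Norm p R r hs) (i : Fin 2) (z : Fin (F i).n → ℤ) :
    ∃ M0 : ℕ, ∀ M, M0 ≤ M → ∀ {C' : Type u} [CommRing C'] [CharP C' p] [PerfectRing C' p]
      (f : X.K.C →+* C') (_ : f (tC p (ResidueField R) r X.K.C) ∈ nonZeroDivisors C')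
      (_ : f (tC p (ResidueField R) r X.K.C) ∈ Ideal.jacobson (⊥ : Ideal C'))
      (_ : f (X.K.η * X.K.tl (M + 2)) ∣ f (tC p (ResidueField R) r X.K.C)),
      ∃ y : Fin r → C', (∀ j, y j ∈ Ideal.span (Set.range fun l : Fin (r + 1) =>
          f (xC p (ResidueField R) r X.K.C l))) ∧
        ∃ L : ℕ, Ideal.span (Set.range fun l : Fin (r + 1) =>
            f (xC p (ResidueField R) r X.K.C l)) ^ L ≤
          Ideal.span (Set.range y) ⊔ (X.K.J (F i).n (X.pl i) z).map f := by
  have hdom : IsDomain (Lam p (ResidueField R) r) := regular_isDomain _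
  obtain ⟨γ, w, hγ, hw, hrel⟩ := X.exists_gam i z
  have hmax : maximalIdeal (Lam p (ResidueField R) r) = Ideal.span (insert
      (p : Lam p (ResidueField R) r) (Set.range fun i : Fin r => MvPowerSeries.X i)) := by
    rw [hN.max, Set.singleton_union]
  obtain ⟨a, ha⟩ := NatC.exists_cut (p := p) (fun i : Fin r => MvPowerSeries.X i) hmax
    (prime_p_lam p (ResidueField R) r) γ hγ
  refine ⟨a + 2, fun M hM C' _ _ _ f h1 h2 h3 => ?_⟩
  have hsp : CN.SP p ((X.K.J (F i).n (X.pl i) z).map f) := (X.K.sp_Jz (X.pl i) z).map f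
  have hmem := X.K.tl_mul_mem (M0 := M + 2) (M := M + 1) (hrel _ (X.le_I_of M))
  have h4 : ∀ i : Fin r, ((WittVector.map f).comp (laW X.ψ X.K.C)) (MvPowerSeries.X i) =
      teichmuller p (f (xC p (ResidueField R) r X.K.C i.succ)) := by
    intro i
    change WittVector.map f (WittVector.map _ (X.ψ (MvPowerSeries.X i))) = _
    rw [X.base.psi_u, WittVector.map_teichmuller, WittVector.map_teichmuller]
  have h7 : WittVector.map f (teichmuller p (X.K.η * X.K.tl (M + 2)) * w) ∈
      PI.WI p ((X.K.J (F i).n (X.pl i) z).map f) :=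
    NatC.map_mem_WI p f (X.K.isPerf_J _ _ _) (fun x hx => Ideal.mem_map_of_mem _ hx)
      (Ideal.mul_mem_left _ _ hw)
  have h8 : teichmuller p (f (X.K.η * X.K.tl (M + 2))) ^ 1 *
      ((WittVector.map f).comp (laW X.ψ X.K.C)) γ -
      WittVector.map f (teichmuller p (X.K.η * X.K.tl (M + 2)) * w) ∈
      PI.XI p (f (tC p (ResidueField R) r X.K.C)) M := by
    rw [PI.XI, ← Ideal.span_insert]
    obtain ⟨x, y, hxy⟩ := Pkg.mem_xiM_iff.1 hmem
    rw [Ideal.mem_span_pair]
    refine ⟨WittVector.map f x, WittVector.map f y * (p : WittVector p C'), ?_⟩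
    have h6 := congrArg (WittVector.map f) hxy
    rw [map_add, map_mul, map_mul, map_mul, map_mul, map_sub, map_sub, map_pow,
      map_natCast, map_teichmuller, map_teichmuller, map_teichmuller] at h6
    rw [pow_one, map_mul (WittVector.map f), map_teichmuller, RingHom.comp_apply, ← mul_sub,
      map_mul f, map_mul (teichmuller p)]
    linear_combination -h6
  obtain ⟨y, hy, L, hL⟩ := ha ((WittVector.map f).comp (laW X.ψ X.K.C))
    (fun i => f (xC p (ResidueField R) r X.K.C i.succ)) h4
    (f (tC p (ResidueField R) r X.K.C)) h1 h2 (f (X.K.η * X.K.tl (M + 2))) h3 1 M (by omega)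
    ((X.K.J (F i).n (X.pl i) z).map f) hsp.isPerf _ h7 h8
  have h5 : (insert (f (tC p (ResidueField R) r X.K.C)) (Set.range fun i : Fin r =>
      f (xC p (ResidueField R) r X.K.C i.succ))) = Set.range fun l : Fin (r + 1) =>
        f (xC p (ResidueField R) r X.K.C l) := by
    ext x
    simp only [Set.mem_insert_iff, Set.mem_range]
    constructor
    · rintro (rfl | ⟨l, rfl⟩)
      · exact ⟨0, rfl⟩
      · exact ⟨l.succ, rfl⟩
    · rintro ⟨l, rfl⟩
      refine Fin.cases (Or.inl rfl) (fun l => Or.inr ⟨l, rfl⟩) l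
  rw [h5] at hy hL
  exact ⟨y, hy, L, hL⟩

end Core

end Vale.Agent.P177.Full
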