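import Vale.Agent.P177.Full.ExCore
import Vale.Agent.P177.SL.AnnX

/-!
P177: the hypotheses (hr1), (hr2), (H2C) of `B7Core` for `Z : NatZ`, in the language of
`SL/FinalA`.
-/

namespace Vale.Agent.P177.Full

open TensorProduct IsLocalRing RingTheory.Sequence Function Vale.Agent.P202.Mix
  Vale.Agent.P177.Flag Vale.Agent.P177.PI Vale.Agent.P177.Lev WittVector Vale.Agent.P177.NatC
open scoped ENNReal

universe u

section

variable {p : ℕ} [Fact p.Prime] {R : Type u} [CommRing R] [IsRegularLocalRing R]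
    [CharP (ResidueField R) p] [PerfectRing (ResidueField R) p] {d : ℕ} {P : Ideal R}
    {hs : List R} {r : ℕ} [IsRegularLocalRing (Lam p (ResidueField R) r)]
    [Algebra (Lam p (ResidueField R) r) R] {Ω : Type u} [Field Ω]
    [Algebra (Lam p (ResidueField R) r) Ω] {F : Fin 2 → FlagMod (Lam p (ResidueField R) r) Ω hs}
    (X : Core p d P hs r Ω F)

/-- `ψ' = W(f) ∘ ψ_σ` on the variables -/
theorem Core.psi'_X {C' : Type u} [CommRing C'] [CharP C' p] [PerfectRing C' p]
    (f : X.K.C →+* C') (i : Fin 2) (j : Fin (F i).n) (l : Fin d) :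
    (WittVector.map f).comp (X.psi ((F i).σ j)) (MvPowerSeries.X l) =
      teichmuller p (f (X.K.c (X.ix ((F i).σ j) l))) := by
  rw [RingHom.comp_apply, ← map_teichmuller]
  congr 1
  exact X.psi_X i j l

/-- **(hr1)** -/
theorem Core.z_hr1 {C' : Type u} [CommRing C'] [CharP C' p] [PerfectRing C' p]
    (f : X.K.C →+* C') (i : Fin 2) (j : Fin (F i).n) (l : Fin d) :
    ∃ m : ℕ, ((WittVector.map f).comp (X.psi ((F i).σ j)) (MvPowerSeries.X l)) ^ m ∈
      Ideal.ofList ((p : WittVector p C') :: List.ofFn fun q : Fin (r + 1) =>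
        teichmuller p (f (xC p (ResidueField R) r X.K.C q))) := by
  rw [X.psi'_X]
  refine SL.teich_mem_radical p (y := fun q => f (xC p (ResidueField R) r X.K.C q)) ?_
    (fun q => ?_) (X.nil_fc f i j l)
  · exact Ideal.le_radical (Ideal.subset_span (List.mem_cons_self))
  · exact Ideal.le_radical (Ideal.subset_span (List.mem_cons_of_mem _ (List.mem_ofFn.2 ⟨q, rfl⟩)))

variable [IsAdicComplete (maximalIdeal R) R] (hN : Norm p R r hs) {M : ℕ} (hM : 2 ≤ M)
  (Z : CN.NatZ p X.K.C (tC p (ResidueField R) r X.K.C) (X.K.etM M))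
  (i : Fin 2) (j : Fin (F i).n)

include hN hM

/-- **(hr2)** -/
theorem Core.z_hr2 (q : Fin (r + 1)) :
    ∃ m : ℕ, teichmuller p (Z.f (xC p (ResidueField R) r X.K.C q)) ^ m ∈
      Ideal.span (Set.range fun l : Fin d =>
        (WittVector.map Z.f).comp (X.psi ((F i).σ j)) (MvPowerSeries.X l)) ⊔
        Ideal.span {(p : WittVector p Z.C')} := by
  refine SL.teich_mem_radical p (y := fun l => Z.f (X.K.c (X.ix ((F i).σ j) l))) (m := 1) ?_
    (fun l => ?_) ?_
  · exact Ideal.le_radical ((le_sup_right : Ideal.span {(p : WittVector p Z.C')} ≤ _)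
      (Ideal.mem_span_singleton_self _))
  · refine Ideal.le_radical ((le_sup_left : Ideal.span (Set.range fun l : Fin d =>
        (WittVector.map Z.f).comp (X.psi ((F i).σ j)) (MvPowerSeries.X l)) ≤ _) ?_)
    exact Ideal.subset_span ⟨l, X.psi'_X Z.f i j l⟩
  · rw [pow_one]
    exact X.z_mem hN hM Z i j q

/-- **(H2C)** -/
theorem Core.z_H2C {I : Ideal (Sx p (ResidueField R) d)} (hEI : X.E ∈ I) {K : ℕ} (hKM : K < M)
    (hI : maximalIdeal R ^ K ≤ I.map X.Φ ⊔ Ideal.ofList hs) :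
    (∃ m : ℕ, (p : WittVector p Z.C') ^ m ∈
      I.map ((WittVector.map Z.f).comp (X.psi ((F i).σ j)))) ∧
    ∀ q : Fin (r + 1), ∃ m : ℕ, teichmuller p (Z.f (xC p (ResidueField R) r X.K.C q)) ^ m ∈
      I.map ((WittVector.map Z.f).comp (X.psi ((F i).σ j))) := by
  obtain ⟨-, h2, -, h4⟩ := X.z_H2 hN hM Z i j hEI hKM hI
  exact ⟨⟨K, h2⟩, fun q => ⟨K, h4 q⟩⟩

end

end Vale.Agent.P177.Full
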