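import Vale.Agent.P177.Full.Core
import Vale.Agent.P177.Nat.ChiD
import Vale.Agent.P177.Nat.NatZ

/-!
P177, inner assembly: notation for the honest modules of the characters of a flag.
-/

namespace Vale.Agent.P177.Full

open TensorProduct IsLocalRing RingTheory.Sequence Function Vale.Agent.P202.Mix
  Vale.Agent.P177.Flag Vale.Agent.P177.PI Vale.Agent.P177.Lev WittVector
open scoped ENNReal

universe u

namespace Core

variable {p : ℕ} [Fact p.Prime] {R : Type u} [CommRing R] [IsRegularLocalRing R]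
    [CharP (ResidueField R) p] [PerfectRing (ResidueField R) p] {d : ℕ} {P : Ideal R}
    {hs : List R} {r : ℕ} [IsRegularLocalRing (Lam p (ResidueField R) r)]
    [Algebra (Lam p (ResidueField R) r) R] {Ω : Type u} [Field Ω]
    [Algebra (Lam p (ResidueField R) r) Ω] {F : Fin 2 → FlagMod (Lam p (ResidueField R) r) Ω hs}
    (X : Core p d P hs r Ω F)

/-- `E = p - g`. -/
noncomputable def E : Sx p (ResidueField R) d := (p : Sx p (ResidueField R) d) - X.g

theorem ker_Φ : RingHom.ker X.Φ = Ideal.span {X.E} := X.Φ_ker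

/-- `ψ_σ : W(k)[[x]] → W(C)`. -/
noncomputable abbrev psi (σ : R →ₐ[Lam p (ResidueField R) r] Ω) :
    Sx p (ResidueField R) d →+* WittVector p X.K.C :=
  (X.φ σ).comp (MvPowerSeries.map MvPowerSeries.C)

variable {C' : Type u} [CommRing C'] [CharP C' p] [PerfectRing C' p] (f : X.K.C →+* C')

/-- the honest module of the ideal `J` and of the character `σ`, over `R ⊗ W(C)`. -/
abbrev HJ (σ : R →ₐ[Lam p (ResidueField R) r] Ω) (J : Ideal X.K.C) : Type u :=
  NatG.HJ p f X.Φ X.Φ_surj X.E X.ker_Φ (X.psi σ) J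

/-- the same over `R ⊗ W(C')`. -/
abbrev HJ' (σ : R →ₐ[Lam p (ResidueField R) r] Ω) (J : Ideal X.K.C) : Type u :=
  NatG.HJ' p f X.Φ X.Φ_surj X.E X.ker_Φ (X.psi σ) J

/-- `α ^ (m + 1) H`. -/
noncomputable abbrev KJ (σ : R →ₐ[Lam p (ResidueField R) r] Ω) (J : Ideal X.K.C) (m : ℕ) :
    Submodule (R ⊗[ℤ] WittVector p X.K.C) (X.HJ f σ J) :=
  NatG.KJ p f X.Φ X.Φ_surj X.E X.ker_Φ (X.psi σ) J X.α m

end Core

end Vale.Agent.P177.Full
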