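import Vale.Agent.P177.Full.Fin
import Vale.Agent.P177.Nat.ChiD
import Vale.Agent.P177.Nat.BaseH

/-!
P177, assembly: finiteness of the masses of `Tor_i(H_J, R / P)` for the honest modules of the
eigencharacters.
-/

namespace Vale.Agent.P177.Full

open TensorProduct IsLocalRing Function Vale.Agent.P202.Mix Vale.Agent.P177.PI
  Vale.Agent.P177.KM Vale.Agent.P177.KG Vale.Agent.P177.NatG WittVector
open scoped ENNReal

universe u

variable {p : ℕ} [hp : Fact p.Prime] {S R C C' : Type u} [CommRing S] [CommRing R]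
  [CommRing C] [CharP C p] [PerfectRing C p] [CommRing C'] [CharP C' p] [PerfectRing C' p]
  (f : C →+* C') (Φ : S →+* R) (hΦ : Surjective Φ) (E : S) (hE : RingHom.ker Φ = Ideal.span {E})
  (ψ : S →+* WittVector p C)

/-- `W(C) → R ⊗ W(C')`. -/
noncomputable abbrev iWC (p : ℕ) [Fact p.Prime] (R : Type u) [CommRing R] {C C' : Type u}
    [CommRing C] [CommRing C'] (f : C →+* C') : WittVector p C →+* R ⊗[ℤ] WittVector p C' :=
  ((Algebra.TensorProduct.includeRight : WittVector p C' →ₐ[ℤ]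
    R ⊗[ℤ] WittVector p C').toRingHom).comp (WittVector.map f)

omit [CharP C p] [PerfectRing C p] in
/-- Koszul masses of the honest module over `R ⊗ W(C')`. -/
theorem KC_HJ' (L : AddLen (WittVector p C)) (J : Ideal C) (hJ' : IsPerf p (J.map f))
    (t : C) (ht : f t ∈ nonZeroDivisors C') {n : ℕ} (us : Fin n → C)
    {z w : WittVector p C'} {M : ℕ} (hz : IsUnit z) (hM : 1 ≤ M)
    (hE' : WittVector.map f (ψ E) = ((p : WittVector p C') - teichmuller p (f t)) * z +
      (p : WittVector p C') ^ M * w)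
    (ud : Fin n → R)
    (hu : ∀ l, ∃ b, rhoR Φ hΦ E hE ((WittVector.map f).comp ψ) (ud l) =
      Ideal.Quotient.mk _ (teichmuller p (f (us l)) + p * b)) (i : ℕ) :
    let := ((WittVector.constantCoeff (p := p) (R := C')).comp (WittVector.map f)).toAlgebra
    (ALen.of ((L.restrict (WittVector.map f)).restrict (Algebra.TensorProduct.includeRight :
        WittVector p C' →ₐ[ℤ] R ⊗[ℤ] WittVector p C').toRingHom)).len
      ((KC (HJ' p f Φ hΦ E hE ψ J) ((p : R ⊗[ℤ] WittVector p C') ::
        List.ofFn fun l => (ud l ⊗ₜ[ℤ] (1 : WittVector p C')))).H i) =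
      (ALen.of L).len ((KC (R := WittVector p C) ↥(J.map f) (teichmuller p t ::
        List.ofFn fun l => teichmuller p (us l))).H i) := by
  intro _
  let _ : Algebra (WittVector p C) (R ⊗[ℤ] WittVector p C') := (iWC p R f).toAlgebra
  have hE0 : (((WittVector.map f).comp ψ) E).coeff 0 = (-z.coeff 0) * f t := by
    have h1 := congrArg (WittVector.constantCoeff (p := p) (R := C')) hE'
    rw [map_add, map_mul, map_sub, map_mul, map_pow, map_natCast, CharP.cast_eq_zero,
      zero_pow (by omega), zero_mul, add_zero, zero_sub] at h1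
    have h2 : (WittVector.constantCoeff (p := p) (R := C')) (teichmuller p (f t)) = f t :=
      teichmuller_coeff_zero p (f t)
    rw [h2] at h1
    have h3 : (((WittVector.map f).comp ψ) E).coeff 0 =
      (WittVector.constantCoeff (p := p) (R := C')) (WittVector.map f (ψ E)) := rfl
    rw [h3, h1]
    change -f t * z.coeff 0 = _
    ring
  have hz0 : IsUnit (-z.coeff 0) :=
    (hz.map (WittVector.constantCoeff (p := p) (R := C'))).neg
  obtain ⟨v, hv⟩ := hz0
  have key := MN.KC_len_HMod (V := WittVector p C) (D := R ⊗[ℤ] WittVector p C') p (ALen.of L)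
    (WittVector.map f) hJ' (((WittVector.map f).comp ψ) E)
    (rhoD Φ hΦ E hE ((WittVector.map f).comp ψ) (RingHom.id (WittVector p C')))
    (fun v => by
      change rhoD Φ hΦ E hE ((WittVector.map f).comp ψ) (RingHom.id (WittVector p C'))
        (1 ⊗ₜ WittVector.map f v) = _
      rw [rhoD_right]
      rfl) (teichmuller p t)
    (by
      rw [map_teichmuller, teichmuller_coeff_zero]
      exact ht) v (by
      rw [hE0, map_teichmuller, teichmuller_coeff_zero, hv])
    (fun l => (ud l ⊗ₜ[ℤ] (1 : WittVector p C'))) (fun l => teichmuller p (us l))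
    (fun l => by
      obtain ⟨b, hb⟩ := hu l
      refine ⟨b, ?_⟩
      rw [rhoD_tmul, hb, map_one, map_one, mul_one, map_teichmuller]) i
  exact key

omit [CharP C p] [PerfectRing C p] [CharP C' p] [PerfectRing C' p] in
/-- elements of `(hs)` act on the honest modules as multiples of `p ^ M`. -/
theorem exists_rhoR_of_mem (hs : List R) (c : ℕ)
    (hh : ∀ h ∈ hs, ∃ y, rhoR Φ hΦ E hE ((WittVector.map f).comp ψ) h =
      Ideal.Quotient.mk _ ((p : WittVector p C') ^ c * y)) {β : R}
    (hβ : β ∈ Ideal.ofList hs) : ∃ y, rhoR Φ hΦ E hE ((WittVector.map f).comp ψ) β =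
      Ideal.Quotient.mk _ ((p : WittVector p C') ^ c * y) := by
  refine Submodule.span_induction (p := fun β _ => ∃ y, rhoR Φ hΦ E hE
    ((WittVector.map f).comp ψ) β = Ideal.Quotient.mk _ ((p : WittVector p C') ^ c * y))
    ?_ ?_ ?_ ?_ hβ
  · intro h hmem
    exact hh h hmem
  · exact ⟨0, by rw [map_zero, mul_zero, map_zero]⟩
  · rintro a b _ _ ⟨y, hy⟩ ⟨y', hy'⟩
    exact ⟨y + y', by rw [map_add, hy, hy', ← map_add, mul_add]⟩
  · rintro a b _ ⟨y, hy⟩
    obtain ⟨a', ha'⟩ := Ideal.Quotient.mk_surjective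
      (rhoR Φ hΦ E hE ((WittVector.map f).comp ψ) a)
    refine ⟨a' * y, ?_⟩
    rw [smul_eq_mul, map_mul, hy, ← ha', ← map_mul]
    congr 1
    ring

/-- **finiteness of the masses of `Tor(H_J, R / P)`.** -/
theorem fin_HJ [IsRegularLocalRing R] (L : AddLen (WittVector p C)) (P : Ideal R)
    (hs : List R) (hm : maximalIdeal R ≤ (P ⊔ Ideal.ofList hs).radical)
    (J : Ideal C) (hJ' : IsPerf p (J.map f))
    (t : C) (ht : f t ∈ nonZeroDivisors C') {n : ℕ} (us : Fin n → C)
    (hmass : let := ((WittVector.constantCoeff (p := p) (R := C')).comp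
        (WittVector.map f)).toAlgebra
      ∀ i, (ALen.of L).len ((KC (R := WittVector p C) ↥(J.map f) (teichmuller p t ::
        List.ofFn fun l => teichmuller p (us l))).H i) < ⊤)
    {z w : WittVector p C'} {M : ℕ} (hz : IsUnit z) (hM : 1 ≤ M)
    (hE' : WittVector.map f (ψ E) = ((p : WittVector p C') - teichmuller p (f t)) * z +
      (p : WittVector p C') ^ M * w)
    (ud : Fin n → R) (hud : ∀ l, ud l ∈ maximalIdeal R)
    (hu : ∀ l, ∃ b, rhoR Φ hΦ E hE ((WittVector.map f).comp ψ) (ud l) =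
      Ideal.Quotient.mk _ (teichmuller p (f (us l)) + p * b))
    (hpR : (p : R) ∈ maximalIdeal R) (c : ℕ)
    (hh : ∀ h ∈ hs, ∃ y, rhoR Φ hΦ E hE ((WittVector.map f).comp ψ) h =
      Ideal.Quotient.mk _ ((p : WittVector p C') ^ (c + 1) * y))
    {α β : R} (hα : α ∈ P) (hβ : β ∈ Ideal.ofList hs) (hαβ : (p : R) ^ c = α + β) (i : ℕ) :
    (L.restrict (Algebra.TensorProduct.includeRight :
      WittVector p C →ₐ[ℤ] R ⊗[ℤ] WittVector p C).toRingHom).len
      (TorM (R ⊗[ℤ] WittVector p C) i (HJ p f Φ hΦ E hE ψ J)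
        ((R ⊗[ℤ] WittVector p C) ⊗[R] (R ⧸ P))) < ⊤ := by
  rw [len_tor_HJ_W]
  have hflat := flat_tensor_witt p C' R
  have hE'' : ((WittVector.map f).comp ψ) E = ((p : WittVector p C') - teichmuller p (f t)) * z +
      (p : WittVector p C') ^ M * w := hE'
  obtain ⟨yβ, hyβ⟩ := exists_rhoR_of_mem f Φ hΦ E hE ψ hs (c + 1) hh hβ
  have hact : ∀ (r : R) (y : WittVector p C') (_ : rhoR Φ hΦ E hE ((WittVector.map f).comp ψ) r =
      Ideal.Quotient.mk _ y) (x : HJ' p f Φ hΦ E hE ψ J),
      algebraMap R (R ⊗[ℤ] WittVector p C') r • x = y • x := by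
    intro r y hy x
    refine hmod_smul _ _ ?_ x
    change rhoD Φ hΦ E hE ((WittVector.map f).comp ψ) (RingHom.id (WittVector p C'))
      (r ⊗ₜ 1) = _
    rw [rhoD_tmul, hy, map_one, map_one, mul_one]
  have hpact : ∀ (k : ℕ) (x : HJ' p f Φ hΦ E hE ψ J),
      ((p : R ⊗[ℤ] WittVector p C') ^ k) • x = ((p : WittVector p C') ^ k) • x := by
    intro k x
    refine hmod_smul _ _ ?_ x
    rw [map_pow, map_pow, map_natCast, map_natCast]
  have hract : ∀ (v : WittVector p C') (x : HJ' p f Φ hΦ E hE ψ J),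
      ((1 : R) ⊗ₜ[ℤ] v) • x = v • x := by
    intro v x
    refine hmod_smul _ _ ?_ x
    rw [rhoD_right]
    rfl
  refine fin_honest ((L.restrict (WittVector.map f)).restrict (Algebra.TensorProduct.includeRight :
        WittVector p C' →ₐ[ℤ] R ⊗[ℤ] WittVector p C').toRingHom) P hs hm
    (HJ' p f Φ hΦ E hE ψ J)
    (Fin.cons (p : R ⊗[ℤ] WittVector p C') fun l => (ud l ⊗ₜ[ℤ] (1 : WittVector p C')))
    (Fin.cons (p : R ⊗[ℤ] WittVector p C') fun l => (ud l ⊗ₜ[ℤ] (1 : WittVector p C')))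
    (fun _ _ => rfl) ?_ ?_ ((p : R ⊗[ℤ] WittVector p C') ^ c) ?_ ?_ α β hα ?_
    ((1 : R) ⊗ₜ[ℤ] ((p : WittVector p C') * yβ)) ?_ ?_ i
  · intro l
    refine Fin.cases ?_ (fun l => ?_) l
    · rw [Fin.cons_zero]
      have h1 : (p : R ⊗[ℤ] WittVector p C') = algebraMap R _ (p : R) := (map_natCast _ _).symm
      rw [h1]
      exact Ideal.mem_map_of_mem _ hpR
    · rw [Fin.cons_succ]
      exact Ideal.mem_map_of_mem (algebraMap R (R ⊗[ℤ] WittVector p C')) (hud l)
  · intro q
    have h1 : List.ofFn (Fin.cons (p : R ⊗[ℤ] WittVector p C') fun l =>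
        (ud l ⊗ₜ[ℤ] (1 : WittVector p C')) : Fin (n + 1) → R ⊗[ℤ] WittVector p C') =
        (p : R ⊗[ℤ] WittVector p C') :: List.ofFn fun l =>
          (ud l ⊗ₜ[ℤ] (1 : WittVector p C')) := by
      rw [List.ofFn_succ]
      rfl
    rw [h1, KC_HJ' f Φ hΦ E hE ψ L J hJ' t ht us hz hM hE' ud hu q]
    exact hmass q
  · intro x hx
    exact smul_eq_zero_H p hJ' ht hz hM hE'' _ ((p : R ⊗[ℤ] WittVector p C') ^ c) c 1 isUnit_one
      (by rw [map_pow, map_natCast, mul_one, map_pow, map_natCast]) x hx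
  · intro h hmem x
    obtain ⟨y, hy⟩ := hh h hmem
    refine ⟨((p : WittVector p C') * y) • x, ?_⟩
    have e1 : (p : WittVector p C') ^ (c + 1) * y = (p : WittVector p C') ^ c *
        ((p : WittVector p C') * y) := by ring
    rw [hact h _ hy x, hpact, smul_smul, e1]
  · rw [← hαβ, map_pow, map_natCast]
  · have h2 : IsUnit (1 - (p : WittVector p C') * yβ) := by
      have h3 := one_add_p_mul_isUnit (-yβ)
      rwa [mul_neg, ← sub_eq_add_neg] at h3
    have h4 := h2.map (Algebra.TensorProduct.includeRight :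
      WittVector p C' →ₐ[ℤ] R ⊗[ℤ] WittVector p C')
    rw [map_sub, map_one] at h4
    exact h4
  · intro x
    have e1 : (p : WittVector p C') ^ (c + 1) * yβ = (p : WittVector p C') ^ c *
        ((p : WittVector p C') * yβ) := by ring
    have e2 : ((p : R ⊗[ℤ] WittVector p C') ^ c * ((1 : R) ⊗ₜ[ℤ] ((p : WittVector p C') * yβ))) •
        x = (p : WittVector p C') ^ c • ((p : WittVector p C') * yβ) • x := by
      rw [mul_smul, hract, hpact]
    rw [hact β _ hyβ x, e2, smul_smul, e1]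

end Vale.Agent.P177.Full
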