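import Vale.Agent.P177.Full.Adm
import Vale.Agent.P177.Full.FlagP
import Vale.Agent.P177.Full.FinH
import Vale.Agent.P177.Nat.NatZ
import Vale.Agent.P177.Nat.MassW

/-!
P177, assembly: the Koszul masses of the ideals `J` of the package and of their extensions to the
NAT ring.
-/

namespace Vale.Agent.P177.Full

open TensorProduct IsLocalRing Function Vale.Agent.P202.Mix Vale.Agent.P177.PI
  Vale.Agent.P177.KM Vale.Agent.P177.KG Vale.Agent.P177.NatG Vale.Agent.P177.CN
  Vale.Agent.P177.Perf Vale.Agent.P177.Lev WittVector Polynomial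
open scoped ENNReal

universe u

namespace Pkg

variable {p : ℕ} [hp : Fact p.Prime] {k : Type u} [Field k] [CharP k p] {r : ℕ}
variable {Λ : Type u} [CommRing Λ] [IsLocalRing Λ] {ψ : Λ →+* WittVector p (Rp p k r)}
variable {Ω : Type u} [Field Ω] [Algebra Λ Ω] {s : ℕ} {b : Fin s → Ω} {F G : Fin s → Λ[X]}
    {D : ℕ} {ε : ℝ≥0∞} {Φ : ℕ → ℕ} (K : Pkg ψ b F G D ε Φ)

theorem JK_eq (n : ℕ) (ix : ∀ j, (Fin j → Fin n) → Fin s) (z : Fin n → ℤ) :
    K.J n ix z = K.JK (fun (i : Fin n) (t : Fin ((i : ℕ) + 1) → Fin n) => ix (i + 1) t)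
      (fun i => (z i).toNat) := rfl

theorem SP_J (n : ℕ) (ix : ∀ j, (Fin j → Fin n) → Fin s) (z : Fin n → ℤ) : SP p (K.J n ix z) :=
  SP_pi fun _ => SP_perfHull _

/-- **finiteness of the Koszul masses of the ideals of the package.** -/
theorem KC_J_lt_top [IsNoetherianRing Λ] {u' : Fin r → Λ}
    {red : Λ →+* R0 k r ⧸ Ideal.span {(MvPowerSeries.X 0 : R0 k r)}}
    (hb : IsBase p k r Λ u' ψ red) (hΦ : ∀ j, j * (p ^ j * p ^ j) ≤ Φ j)
    (n : ℕ) (ix : ∀ j, (Fin j → Fin n) → Fin s) (z : Fin n → ℤ)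
    (hidx : ∀ i : Fin n, ∃ t, b (ix ((i : ℕ) + 1) t) ≠ 0) (q : ℕ) :
    let := algW p K.C
    (ALen.of K.mass).len ((KC (R := WittVector p K.C) ↥(K.J n ix z)
      (List.ofFn fun l => teichmuller p (xC p k r K.C l))).H q) < ⊤ :=
  K.KC_lt_top hb hΦ (fun (i : Fin n) (t : Fin ((i : ℕ) + 1) → Fin n) => ix (i + 1) t) hidx
    (fun i => (z i).toNat) q

/-- the case of the unit ideal. -/
theorem KC_top_lt_top [IsNoetherianRing Λ] {u' : Fin r → Λ}
    {red : Λ →+* R0 k r ⧸ Ideal.span {(MvPowerSeries.X 0 : R0 k r)}}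
    (hb : IsBase p k r Λ u' ψ red) (hΦ : ∀ j, j * (p ^ j * p ^ j) ≤ Φ j) (q : ℕ) :
    let := algW p K.C
    (ALen.of K.mass).len ((KC (R := WittVector p K.C) ↥(⊤ : Ideal K.C)
      (List.ofFn fun l => teichmuller p (xC p k r K.C l))).H q) < ⊤ := by
  intro _
  have h1 := K.KC_lt_top hb hΦ (R := 0) (κ := fun _ => Unit) (fun i => i.elim0)
    (fun i => i.elim0) (fun i => i.elim0) q
  have h2 : K.JK (R := 0) (κ := fun _ => Unit) (fun i => i.elim0) (fun i => i.elim0) = ⊤ := by
    rw [Ideal.eq_top_iff_one]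
    intro e
    apply le_perfHull
    rw [Fin.prod_univ_zero, Ideal.one_eq_top]
    trivial
  rw [h2] at h1
  exact h1

theorem te_coeff_zero_map {C C' : Type u} [CommRing C] [CommRing C'] (f : C →+* C')
    (a : C) : ((WittVector.constantCoeff (p := p) (R := C')).comp (WittVector.map f))
      (teichmuller p a) = f a := by
  rw [RingHom.comp_apply, map_teichmuller]
  exact teichmuller_coeff_zero p (f a)

/-- **finiteness of the Koszul masses of `J C'`.** -/
theorem KC_map_lt_top {η' : K.C} (hη' : Kil K.mass (teichmuller p η'))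
    (Z : NatZ p K.C (tC p k r K.C) η') (J : Ideal K.C) (hJ : SP p J)
    (hfin : let := algW p K.C
      ∀ q, (ALen.of K.mass).len ((KC (R := WittVector p K.C) ↥J
        (List.ofFn fun l => teichmuller p (xC p k r K.C l))).H q) < ⊤) :
    let := ((WittVector.constantCoeff (p := p) (R := Z.C')).comp
        (WittVector.map Z.f)).toAlgebra
      ∀ q, (ALen.of K.mass).len ((KC (R := WittVector p K.C) ↥(J.map Z.f)
        (teichmuller p (tC p k r K.C) ::
        List.ofFn fun l : Fin r => teichmuller p (xC p k r K.C l.succ))).H q) < ⊤ := by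
  let _ := algW p K.C
  let _ : Algebra (WittVector p K.C) Z.C' :=
    ((WittVector.constantCoeff (p := p) (R := Z.C')).comp (WittVector.map Z.f)).toAlgebra
  intro _ q
  let fA : K.C →ₐ[WittVector p K.C] Z.C' :=
    { Z.f with
      commutes' := fun w => by
        change Z.f (w.coeff 0) = (WittVector.map Z.f w).coeff 0
        rw [WittVector.map_coeff] }
  have ht : tC p k r K.C ∈ nonZeroDivisors K.C := K.t_reg
  have ht' := Z.reg
  have e1 : ∀ a : K.C, algebraMap (WittVector p K.C) K.C (teichmuller p a) = a := fun a =>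
    teichmuller_coeff_zero p a
  have e2 : ∀ a : K.C, algebraMap (WittVector p K.C) Z.C' (teichmuller p a) = Z.f a := fun a =>
    te_coeff_zero_map Z.f a
  have key := MN.KC_len_J_eq (ALen.of K.mass) (η := teichmuller p η')
    (fun M _ _ hM => hη' M hM) fA (teichmuller p (tC p k r K.C)) J (J.map Z.f)
    (fun x hx => Ideal.mem_map_of_mem Z.f hx)
    (fun x _ h => by
      rw [e1] at h
      exact (mem_nonZeroDivisors_iff_left.1 ht) x h)
    (fun x _ h => by
      rw [e2] at h
      exact (mem_nonZeroDivisors_iff_left.1 ht') x h)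
    (fun y hy => by
      rw [e2, e2]
      obtain ⟨a, ha, z, hz, h⟩ := Z.n1 J y hy
      exact ⟨a, ha, z, hz, h⟩)
    (fun x hx z hz h => by
      rw [e2] at h
      rw [e1, e1]
      obtain ⟨x', hx', h'⟩ := Z.n2 J hJ x hx ⟨z, hz, h⟩
      exact ⟨x', hx', h'⟩)
    (List.ofFn fun l : Fin r => teichmuller p (xC p k r K.C l.succ)) q
  rw [← key]
  have h3 := hfin q
  rw [List.ofFn_succ] at h3
  exact h3

end Pkg

end Vale.Agent.P177.Full
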