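import Vale.Agent.P177.Full.MainB
import Vale.Agent.P177.Full.CoreDefs
import Vale.Agent.P177.Full.FinH
import Vale.Agent.P177.Full.FinJ
import Vale.Agent.P177.Nat.AnnE

/-!
P177, assembly: finiteness of the masses of `Tor_i(H_J, R / P)` for the data of two flags.
-/

namespace Vale.Agent.P177.Full

open TensorProduct IsLocalRing RingTheory.Sequence Function Module Vale.Agent.P177.Flag
  Vale.Agent.P202.Mix Vale.Agent.P177.Lev WittVector Vale.Agent.P177.KG Vale.Agent.P177.PI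
  Vale.Agent.P177.KM Vale.Agent.P177.NatG Vale.Agent.P177.CN Vale.Agent.P177.NatC
  Vale.Agent.P177.Perf
open scoped ENNReal

universe u

section XM

variable {p : ℕ} [hp : Fact p.Prime] {S R C C' : Type u} [CommRing S] [CommRing R]
  [CommRing C] [CommRing C']
  (f : C →+* C') (Φ : S →+* R) (hΦ : Surjective Φ) (E : S) (hE : RingHom.ker Φ = Ideal.span {E})
  (ψ : S →+* WittVector p C)

/-- classes modulo `E = (p - [t]) z + p ^ M w`. -/
theorem rhoR_of_mem_XM {t : C'} {M : ℕ} {z w : WittVector p C'} (hz : IsUnit z)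
    (hE' : WittVector.map f (ψ E) = ((p : WittVector p C') - teichmuller p t) * z +
      (p : WittVector p C') ^ M * w) (s : S) {x : R} (hs : Φ s = x)
    (u : WittVector p C') (hx : WittVector.map f (ψ s) - u ∈ XM p t M) :
    ∃ y, rhoR Φ hΦ E hE ((WittVector.map f).comp ψ) x =
      Ideal.Quotient.mk _ (u + (p : WittVector p C') ^ M * y) := by
  subst hs
  obtain ⟨a, b, hab⟩ := (mem_XM p).1 hx
  obtain ⟨v, hv⟩ := hz.exists_right_inv
  refine ⟨b - w * v * a, ?_⟩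
  rw [rhoR_apply, Ideal.Quotient.eq, Ideal.mem_span_singleton]
  refine ⟨v * a, ?_⟩
  rw [RingHom.comp_apply, RingHom.comp_apply, hE']
  linear_combination hab - (((p : WittVector p C') - teichmuller p t) * a) * hv

theorem rhoR_of_mem_XM_one {t : C'} {M : ℕ} (hM : 1 ≤ M) {z w : WittVector p C'} (hz : IsUnit z)
    (hE' : WittVector.map f (ψ E) = ((p : WittVector p C') - teichmuller p t) * z +
      (p : WittVector p C') ^ M * w) (s : S) {x : R} (hs : Φ s = x)
    (u : WittVector p C') (hx : WittVector.map f (ψ s) - u ∈ XM p t M) :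
    ∃ y, rhoR Φ hΦ E hE ((WittVector.map f).comp ψ) x =
      Ideal.Quotient.mk _ (u + (p : WittVector p C') * y) := by
  obtain ⟨y, hy⟩ := rhoR_of_mem_XM f Φ hΦ E hE ψ hz hE' s hs u hx
  refine ⟨(p : WittVector p C') ^ (M - 1) * y, ?_⟩
  rw [hy, ← mul_assoc, ← pow_succ', Nat.sub_add_cancel hM]

theorem rhoR_of_mem_XM_zero {t : C'} {M c : ℕ} (hM : c ≤ M) {z w : WittVector p C'}
    (hz : IsUnit z)
    (hE' : WittVector.map f (ψ E) = ((p : WittVector p C') - teichmuller p t) * z +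
      (p : WittVector p C') ^ M * w) (s : S) {x : R} (hs : Φ s = x)
    (hx : WittVector.map f (ψ s) ∈ XM p t M) :
    ∃ y, rhoR Φ hΦ E hE ((WittVector.map f).comp ψ) x =
      Ideal.Quotient.mk _ ((p : WittVector p C') ^ c * y) := by
  rw [← sub_zero (WittVector.map f (ψ s))] at hx
  obtain ⟨y, hy⟩ := rhoR_of_mem_XM f Φ hΦ E hE ψ hz hE' s hs 0 hx
  refine ⟨(p : WittVector p C') ^ (M - c) * y, ?_⟩
  rw [hy, ← mul_assoc, ← pow_add, Nat.add_sub_cancel' hM, zero_add]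

end XM

namespace Core

variable {p : ℕ} [Fact p.Prime] {R : Type u} [CommRing R] [IsRegularLocalRing R]
    [CharP (ResidueField R) p] [PerfectRing (ResidueField R) p] {d : ℕ} {P : Ideal R}
    {hs : List R} {r : ℕ} [IsRegularLocalRing (Lam p (ResidueField R) r)]
    [Algebra (Lam p (ResidueField R) r) R] {Ω : Type u} [Field Ω]
    [Algebra (Lam p (ResidueField R) r) Ω] {F : Fin 2 → FlagMod (Lam p (ResidueField R) r) Ω hs}
    (X : Core p d P hs r Ω F)

/-- the Koszul masses of the ideals of the family. -/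
theorem KC_J_lt_top (i : Fin 2) (z : Fin (F i).n → ℤ) (q : ℕ) :
    let := algW p X.K.C
    (ALen.of X.K.mass).len ((KC (R := WittVector p X.K.C) ↥(X.K.J (F i).n (X.pl i) z)
      (List.ofFn fun l => teichmuller p (xC p (ResidueField R) r X.K.C l))).H q) < ⊤ := by
  refine X.K.KC_J_lt_top X.base (fun j => ?_) (F i).n (X.pl i) z (fun j => ?_) q
  · exact (Nat.mul_le_mul_right _ (Nat.le_add_right _ _)).trans (X.gr_le j)
  · obtain ⟨t, ht⟩ := (F i).flag.exists_detT_ne_zero ((j : ℕ) + 1) j.2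
    exact ⟨t, by rwa [X.pl_spec i _ j.2 t]⟩

theorem KC_top_lt_top (q : ℕ) :
    let := algW p X.K.C
    (ALen.of X.K.mass).len ((KC (R := WittVector p X.K.C) ↥(⊤ : Ideal X.K.C)
      (List.ofFn fun l => teichmuller p (xC p (ResidueField R) r X.K.C l))).H q) < ⊤ :=
  X.K.KC_top_lt_top X.base
    (fun j => (Nat.mul_le_mul_right _ (Nat.le_add_right _ _)).trans (X.gr_le j)) q

theorem LD_len (M : Type u) [AddCommGroup M] [Module (R ⊗[ℤ] WittVector p X.K.C) M] :
    X.LD.len M = (X.K.mass.restrict (Algebra.TensorProduct.includeRight :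
      WittVector p X.K.C →ₐ[ℤ] R ⊗[ℤ] WittVector p X.K.C).toRingHom).len M := rfl

/-- **finiteness of the masses of `Tor(H_J, R / P)`.** -/
theorem len_tor_HJ_lt_top (hN : Norm p R r hs)
    (hrad : maximalIdeal R ≤ (P ⊔ Ideal.ofList hs).radical) {η' : X.K.C}
    (hη' : Kil X.K.mass (teichmuller p η'))
    (Z : NatZ p X.K.C (tC p (ResidueField R) r X.K.C) η')
    (ψ : Sx p (ResidueField R) d →+* WittVector p X.K.C) {M : ℕ} (hM : X.c0 + 1 ≤ M)
    (h1 : ∃ z w, IsUnit z ∧ WittVector.map Z.f (ψ ((p : Sx p (ResidueField R) d) - X.g)) =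
      ((p : WittVector p Z.C') - teichmuller p (Z.f (tC p (ResidueField R) r X.K.C))) * z +
        (p : WittVector p Z.C') ^ M * w)
    (h3 : ∀ s, X.Φ s ∈ hs → WittVector.map Z.f (ψ s) ∈
      XM p (Z.f (tC p (ResidueField R) r X.K.C)) M)
    (h5 : ∀ (l : Fin r) (s), X.Φ s = algebraMap (Lam p (ResidueField R) r) R (MvPowerSeries.X l) →
      WittVector.map Z.f (ψ s) -
        teichmuller p (Z.f (xC p (ResidueField R) r X.K.C l.succ)) ∈
      XM p (Z.f (tC p (ResidueField R) r X.K.C)) M)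
    (J : Ideal X.K.C) (hJ : CN.SP p J)
    (hmass : let := algW p X.K.C
      ∀ q, (ALen.of X.K.mass).len ((KC (R := WittVector p X.K.C) ↥J
      (List.ofFn fun l => teichmuller p (xC p (ResidueField R) r X.K.C l))).H q) < ⊤) (i : ℕ) :
    X.LD.len (TorM (R ⊗[ℤ] WittVector p X.K.C) i
      (NatG.HJ p Z.f X.Φ X.Φ_surj ((p : Sx p (ResidueField R) d) - X.g) X.Φ_ker ψ J)
      ((R ⊗[ℤ] WittVector p X.K.C) ⊗[R] (R ⧸ P))) < ⊤ := by
  obtain ⟨z, w, hz, hE⟩ := h1
  have hM1 : 1 ≤ M := by omega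
  have hpR : (p : R) ∈ maximalIdeal R := by
    rw [← residue_eq_zero_iff, map_natCast, CharP.cast_eq_zero]
  rw [LD_len]
  refine fin_HJ Z.f X.Φ X.Φ_surj _ X.Φ_ker ψ X.K.mass P hs hrad J (CN.SP.isPerf p (CN.SP.map Z.f hJ))
    (tC p (ResidueField R) r X.K.C) Z.reg
    (fun l : Fin r => xC p (ResidueField R) r X.K.C l.succ)
    (X.K.KC_map_lt_top hη' Z J hJ hmass) hz hM1 hE
    (fun l => algebraMap (Lam p (ResidueField R) r) R (MvPowerSeries.X l)) hN.X_mem (fun l => ?_)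
    hpR X.c0 (fun h hmem => ?_) X.α_mem X.β_mem X.α_add i
  · obtain ⟨s, hs⟩ := X.Φ_surj (algebraMap (Lam p (ResidueField R) r) R (MvPowerSeries.X l))
    exact rhoR_of_mem_XM_one Z.f X.Φ X.Φ_surj _ X.Φ_ker ψ hM1 hz hE s hs _ (h5 l s hs)
  · obtain ⟨s, hs'⟩ := X.Φ_surj h
    exact rhoR_of_mem_XM_zero Z.f X.Φ X.Φ_surj _ X.Φ_ker ψ hM hz hE s hs' (h3 s (hs' ▸ hmem))

section fam

variable {η' : X.K.C} (Z : NatZ p X.K.C (tC p (ResidueField R) r X.K.C) η')
  (σ : R →ₐ[Lam p (ResidueField R) r] Ω) {M : ℕ}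

/-- finiteness for the ideals of the flags. -/
theorem fin_HJ_J (hN : Norm p R r hs)
    (hrad : maximalIdeal R ≤ (P ⊔ Ideal.ofList hs).radical)
    (hη' : Kil X.K.mass (teichmuller p η')) (hM : X.c0 + 1 ≤ M)
    (h1 : ∃ z w, IsUnit z ∧ WittVector.map Z.f (X.psi σ X.E) =
      ((p : WittVector p Z.C') - teichmuller p (Z.f (tC p (ResidueField R) r X.K.C))) * z +
        (p : WittVector p Z.C') ^ M * w)
    (h3 : ∀ s, X.Φ s ∈ hs → WittVector.map Z.f (X.psi σ s) ∈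
      XM p (Z.f (tC p (ResidueField R) r X.K.C)) M)
    (h5 : ∀ (l : Fin r) (s), X.Φ s = algebraMap (Lam p (ResidueField R) r) R (MvPowerSeries.X l) →
      WittVector.map Z.f (X.psi σ s) -
        teichmuller p (Z.f (xC p (ResidueField R) r X.K.C l.succ)) ∈
      XM p (Z.f (tC p (ResidueField R) r X.K.C)) M)
    (i : Fin 2) (z : Fin (F i).n → ℤ) (j : ℕ) :
    X.LD.len (TorM (R ⊗[ℤ] WittVector p X.K.C) j
      (X.HJ Z.f σ (X.K.J (F i).n (X.pl i) z))
      ((R ⊗[ℤ] WittVector p X.K.C) ⊗[R] (R ⧸ P))) < ⊤ :=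
  X.len_tor_HJ_lt_top hN hrad hη' Z (X.psi σ) hM h1 h3 h5 _
    (X.K.SP_J (F i).n (X.pl i) z) (X.KC_J_lt_top i z) j

/-- finiteness for the unit ideal. -/
theorem fin_HJ_top (hN : Norm p R r hs)
    (hrad : maximalIdeal R ≤ (P ⊔ Ideal.ofList hs).radical)
    (hη' : Kil X.K.mass (teichmuller p η')) (hM : X.c0 + 1 ≤ M)
    (h1 : ∃ z w, IsUnit z ∧ WittVector.map Z.f (X.psi σ X.E) =
      ((p : WittVector p Z.C') - teichmuller p (Z.f (tC p (ResidueField R) r X.K.C))) * z +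
        (p : WittVector p Z.C') ^ M * w)
    (h3 : ∀ s, X.Φ s ∈ hs → WittVector.map Z.f (X.psi σ s) ∈
      XM p (Z.f (tC p (ResidueField R) r X.K.C)) M)
    (h5 : ∀ (l : Fin r) (s), X.Φ s = algebraMap (Lam p (ResidueField R) r) R (MvPowerSeries.X l) →
      WittVector.map Z.f (X.psi σ s) -
        teichmuller p (Z.f (xC p (ResidueField R) r X.K.C l.succ)) ∈
      XM p (Z.f (tC p (ResidueField R) r X.K.C)) M) (j : ℕ) :
    X.LD.len (TorM (R ⊗[ℤ] WittVector p X.K.C) j (X.HJ Z.f σ ⊤)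
      ((R ⊗[ℤ] WittVector p X.K.C) ⊗[R] (R ⧸ P))) < ⊤ :=
  X.len_tor_HJ_lt_top hN hrad hη' Z (X.psi σ) hM h1 h3 h5 _
    (SP_top p) X.KC_top_lt_top j

end fam

end Core

end Vale.Agent.P177.Full
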