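import Vale.Agent.P177.Full.FinJ
import Vale.Agent.P177.SL.RhoK
import Vale.Agent.P177.Nat.NatT

/-!
P177, assembly: the Koszul masses of `W(C')` and of `WI (J C')` for the NAT ring `C'`: vanishing,
finiteness and positivity, in the form used by the vanishing and positivity theorems.
-/

namespace Vale.Agent.P177.Full

open TensorProduct IsLocalRing Function Vale.Agent.P202.Mix Vale.Agent.P177.PI
  Vale.Agent.P177.KM Vale.Agent.P177.KG Vale.Agent.P177.NatG Vale.Agent.P177.CN
  Vale.Agent.P177.Perf Vale.Agent.P177.Lev WittVector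
open scoped ENNReal Pointwise

universe u

section gen

theorem isWeaklyRegular_ofFn_of {A : Type u} [CommRing A] {n : ℕ} (x : Fin n → A)
    (h : ∀ (i : Fin n) (y : A), x i * y ∈ Ideal.span (x '' {l | l < i}) →
      y ∈ Ideal.span (x '' {l | l < i})) :
    RingTheory.Sequence.IsWeaklyRegular A (List.ofFn x) := by
  refine ⟨fun i hi => ?_⟩
  have hi' : i < n := by simpa using hi
  have h1 : (Ideal.ofList ((List.ofFn x).take i) • (⊤ : Submodule A A)) =
      Ideal.span (x '' {l | l < (⟨i, hi'⟩ : Fin n)}) := by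
    rw [smul_eq_mul, Ideal.mul_top, Ideal.ofList]
    congr 1
    ext y
    simp only [Set.mem_ofPred_eq, Set.mem_image, List.mem_take_iff_getElem, List.getElem_ofFn]
    constructor
    · rintro ⟨j, hj, rfl⟩
      have hj' : j < i := by omega
      exact ⟨⟨j, by omega⟩, hj', rfl⟩
    · rintro ⟨l, hl, rfl⟩
      have hl' : (l : ℕ) < i := hl
      refine ⟨l, ?_, rfl⟩
      rw [List.length_ofFn]
      omega
  rw [isSMulRegular_quotient_iff_mem_of_smul_mem, h1]
  intro y hy
  rw [List.getElem_ofFn] at hy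
  exact h ⟨i, hi'⟩ y hy

variable (p : ℕ) [hp : Fact p.Prime] {C C' : Type u} [CommRing C] [CommRing C'] [CharP C' p]
  [PerfectRing C' p]

/-- the masses of `WI J'` over `W(C')` and of `J'` over `W(C)`. -/
theorem len_KC_WI_restrict (f : C →+* C') (L : AddLen (WittVector p C)) {J' : Ideal C'}
    (hJ' : IsPerf p J') {n : ℕ} (xs : Fin n → C) (i : ℕ) :
    letI := ((WittVector.constantCoeff (p := p) (R := C')).comp (WittVector.map f)).toAlgebra
    (L.restrict (WittVector.map f)).len ((KC (R := WittVector p C') ↥(WI p J')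
      ((p : WittVector p C') :: List.ofFn fun l => teichmuller p (f (xs l)))).H i) =
      L.len ((KC (R := WittVector p C) ↥J' (List.ofFn fun l => teichmuller p (xs l))).H i) := by
  let _ : Algebra (WittVector p C) C' :=
    ((WittVector.constantCoeff (p := p) (R := C')).comp (WittVector.map f)).toAlgebra
  let _ : Algebra (WittVector p C) (WittVector p C') := (WittVector.map f).toAlgebra
  have h1 := MN.KC_len_WI (R := WittVector p C) (C := C') (ALen.of L) (fun r => rfl) hJ'
    (List.ofFn fun l => teichmuller p (xs l)) i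
  have h2 := len_KC_change (C := WittVector p C) (D := WittVector p C') (M := ↥(WI p J'))
    (ALen.of L) ((p : WittVector p C) :: List.ofFn fun l => teichmuller p (xs l)) i
  have h3 : ((p : WittVector p C) :: List.ofFn fun l => teichmuller p (xs l)).map
      (algebraMap (WittVector p C) (WittVector p C')) =
      (p : WittVector p C') :: List.ofFn fun l => teichmuller p (f (xs l)) := by
    rw [List.map_cons, map_natCast, List.map_ofFn]
    congr 2
    funext l
    exact map_teichmuller p f (xs l)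
  rw [h3] at h2
  exact h2.symm.trans h1

theorem WI_top_eq : WI p (⊤ : Ideal C') = ⊤ := by
  rw [Ideal.eq_top_iff_one, ← map_one (teichmuller p)]
  exact te_mem_WI p trivial

/-- `WI ⊤ ≃ W(C')`. -/
noncomputable def WItopE : ↥(WI p (⊤ : Ideal C')) ≃ₗ[WittVector p C'] WittVector p C' :=
  (LinearEquiv.ofEq _ _ (WI_top_eq p)).trans Submodule.topEquiv

variable [CharP C p] [PerfectRing C p]

/-- degree zero of the Koszul homology of the unit ideal. -/
theorem len_KC_top_H0 (L : ALen (WittVector p C)) {t : C} (ht : t ∈ nonZeroDivisors C)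
    (us : List (WittVector p C)) :
    letI := algW p C
    L.len ((KC ↥(⊤ : Ideal C) (teichmuller p t :: us)).H 0) =
      L.len (WittVector p C ⧸ Ideal.ofList ((p : WittVector p C) :: teichmuller p t :: us)) := by
  let _ := algW p C
  rw [← SL.len_KC_top_zero L ht us]
  exact (SL.len_KC_YJ L (fun _ _ _ _ _ _ _ _ => Submodule.mem_top) ht us 0).symm

/-- vanishing of the Koszul homology of the unit ideal. -/
theorem len_KC_top_pos (L : ALen (WittVector p C)) {xs : List C}
    (h : RingTheory.Sequence.IsWeaklyRegular C xs) (i : ℕ) :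
    letI := algW p C
    L.len ((KC ↥(⊤ : Ideal C) (xs.map (teichmuller p))).H (i + 1)) = 0 := by
  let _ := algW p C
  have h1 := SL.isWeaklyRegular_te (p := p) h
  rw [← (SL.topE (p := p) (C := C)).isWeaklyRegular_congr] at h1
  have := KC_H_succ_subsingleton _ ↥(⊤ : Ideal C) h1 i
  exact len_subsingleton L

end gen

namespace Pkg

variable {p : ℕ} [hp : Fact p.Prime] {k : Type u} [Field k] [CharP k p] {r : ℕ}
variable {Λ : Type u} [CommRing Λ] [IsLocalRing Λ] {ψ : Λ →+* WittVector p (Rp p k r)}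
variable {Ω : Type u} [Field Ω] [Algebra Λ Ω] {s : ℕ} {b : Fin s → Ω} {F G : Fin s → Polynomial Λ}
    {D : ℕ} {ε : ℝ≥0∞} {Φ : ℕ → ℕ} (K : Pkg ψ b F G D ε Φ)

/-- **the Koszul masses of `J` and of `J C'` are equal.** -/
theorem KC_map_eq {η' : K.C} (hη' : Kil K.mass (teichmuller p η'))
    (Z : NatZ p K.C (tC p k r K.C) η') (J : Ideal K.C) (hJ : SP p J) (q : ℕ) :
    letI := algW p K.C
    letI := ((WittVector.constantCoeff (p := p) (R := Z.C')).comp
        (WittVector.map Z.f)).toAlgebra
    K.mass.len ((KC (R := WittVector p K.C) ↥J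
      (List.ofFn fun l => teichmuller p (xC p k r K.C l))).H q) =
    K.mass.len ((KC (R := WittVector p K.C) ↥(J.map Z.f)
      (List.ofFn fun l => teichmuller p (xC p k r K.C l))).H q) := by
  let _ := algW p K.C
  let _ : Algebra (WittVector p K.C) Z.C' :=
    ((WittVector.constantCoeff (p := p) (R := Z.C')).comp (WittVector.map Z.f)).toAlgebra
  let fA : K.C →ₐ[WittVector p K.C] Z.C' :=
    { Z.f with
      commutes' := fun w => by
        change Z.f (w.coeff 0) = (WittVector.map Z.f w).coeff 0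
        rw [WittVector.map_coeff] }
  have ht : tC p k r K.C ∈ nonZeroDivisors K.C := K.t_reg
  have ht' := Z.reg
  have e1 : ∀ a : K.C, algebraMap (WittVector p K.C) K.C (teichmuller p a) = a := fun a =>
    teichmuller_coeff_zero p a
  have e2 : ∀ a : K.C, algebraMap (WittVector p K.C) Z.C' (teichmuller p a) = Z.f a := fun a =>
    te_coeff_zero_map Z.f a
  have key := MN.KC_len_J_eq (ALen.of K.mass) (η := teichmuller p η')
    (fun M _ _ hM => hη' M hM) fA (teichmuller p (tC p k r K.C)) J (J.map Z.f)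
    (fun x hx => Ideal.mem_map_of_mem Z.f hx)
    (fun x _ h => by
      rw [e1] at h
      exact (mem_nonZeroDivisors_iff_left.1 ht) x h)
    (fun x _ h => by
      rw [e2] at h
      exact (mem_nonZeroDivisors_iff_left.1 ht') x h)
    (fun y hy => by
      rw [e2, e2]
      obtain ⟨a, ha, z, hz, h⟩ := Z.n1 J y hy
      exact ⟨a, ha, z, hz, h⟩)
    (fun x hx z hz h => by
      rw [e2] at h
      rw [e1, e1]
      obtain ⟨x', hx', h'⟩ := Z.n2 J hJ x hx ⟨z, hz, h⟩
      exact ⟨x', hx', h'⟩)
    (List.ofFn fun l : Fin r => teichmuller p (xC p k r K.C l.succ)) q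
  rw [List.ofFn_succ]
  exact key

/-- the masses of `WI (J C')` over `W(C')` and of `J` over `W(C)`. -/
theorem KC_WI_map_eq {η' : K.C} (hη' : Kil K.mass (teichmuller p η'))
    (Z : NatZ p K.C (tC p k r K.C) η') (J : Ideal K.C) (hJ : SP p J) (q : ℕ) :
    letI := algW p K.C
    (K.mass.restrict (WittVector.map Z.f)).len ((KC (R := WittVector p Z.C')
      ↥(WI p (J.map Z.f)) ((p : WittVector p Z.C') ::
        List.ofFn fun l => teichmuller p (Z.f (xC p k r K.C l)))).H q) =
    K.mass.len ((KC (R := WittVector p K.C) ↥J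
      (List.ofFn fun l => teichmuller p (xC p k r K.C l))).H q) := by
  let _ := algW p K.C
  exact (len_KC_WI_restrict p Z.f K.mass (hJ.map Z.f).isPerf (fun l => xC p k r K.C l) q).trans
    (K.KC_map_eq hη' Z J hJ q).symm

/-- **(mJ)**: finiteness. -/
theorem mJ [IsNoetherianRing Λ] {u' : Fin r → Λ}
    {red : Λ →+* R0 k r ⧸ Ideal.span {(MvPowerSeries.X 0 : R0 k r)}}
    (hb : IsBase p k r Λ u' ψ red) (hΦ : ∀ j, j * (p ^ j * p ^ j) ≤ Φ j)
    {η' : K.C} (hη' : Kil K.mass (teichmuller p η')) (Z : NatZ p K.C (tC p k r K.C) η')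
    (n : ℕ) (ix : ∀ j, (Fin j → Fin n) → Fin s) (z : Fin n → ℤ)
    (hidx : ∀ i : Fin n, ∃ t, b (ix ((i : ℕ) + 1) t) ≠ 0) (q : ℕ) :
    (K.mass.restrict (WittVector.map Z.f)).len ((KC (R := WittVector p Z.C')
      ↥(WI p ((K.J n ix z).map Z.f)) ((p : WittVector p Z.C') ::
        List.ofFn fun l => teichmuller p (Z.f (xC p k r K.C l)))).H q) ≠ ⊤ := by
  rw [K.KC_WI_map_eq hη' Z _ (K.SP_J n ix z)]
  exact (K.KC_J_lt_top hb hΦ n ix z hidx q).ne

/-- the masses of `W(C')` and of the unit ideal of `C`. -/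
theorem KC_W_eq {η' : K.C} (hη' : Kil K.mass (teichmuller p η'))
    (Z : NatZ p K.C (tC p k r K.C) η') (q : ℕ) :
    letI := algW p K.C
    (K.mass.restrict (WittVector.map Z.f)).len ((KC (R := WittVector p Z.C')
      (WittVector p Z.C') ((p : WittVector p Z.C') ::
        List.ofFn fun l => teichmuller p (Z.f (xC p k r K.C l)))).H q) =
    K.mass.len ((KC (R := WittVector p K.C) ↥(⊤ : Ideal K.C)
      (List.ofFn fun l => teichmuller p (xC p k r K.C l))).H q) := by
  let _ := algW p K.C
  have h1 := K.KC_WI_map_eq hη' Z ⊤ (SP_top p) q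
  rw [← h1, Ideal.map_top]
  exact (MN.KC_len_congr (ALen.of (K.mass.restrict (WittVector.map Z.f))) (WItopE p (C' := Z.C'))
    _ q).symm

theorem isWeaklyRegular_xC : RingTheory.Sequence.IsWeaklyRegular K.C
    (List.ofFn fun l => xC p k r K.C l) :=
  isWeaklyRegular_ofFn_of _ fun i y h => K.regular i y h

/-- **(m0)**: vanishing. -/
theorem m0 {η' : K.C} (hη' : Kil K.mass (teichmuller p η'))
    (Z : NatZ p K.C (tC p k r K.C) η') (q : ℕ) (hq : 1 ≤ q) :
    (K.mass.restrict (WittVector.map Z.f)).len ((KC (R := WittVector p Z.C')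
      (WittVector p Z.C') ((p : WittVector p Z.C') ::
        List.ofFn fun l => teichmuller p (Z.f (xC p k r K.C l)))).H q) = 0 := by
  obtain ⟨q, rfl⟩ : ∃ m, q = m + 1 := ⟨q - 1, by omega⟩
  rw [K.KC_W_eq hη' Z]
  have h1 := len_KC_top_pos p (ALen.of K.mass) K.isWeaklyRegular_xC q
  rw [List.map_ofFn] at h1
  exact h1

/-- degree zero. -/
theorem KC_W_zero {η' : K.C} (hη' : Kil K.mass (teichmuller p η'))
    (Z : NatZ p K.C (tC p k r K.C) η') :
    (K.mass.restrict (WittVector.map Z.f)).len ((KC (R := WittVector p Z.C')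
      (WittVector p Z.C') ((p : WittVector p Z.C') ::
        List.ofFn fun l => teichmuller p (Z.f (xC p k r K.C l)))).H 0) =
      K.mass.len (WittVector p K.C ⧸ vW p k r K.C) := by
  rw [K.KC_W_eq hη' Z]
  have h1 := len_KC_top_H0 p (ALen.of K.mass) K.t_reg
    (List.ofFn fun l : Fin r => teichmuller p (xC p k r K.C l.succ))
  rw [List.ofFn_succ]
  refine h1.trans ?_
  have h2 : Ideal.ofList ((p : WittVector p K.C) :: teichmuller p (tC p k r K.C) ::
      List.ofFn fun l : Fin r => teichmuller p (xC p k r K.C l.succ)) = vW p k r K.C := by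
    rw [vW, Ideal.ofList]
    congr 1
    ext x
    simp only [List.mem_cons, List.mem_ofFn, Set.mem_ofPred_eq, Set.mem_insert_iff, Set.mem_range]
    constructor
    · rintro (h | h | ⟨l, rfl⟩)
      · exact Or.inl h
      · exact Or.inr ⟨0, h.symm⟩
      · exact Or.inr ⟨l.succ, rfl⟩
    · rintro (h | ⟨l, rfl⟩)
      · exact Or.inl h
      · refine Fin.cases ?_ (fun l => ?_) l
        · exact Or.inr (Or.inl rfl)
        · exact Or.inr (Or.inr ⟨l, rfl⟩)
  rw [h2]
  rfl

/-- **(m1)**: finiteness in degree zero. -/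
theorem m1 {η' : K.C} (hη' : Kil K.mass (teichmuller p η'))
    (Z : NatZ p K.C (tC p k r K.C) η') :
    (K.mass.restrict (WittVector.map Z.f)).len ((KC (R := WittVector p Z.C')
      (WittVector p Z.C') ((p : WittVector p Z.C') ::
        List.ofFn fun l => teichmuller p (Z.f (xC p k r K.C l)))).H 0) ≠ ⊤ := by
  rw [K.KC_W_zero hη' Z]
  exact K.mass_ne_top

/-- **(m2)**: positivity in degree zero. -/
theorem m2 (hε : ε ≠ 0) {η' : K.C} (hη' : Kil K.mass (teichmuller p η'))
    (Z : NatZ p K.C (tC p k r K.C) η') :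
    (K.mass.restrict (WittVector.map Z.f)).len ((KC (R := WittVector p Z.C')
      (WittVector p Z.C') ((p : WittVector p Z.C') ::
        List.ofFn fun l => teichmuller p (Z.f (xC p k r K.C l)))).H 0) ≠ 0 := by
  rw [K.KC_W_zero hη' Z]
  exact fun h => hε (le_antisymm (h ▸ K.le_mass_vW) bot_le)

end Pkg

end Vale.Agent.P177.Full
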