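import Vale.Agent.P177.Full.Glue866
import Vale.Agent.P177.Full.ExB7
import Vale.Agent.P177.Full.H4
import Vale.Agent.P177.Full.CutK
import Vale.Agent.P177.Full.ChiH
import Vale.Agent.P177.Full.FinCore
import Vale.Agent.P177.SL.FinalPos
import Vale.Agent.P177.SL.GenS

/-!
P177, inner assembly: independence of the ideal, vanishing and positivity for the honest modules.
-/

namespace Vale.Agent.P177.Full

open TensorProduct IsLocalRing RingTheory.Sequence Function Vale.Agent.P202.Mix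
  Vale.Agent.P177.Flag Vale.Agent.P177.PI Vale.Agent.P177.Lev Vale.Agent.P177.SL WittVector
open scoped ENNReal

universe u

namespace Core

variable {p : ℕ} [Fact p.Prime] {R : Type u} [CommRing R] [IsRegularLocalRing R]
    [CharP (ResidueField R) p] [PerfectRing (ResidueField R) p] {d : ℕ} {P : Ideal R}
    {hs : List R} {r : ℕ} [IsRegularLocalRing (Lam p (ResidueField R) r)]
    [Algebra (Lam p (ResidueField R) r) R] {Ω : Type u} [Field Ω]
    [Algebra (Lam p (ResidueField R) r) Ω] {F : Fin 2 → FlagMod (Lam p (ResidueField R) r) Ω hs}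
    (X : Core p d P hs r Ω F)

theorem E_mem_comap (P : Ideal R) : X.E ∈ P.comap X.Φ := by
  have h1 : X.Φ X.E = 0 := by
    rw [← RingHom.mem_ker, X.Φ_ker]
    exact Ideal.mem_span_singleton_self _
  rw [Ideal.mem_comap, h1]
  exact zero_mem _

section Z

variable [IsAdicComplete (maximalIdeal R) R] (hN : Norm p R r hs) {M : ℕ} (hM : 2 ≤ M)
  (Z : CN.NatZ p X.K.C (tC p (ResidueField R) r X.K.C) (X.K.etM M))
  (i : Fin 2) (j : Fin (F i).n)

include hN hM in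
theorem zz_chi (J : Ideal X.K.C) (nn : ℕ) : X.chiH Z.f nn ((F i).σ j) J =
    chiXS p (X.K.mass.restrict (WittVector.map Z.f)) (X.psiZ Z.f ((F i).σ j)) (J.map Z.f) nn
      (P.comap X.Φ) := by
  obtain ⟨z, w, hz, h⟩ := X.z_E hN hM Z i j
  exact X.chi_HJ Z.f ((F i).σ j) J (X.psiE_regular Z.f ((F i).σ j) Z.reg hz (by omega) h) nn

theorem zz_mV (q : ℕ) :
    (X.K.mass.restrict (WittVector.map Z.f)).len ((KG.KC (R := WittVector p Z.C')
      (WittVector p Z.C') ((p : WittVector p Z.C') ::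
        List.ofFn fun l => teichmuller p (Z.f (xC p (ResidueField R) r X.K.C l)))).H q) ≠ ⊤ := by
  rcases Nat.eq_zero_or_pos q with rfl | hq
  · exact X.K.m1 (X.K.kil_etM M) Z
  · rw [X.K.m0 (X.K.kil_etM M) Z q hq]
    exact ENNReal.zero_ne_top

theorem zz_mJ (z : Fin (F i).n → ℤ) (q : ℕ) :
    (X.K.mass.restrict (WittVector.map Z.f)).len ((KG.KC (R := WittVector p Z.C')
      ↥(WI p ((X.K.J (F i).n (X.pl i) z).map Z.f)) ((p : WittVector p Z.C') ::
        List.ofFn fun l => teichmuller p (Z.f (xC p (ResidueField R) r X.K.C l)))).H q) ≠ ⊤ := by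
  refine X.K.mJ X.base (fun j => ?_) (X.K.kil_etM M) Z (F i).n (X.pl i) z (fun j => ?_) q
  · exact (Nat.mul_le_mul_right _ (Nat.le_add_right _ _)).trans (X.gr_le j)
  · obtain ⟨t, ht⟩ := (F i).flag.exists_detT_ne_zero ((j : ℕ) + 1) j.2
    exact ⟨t, by rwa [X.pl_spec i _ j.2 t]⟩

include hN hM in
theorem zz_H2 {K : ℕ} (hKM : K < M) (hK : maximalIdeal R ^ K ≤ P ⊔ Ideal.ofList hs) :
    (∃ m : ℕ, (p : WittVector p Z.C') ^ m ∈ (P.comap X.Φ).map (X.psiZ Z.f ((F i).σ j))) ∧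
    ∀ q : Fin (r + 1), ∃ m : ℕ, teichmuller p (Z.f (xC p (ResidueField R) r X.K.C q)) ^ m ∈
      (P.comap X.Φ).map (X.psiZ Z.f ((F i).σ j)) := by
  refine X.z_H2C hN hM Z i j (X.E_mem_comap P) hKM ?_
  rw [Ideal.map_comap_of_surjective _ X.Φ_surj]
  exact hK

end Z

/-- **(a), (b), (c)** -/
theorem b7alt [IsAdicComplete (maximalIdeal R) R] [hP : P.IsPrime] (hN : Norm p R r hs)
    (hd : ringKrullDim R = d) (hrad : maximalIdeal R ≤ (P ⊔ Ideal.ofList hs).radical) (a : ℕ)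
    (ha : ringKrullDim (R ⧸ P) = a) (hlen : hs.length + (r + 1) = d)
    (hdim : ringKrullDim (R ⧸ Ideal.ofList hs) = ((r + 1 : ℕ) : WithBot ℕ∞))
    (hab : a + (r + 1) ≤ d) :
    ∃ M0 : ℕ, ∀ M, M0 ≤ M →
      ∀ Z : CN.NatZ p X.K.C (tC p (ResidueField R) r X.K.C) (X.K.etM M),
      ∀ (i : Fin 2) (j : Fin (F i).n) (nn : ℕ), d + 2 ≤ nn →
        X.chiH Z.f nn ((F i).σ j) (X.Jp i j) = X.chiH Z.f nn ((F i).σ j) ⊤ ∧
        0 ≤ X.chiH Z.f nn ((F i).σ j) ⊤ ∧
        (a + (r + 1) = d → 0 < X.chiH Z.f nn ((F i).σ j) ⊤) := by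
  classical
  have hps := psRing_sx p (ResidueField R) d
  have hPc : (P.comap X.Φ).IsPrime := Ideal.comap_isPrime _ _
  have hsd : Module.supportDim (Sx p (ResidueField R) d)
      (Sx p (ResidueField R) d ⧸ P.comap X.Φ) = (a : WithBot ℕ∞) := by
    rw [X.supportDim_comap, ha]
  obtain ⟨K, hK⟩ := Ideal.exists_pow_le_of_le_radical_of_fg hrad (IsNoetherian.noetherian _)
  -- the cuts
  have hcut := fun (q : Σ i : Fin 2, Fin (F i).n) =>
    X.exists_cut hN q.1 (PI.sb (F q.1).n + PI.dg (F q.1).n q.2 - PI.dg (F q.1).n (q.2 + 1))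
  choose M1 hM1 using hcut
  -- the generic complete intersection
  have hgen : ∃ K2 : ℕ, ∀ M, K2 < M → 2 ≤ M → a + (r + 1) = d →
      ∀ Z : CN.NatZ p X.K.C (tC p (ResidueField R) r X.K.C) (X.K.etM M),
      ∀ (i : Fin 2) (j : Fin (F i).n) (nn : ℕ), d + 2 ≤ nn →
        0 < X.chiH Z.f nn ((F i).σ j) ⊤ := by
    by_cases had : a + (r + 1) = d
    · obtain ⟨fs, f1, f2, f3, f4, ⟨s, f5, f6⟩, f7⟩ := exists_generic_ci_lift X.Φ X.Φ_surj X.E
        X.Φ_ker (mem_nonZeroDivisors_of_ne_zero X.E_ne_zero) P hs hN.mem a (r + 1) d hd ha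
        (by omega) had hrad hdim.le
      have f8 : maximalIdeal R ≤ ((Ideal.ofList (X.E :: fs)).map X.Φ ⊔ Ideal.ofList hs).radical := by
        intro x hx
        obtain ⟨y, rfl⟩ := X.Φ_surj x
        have hy : y ∈ maximalIdeal (Sx p (ResidueField R) d) := by
          rw [mem_maximalIdeal, mem_nonunits_iff]
          intro hu
          exact (mem_nonunits_iff.1 ((mem_maximalIdeal _).1 hx)) (hu.map X.Φ)
        obtain ⟨n, hn⟩ := f7 hy
        refine ⟨n, ?_⟩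
        rw [← map_pow]
        have h1 := Ideal.mem_map_of_mem X.Φ hn
        rw [Ideal.map_sup] at h1
        have h9 : ((Ideal.ofList hs).comap X.Φ).map X.Φ ≤ Ideal.ofList hs := Ideal.map_comap_le
        exact (sup_le_sup_left h9 _) h1
      obtain ⟨K2, hK2⟩ := Ideal.exists_pow_le_of_le_radical_of_fg f8 (IsNoetherian.noetherian _)
      refine ⟨K2, fun M hKM hM _ Z i j nn hnn => ?_⟩
      rw [X.zz_chi hN hM Z i j ⊤ nn, Ideal.map_top]
      obtain ⟨g1, g2⟩ := X.z_H2C hN hM Z i j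
        (I := Ideal.ofList (X.E :: fs)) (Ideal.subset_span List.mem_cons_self) hKM hK2
      exact hps.pos (X.psiZ Z.f ((F i).σ j)) (fun l => Z.f (xC p (ResidueField R) r X.K.C l))
        (X.K.mass.restrict (WittVector.map Z.f)) (X.z_hr1 Z.f i j) (X.z_hr2 hN hM Z i j)
        (fun q hq => X.K.m0 (X.K.kil_etM M) Z q hq) (X.K.m1 (X.K.kil_etM M) Z)
        (X.K.m2 X.ε_ne (X.K.kil_etM M) Z) (P.comap X.Φ) (X.E :: fs) f3
        (by rw [List.length_cons, f1]) f4 s f5 f6 g1 g2 a hsd had nn hnn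
    · exact ⟨0, fun _ _ _ h => absurd h had⟩
  obtain ⟨K2, hK2⟩ := hgen
  refine ⟨K + K2 + 2 + Finset.univ.sup M1, fun M hM Z i j nn hnn => ?_⟩
  have hM2 : 2 ≤ M := by omega
  have hM1' : M1 ⟨i, j⟩ ≤ M :=
    (Finset.le_sup (f := M1) (Finset.mem_univ _)).trans (by omega)
  obtain ⟨g1, g2⟩ := X.zz_H2 hN hM2 Z i j (K := K) (by omega) hK
  have hpos := fun h => hK2 M (by omega) hM2 h Z i j nn hnn
  refine ⟨?_, ?_, hpos⟩
  · obtain ⟨y, hy, l, hl⟩ := hM1 ⟨i, j⟩ M hM1' Z.f Z.reg Z.jac Z.dvd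
    rw [X.zz_chi hN hM2 Z i j _ nn, X.zz_chi hN hM2 Z i j ⊤ nn, Ideal.map_top]
    exact hps.indep (X.psiZ Z.f ((F i).σ j)) (fun l => Z.f (xC p (ResidueField R) r X.K.C l))
        (X.K.mass.restrict (WittVector.map Z.f)) (X.z_hr1 Z.f i j) (X.z_hr2 hN hM2 Z i j)
        (P.comap X.Φ) g1 g2 ((X.K.sp_Jz (X.pl i) _).map Z.f).isPerf (X.zz_mJ Z i _) (X.zz_mV Z)
        y hy l hl a hsd.le (by omega) nn hnn
  · by_cases had : a + (r + 1) = d
    · exact (hpos had).le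
    · rw [X.zz_chi hN hM2 Z i j ⊤ nn, Ideal.map_top]
      refine (hps.vanish (X.psiZ Z.f ((F i).σ j))
        (fun l => Z.f (xC p (ResidueField R) r X.K.C l))
        (X.K.mass.restrict (WittVector.map Z.f)) (X.z_hr1 Z.f i j) (X.z_hr2 hN hM2 Z i j)
        (P.comap X.Φ) g1 g2 ⊤ (fun q => ?_) a hsd.le (by omega) nn hnn).ge
      rw [KC_top_eq]
      exact X.zz_mV Z q

end Core

end Vale.Agent.P177.Full
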