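import Vale.Agent.P177.Full.Glue866
import Vale.Agent.P177.Full.ExB7
import Vale.Agent.P177.Full.H4
import Vale.Agent.P177.Full.CutK
import Vale.Agent.P177.Full.ChiH
import Vale.Agent.P177.Full.FinCore
import Vale.Agent.P177.SL.FinalPos
import Vale.Agent.P177.SL.GenS

/-!
P177, inner assembly: independence of `J` and positivity for the honest modules.
-/

namespace Vale.Agent.P177.Full

open TensorProduct IsLocalRing RingTheory.Sequence Function Vale.Agent.P202.Mix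
  Vale.Agent.P177.Flag Vale.Agent.P177.PI Vale.Agent.P177.Lev WittVector Vale.Agent.P177.KG
open scoped ENNReal

universe u

namespace Core

variable {p : ℕ} [Fact p.Prime] {R : Type u} [CommRing R] [IsRegularLocalRing R]
    [CharP (ResidueField R) p] [PerfectRing (ResidueField R) p] {d : ℕ} {P : Ideal R}
    {hs : List R} {r : ℕ} [IsRegularLocalRing (Lam p (ResidueField R) r)]
    [Algebra (Lam p (ResidueField R) r) R] {Ω : Type u} [Field Ω]
    [Algebra (Lam p (ResidueField R) r) Ω] {F : Fin 2 → FlagMod (Lam p (ResidueField R) r) Ω hs}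
    (X : Core p d P hs r Ω F)

section one

variable [IsAdicComplete (maximalIdeal R) R] (hN : Norm p R r hs) {M : ℕ} (hM : 2 ≤ M)
  (Z : CN.NatZ p X.K.C (tC p (ResidueField R) r X.K.C) (X.K.etM M))
  (i : Fin 2) (j : Fin (F i).n)

include hN hM

theorem psiZ_E (x : WittVector p Z.C') (hx : X.psiZ Z.f ((F i).σ j) X.E * x = 0) : x = 0 := by
  obtain ⟨z, w, hz, h⟩ := X.z_E hN hM Z i j
  exact X.psiE_regular Z.f ((F i).σ j) Z.reg hz (by omega) h x hx

theorem chiH_top (nn : ℕ) : X.chiH Z.f nn ((F i).σ j) ⊤ =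
    chiXS p (X.K.mass.restrict (WittVector.map Z.f)) (X.psiZ Z.f ((F i).σ j)) ⊤ nn
      (P.comap X.Φ) := by
  refine (X.chi_HJ Z.f ((F i).σ j) ⊤ (X.psiZ_E hN hM Z i j) nn).trans ?_
  rw [Ideal.map_top]

variable {K : ℕ} (hK : maximalIdeal R ^ K ≤ P ⊔ Ideal.ofList hs) (hKM : K < M)
include hK hKM

theorem h2_P : (∃ m : ℕ, (p : WittVector p Z.C') ^ m ∈
      (P.comap X.Φ).map (X.psiZ Z.f ((F i).σ j))) ∧
    ∀ q : Fin (r + 1), ∃ m : ℕ, teichmuller p (Z.f (xC p (ResidueField R) r X.K.C q)) ^ m ∈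
      (P.comap X.Φ).map (X.psiZ Z.f ((F i).σ j)) := by
  refine X.z_H2C hN hM Z i j ?_ hKM ?_
  · rw [Ideal.mem_comap]
    have h1 : X.Φ X.E = 0 := by
      rw [← RingHom.mem_ker, X.ker_Φ]
      exact Ideal.mem_span_singleton_self _
    rw [h1]
    exact P.zero_mem
  · rw [Ideal.map_comap_of_surjective X.Φ X.Φ_surj]
    exact hK

/-- **independence of `J`.** -/
theorem b7_indep_one {a : ℕ} (ha : ringKrullDim (R ⧸ P) = a) (hab : a + (r + 1) ≤ d)
    (z : Fin (F i).n → ℤ)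
    (hcut : ∃ y : Fin r → Z.C', (∀ j, y j ∈ Ideal.span (Set.range fun l : Fin (r + 1) =>
          Z.f (xC p (ResidueField R) r X.K.C l))) ∧
        ∃ L : ℕ, Ideal.span (Set.range fun l : Fin (r + 1) =>
            Z.f (xC p (ResidueField R) r X.K.C l)) ^ L ≤
          Ideal.span (Set.range y) ⊔ (X.K.J (F i).n (X.pl i) z).map Z.f)
    (nn : ℕ) (hnn : d + 2 ≤ nn) :
    X.chiH Z.f nn ((F i).σ j) (X.K.J (F i).n (X.pl i) z) = X.chiH Z.f nn ((F i).σ j) ⊤ := by
  obtain ⟨y, hy, L, hL⟩ := hcut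
  have hψ := X.psiZ_E hN hM Z i j
  have h1 := X.chi_HJ Z.f ((F i).σ j) (X.K.J (F i).n (X.pl i) z) hψ nn
  refine h1.trans (Eq.trans ?_ (X.chiH_top hN hM Z i j nn).symm)
  obtain ⟨k1, k2⟩ := X.h2_P hN hM Z i j hK hKM
  have hη := X.K.kil_etM M
  exact (SL.psRing_sx p (ResidueField R) d).indep (X.psiZ Z.f ((F i).σ j))
    (fun q => Z.f (xC p (ResidueField R) r X.K.C q)) (X.K.mass.restrict (WittVector.map Z.f))
    (X.z_hr1 Z.f i j) (X.z_hr2 hN hM Z i j) (P.comap X.Φ) k1 k2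
    ((X.K.sp_Jz (X.pl i) z).map Z.f).isPerf
    (fun q => by
      rw [X.K.KC_WI_map_eq hη Z _ (X.K.sp_Jz (X.pl i) z)]
      exact (X.KC_J_lt_top i z q).ne)
    (fun q => by
      rcases Nat.eq_zero_or_pos q with rfl | hq
      · exact X.K.m1 hη Z
      · rw [X.K.m0 hη Z q hq]
        exact ENNReal.zero_ne_top)
    y hy L hL a (by rw [X.supportDim_comap, ha]) (by omega) nn hnn

/-- **vanishing** for the top ideal. -/
theorem b7_vanish_one {a : ℕ} (ha : ringKrullDim (R ⧸ P) = a) (hab : a + (r + 1) < d)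
    (nn : ℕ) (hnn : d + 2 ≤ nn) :
    X.chiH Z.f nn ((F i).σ j) ⊤ = 0 := by
  refine (X.chiH_top hN hM Z i j nn).trans ?_
  obtain ⟨k1, k2⟩ := X.h2_P hN hM Z i j hK hKM
  have hη := X.K.kil_etM M
  exact (SL.psRing_sx p (ResidueField R) d).vanish (X.psiZ Z.f ((F i).σ j))
    (fun q => Z.f (xC p (ResidueField R) r X.K.C q)) (X.K.mass.restrict (WittVector.map Z.f))
    (X.z_hr1 Z.f i j) (X.z_hr2 hN hM Z i j) (P.comap X.Φ) k1 k2 ⊤
    (fun q => by
      rw [SL.KC_top_eq]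
      rcases Nat.eq_zero_or_pos q with rfl | hq
      · exact X.K.m1 hη Z
      · rw [X.K.m0 hη Z q hq]
        exact ENNReal.zero_ne_top)
    a (by rw [X.supportDim_comap, ha]) (by omega) nn hnn

omit hK hKM in
/-- **positivity** for the top ideal. -/
theorem b7_pos_one (hP : P.IsPrime) {a : ℕ} (ha : ringKrullDim (R ⧸ P) = a)
    (hab : a + (r + 1) = d) (fs : List (Sx p (ResidueField R) d)) (hfl : fs.length = r + 1)
    (hreg : IsWeaklyRegular (Sx p (ResidueField R) d) (X.E :: fs))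
    (hle : Ideal.ofList (X.E :: fs) ≤ P.comap X.Φ) (s : Sx p (ResidueField R) d)
    (hs1 : s ∉ P.comap X.Φ) (hs2 : ∀ x ∈ P.comap X.Φ, s * x ∈ Ideal.ofList (X.E :: fs))
    {K : ℕ} (hKM : K < M)
    (hK : maximalIdeal R ^ K ≤ (Ideal.ofList (X.E :: fs)).map X.Φ ⊔ Ideal.ofList hs)
    (nn : ℕ) (hnn : d + 2 ≤ nn) :
    0 < X.chiH Z.f nn ((F i).σ j) ⊤ := by
  refine lt_of_lt_of_eq ?_ (X.chiH_top hN hM Z i j nn).symm
  obtain ⟨k1, k2⟩ := X.z_H2C hN hM Z i j (I := Ideal.ofList (X.E :: fs))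
    (Ideal.subset_span List.mem_cons_self) hKM hK
  have hη := X.K.kil_etM M
  have hPc : (P.comap X.Φ).IsPrime := Ideal.comap_isPrime X.Φ P
  exact (SL.psRing_sx p (ResidueField R) d).pos (X.psiZ Z.f ((F i).σ j))
    (fun q => Z.f (xC p (ResidueField R) r X.K.C q)) (X.K.mass.restrict (WittVector.map Z.f))
    (X.z_hr1 Z.f i j) (X.z_hr2 hN hM Z i j) (fun q hq => X.K.m0 hη Z q hq) (X.K.m1 hη Z)
    (X.K.m2 X.ε_ne hη Z) (P.comap X.Φ) (X.E :: fs) hreg (by rw [List.length_cons, hfl]) hle s hs1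
    hs2 k1 k2 a (by rw [X.supportDim_comap, ha]) hab nn hnn

end one

/-- **(B7)** -/
theorem b7 [IsAdicComplete (maximalIdeal R) R] (hN : Norm p R r hs) (hd : ringKrullDim R = d)
    (hP : P.IsPrime) (hdim : ringKrullDim (R ⧸ Ideal.ofList hs) = ((r + 1 : ℕ) : WithBot ℕ∞))
    (hrad : maximalIdeal R ≤ (P ⊔ Ideal.ofList hs).radical) (hlen : hs.length + (r + 1) = d)
    {a : ℕ} (ha : ringKrullDim (R ⧸ P) = a) (hab : a + (r + 1) ≤ d) (nn : ℕ)
    (hnn : d + r + 3 ≤ nn) :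
    ∃ M0 : ℕ, ∀ M, M0 ≤ M →
      ∀ (Z : CN.NatZ p X.K.C (tC p (ResidueField R) r X.K.C) (X.K.etM M)) (i : Fin 2)
        (j : Fin (F i).n),
        X.chiH Z.f nn ((F i).σ j) (X.Jp i j) = X.chiH Z.f nn ((F i).σ j) ⊤ ∧
          0 ≤ X.chiH Z.f nn ((F i).σ j) ⊤ ∧
          (a + (r + 1) = d → 0 < X.chiH Z.f nn ((F i).σ j) ⊤) := by
  classical
  obtain ⟨K, hK⟩ := Ideal.exists_pow_le_of_le_radical_of_fg hrad (IsNoetherian.noetherian _)
  have hcut : ∀ (i : Fin 2) (j : Fin (F i).n), ∃ M0 : ℕ, ∀ M, M0 ≤ M →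
      ∀ (Z : CN.NatZ p X.K.C (tC p (ResidueField R) r X.K.C) (X.K.etM M)),
      ∃ y : Fin r → Z.C', (∀ j, y j ∈ Ideal.span (Set.range fun l : Fin (r + 1) =>
          Z.f (xC p (ResidueField R) r X.K.C l))) ∧
        ∃ L : ℕ, Ideal.span (Set.range fun l : Fin (r + 1) =>
            Z.f (xC p (ResidueField R) r X.K.C l)) ^ L ≤
          Ideal.span (Set.range y) ⊔ (X.Jp i j).map Z.f := by
    intro i j
    obtain ⟨M0, h⟩ := X.exists_cut hN i
      (PI.sb (F i).n + PI.dg (F i).n j - PI.dg (F i).n ((j : ℕ) + 1))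
    exact ⟨M0, fun M hM Z => h M hM Z.f Z.reg Z.jac Z.dvd⟩
  choose Mc hMc using hcut
  have hpos : ∃ K1 : ℕ, a + (r + 1) = d → ∃ fs : List (Sx p (ResidueField R) d),
      fs.length = r + 1 ∧ IsWeaklyRegular (Sx p (ResidueField R) d) (X.E :: fs) ∧
      Ideal.ofList (X.E :: fs) ≤ P.comap X.Φ ∧
      (∃ s, s ∉ P.comap X.Φ ∧ ∀ x ∈ P.comap X.Φ, s * x ∈ Ideal.ofList (X.E :: fs)) ∧
      maximalIdeal R ^ K1 ≤ (Ideal.ofList (X.E :: fs)).map X.Φ ⊔ Ideal.ofList hs := by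
    by_cases had : a + (r + 1) = d
    · obtain ⟨fs, h1, -, h3, h4, h5, h6⟩ := SL.exists_generic_ci_lift X.Φ X.Φ_surj X.E X.ker_Φ
        (mem_nonZeroDivisors_of_ne_zero X.E_ne_zero) P hs hN.mem a (r + 1) d hd ha (by omega) had
        hrad hdim.le
      obtain ⟨K1, hK1⟩ := Ideal.exists_pow_le_of_le_radical_of_fg h6 (IsNoetherian.noetherian _)
      refine ⟨K1, fun _ => ⟨fs, h1, h3, h4, h5, ?_⟩⟩
      have h7 := Ideal.map_mono (f := X.Φ) hK1
      rw [Ideal.map_pow, Ideal.map_sup, Ideal.map_comap_of_surjective X.Φ X.Φ_surj] at h7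
      have h8 : maximalIdeal R ≤ (maximalIdeal (Sx p (ResidueField R) d)).map X.Φ := by
        have h9 : IsLocalHom X.Φ := IsLocalHom.of_surjective X.Φ X.Φ_surj
        intro x hx
        obtain ⟨y, rfl⟩ := X.Φ_surj x
        refine Ideal.mem_map_of_mem _ ?_
        rw [mem_maximalIdeal, mem_nonunits_iff] at hx ⊢
        exact fun hu => hx (hu.map X.Φ)
      exact (Ideal.pow_right_mono h8 K1).trans h7
    · exact ⟨0, fun h => absurd h had⟩
  obtain ⟨K1, hpos⟩ := hpos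
  refine ⟨max (max (K + 1) (K1 + 1)) (max 2 (Finset.univ.sup fun i : Fin 2 =>
    Finset.univ.sup fun j : Fin (F i).n => Mc i j)), fun M hM Z i j => ?_⟩
  have hM1 : K < M := by
    have := (le_max_left _ _).trans ((le_max_left _ _).trans hM)
    omega
  have hM2 : K1 < M := by
    have := (le_max_right _ _).trans ((le_max_left _ _).trans hM)
    omega
  have hM3 : 2 ≤ M := (le_max_left _ _).trans ((le_max_right _ _).trans hM)
  have hM4 : Mc i j ≤ M := by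
    refine le_trans ?_ ((le_max_right _ _).trans ((le_max_right _ _).trans hM))
    exact (Finset.le_sup (f := fun j : Fin (F i).n => Mc i j) (Finset.mem_univ j)).trans
      (Finset.le_sup (f := fun i : Fin 2 => Finset.univ.sup fun j : Fin (F i).n => Mc i j)
        (Finset.mem_univ i))
  refine ⟨X.b7_indep_one hN hM3 Z i j hK hM1 ha hab _ (hMc i j M hM4 Z) nn (by omega), ?_⟩
  have hp : a + (r + 1) = d → 0 < X.chiH Z.f nn ((F i).σ j) ⊤ := by
    intro had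
    obtain ⟨fs, h1, h3, h4, ⟨s, h5, h6⟩, h7⟩ := hpos had
    exact X.b7_pos_one hN hM3 Z i j hP ha had fs h1 h3 h4 s h5 h6 hM2 h7 nn (by omega)
  refine ⟨?_, hp⟩
  by_cases had : a + (r + 1) = d
  · exact (hp had).le
  · rw [X.b7_vanish_one hN hM3 Z i j hK hM1 ha (by omega) nn (by omega)]

end Core

end Vale.Agent.P177.Full
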