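import Vale.Agent.P177.Full.OuterDef

/-!
P177, block BCHOICE: the finite list of integral elements (Pluecker coordinates, coordinates of the
eigenvectors, eigenvalues of the parameters `x_l`, generators of the rings of eigenvalues) to which
the level construction is applied.
-/

namespace Vale.Agent.P177.Full

open IsLocalRing Module Polynomial Vale.Agent.P177.Flag

universe u

section charpoly

variable {Λ : Type u} [CommRing Λ] [IsLocalRing Λ] {n : ℕ}

/-- the characteristic polynomial of a matrix which is nilpotent modulo the maximal ideal. -/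
theorem charpoly_coeff_mem (A : Matrix (Fin n) (Fin n) Λ) (M : ℕ)
    (hA : ∀ i j, (A ^ M) i j ∈ maximalIdeal Λ) (k : ℕ) (hk : k < A.charpoly.natDegree) :
    A.charpoly.coeff k ∈ maximalIdeal Λ := by
  set A' := A.map (residue Λ) with hA'
  have h1 : A' ^ M = 0 := by
    have h2 : A' ^ M = (A ^ M).map (residue Λ) := by
      rw [hA', ← RingHom.mapMatrix_apply, ← RingHom.mapMatrix_apply, map_pow]
    rw [h2]
    ext i j
    rw [Matrix.map_apply, Matrix.zero_apply, residue_eq_zero_iff]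
    exact hA i j
  have h2 := Matrix.isNilpotent_charpoly_sub_pow_of_isNilpotent (M := A') ⟨M, h1⟩
  rw [isNilpotent_iff_eq_zero, sub_eq_zero] at h2
  have h3 : A'.charpoly = A.charpoly.map (residue Λ) := by
    rw [hA', Matrix.charpoly_map]
  have hdeg : A.charpoly.natDegree = n := by
    rw [Matrix.charpoly_natDegree_eq_dim, Fintype.card_fin]
  rw [← residue_eq_zero_iff, ← coeff_map, ← h3, h2, coeff_X_pow, if_neg]
  rw [Fintype.card_fin]
  omega

end charpoly

section data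

variable {R : Type u} [CommRing R] {Λ : Type u} [CommRing Λ] [Algebra Λ R]
    {Ω : Type u} [Field Ω] [Algebra Λ Ω] {hs : List R}

theorem FlagMod.kill' (F : FlagMod Λ Ω hs) {r : R} (hr : r ∈ Ideal.ofList hs) (x : F.L) :
    r • x = 0 := by
  have h1 : Ideal.ofList hs ≤ LinearMap.ker (LinearMap.toSpanSingleton R F.L x) := by
    rw [Ideal.ofList, Ideal.span_le]
    intro s hs'
    exact F.kill s hs' x
  exact h1 hr

theorem repr_mem_of_mem_map {L : Type u} [AddCommGroup L] [Module R L] [Module Λ L]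
    [IsScalarTower Λ R L] {n : ℕ} (b : Basis (Fin n) Λ L) (I : Ideal Λ) {r : R}
    (hr : r ∈ I.map (algebraMap Λ R)) (y : L) (i : Fin n) : b.repr (r • y) i ∈ I := by
  refine Submodule.closure_induction (p := fun r _ => b.repr (r • y) i ∈ I) ?_ ?_ ?_ hr
  · rw [zero_smul, map_zero]; exact zero_mem _
  · intro r s _ _ h1 h2
    rw [add_smul, map_add]; exact add_mem h1 h2
  · rintro r _ ⟨a, ha, rfl⟩
    have h1 : (r • (algebraMap Λ R) a) • y = a • (r • y) := by
      rw [smul_eq_mul, mul_comm, mul_smul, algebraMap_smul]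
    rw [h1, map_smul]
    exact I.mul_mem_right _ ha

/-- the charpoly of an element of the maximal ideal. -/
theorem FlagMod.coeff_mem [IsLocalRing R] [IsLocalRing Λ] (F : FlagMod Λ Ω hs) {M : ℕ}
    (hM : maximalIdeal R ^ M ≤ Ideal.ofList hs ⊔ (maximalIdeal Λ).map (algebraMap Λ R))
    {x : R} (hx : x ∈ maximalIdeal R) (k : ℕ)
    (hk : k < (actMat F.b x).charpoly.natDegree) :
    (actMat F.b x).charpoly.coeff k ∈ maximalIdeal Λ := by
  refine charpoly_coeff_mem _ M (fun i j => ?_) k hk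
  rw [← map_pow, actMat_apply]
  obtain ⟨h, hh, m, hm, he⟩ := Submodule.mem_sup.1 (hM (Ideal.pow_mem_pow hx M))
  rw [← he, add_smul, F.kill' hh, zero_add]
  exact repr_mem_of_mem_map F.b _ hm _ _

/-- the finite list of integral elements. -/
structure BData {J : ℕ} [IsLocalRing Λ] (F : Fin J → FlagMod Λ Ω hs) {d : ℕ} (x : Fin d → R) where
  m : ℕ
  b : Fin m → Ω
  P : Fin m → Λ[X]
  monic : ∀ l, (P l).Monic
  root : ∀ l, aeval (b l) (P l) = 0
  /-- Pluecker coordinates -/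
  lt : ∀ (i : Fin J) (j : ℕ), (Fin j → Fin (F i).n) → Fin m
  lt_eq : ∀ i j t, b (lt i j t) = detT (F i).v j t
  /-- eigenvalues of the parameters -/
  lx : ∀ i : Fin J, Fin (F i).n → Fin d → Fin m
  lx_eq : ∀ i j l, b (lx i j l) = (F i).σ j (x l)
  lx_nil : ∀ i j l, ∀ k < (P (lx i j l)).natDegree, (P (lx i j l)).coeff k ∈ maximalIdeal Λ
  /-- coordinates of the eigenvectors -/
  lv : ∀ i : Fin J, ℕ → Fin (F i).n → Fin m
  lv_eq : ∀ i j k, b (lv i j k) = (F i).v j k
  /-- polynomial lifts of the eigenvalues -/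
  lift : ∀ i j r, ∃ f : MvPolynomial (Fin m) Λ, MvPolynomial.aeval b f = (F i).σ j r

theorem detT_integral {F : FlagMod Λ Ω hs} (j : ℕ) (t : Fin j → Fin F.n) :
    IsIntegral Λ (detT F.v j t) := by
  have h1 := EigFlag.coe_detT_vec (v := F.v) (integralClosure Λ Ω) (fun j i => F.flag.integral j i) j t
  rw [← h1]
  exact (detT (EigFlag.vec (integralClosure Λ Ω) fun j i => F.flag.integral j i) j t).2

theorem exists_bdata [IsLocalRing R] [IsLocalRing Λ] [Module.Finite Λ (R ⧸ Ideal.ofList hs)]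
    {J : ℕ} (F : Fin J → FlagMod Λ Ω hs) {M : ℕ}
    (hM : maximalIdeal R ^ M ≤ Ideal.ofList hs ⊔ (maximalIdeal Λ).map (algebraMap Λ R))
    {d : ℕ} (x : Fin d → R) (hx : ∀ l, x l ∈ maximalIdeal R) : Nonempty (BData F x) := by
  classical
  choose S hS hSB using fun i => (F i).flag.exists_finset (Ideal.ofList hs)
    (fun r hr y => (F i).kill' hr y)
  -- the index type
  let K : Type u := ULift.{u} (Unit ⊕ ((Σ i : Fin J, Σ j : Fin ((F i).n + 1), (Fin j → Fin (F i).n)) ⊕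
    ((Σ i : Fin J, Fin (F i).n × Fin (F i).n) ⊕ (Σ i : Fin J, Fin (F i).n × Fin d)))) ⊕
    (Σ i : Fin J, S i)
  let bK : K → Ω := fun q => match q with
    | Sum.inl ⟨Sum.inl _⟩ => 0
    | Sum.inl ⟨Sum.inr (Sum.inl ⟨i, j, t⟩)⟩ => detT (F i).v j t
    | Sum.inl ⟨Sum.inr (Sum.inr (Sum.inl ⟨i, j, k⟩))⟩ => (F i).v j k
    | Sum.inl ⟨Sum.inr (Sum.inr (Sum.inr ⟨i, j, l⟩))⟩ => (F i).σ j (x l)
    | Sum.inr ⟨i, s⟩ => s.1
  have hex : ∀ q : K, ∃ P : Λ[X], P.Monic ∧ aeval (bK q) P = 0 ∧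
      ∀ i j l, q = Sum.inl ⟨Sum.inr (Sum.inr (Sum.inr ⟨i, j, l⟩))⟩ →
        ∀ k < P.natDegree, P.coeff k ∈ maximalIdeal Λ := by
    rintro (⟨_ | ⟨i, j, t⟩ | ⟨i, j, k⟩ | ⟨i, j, l⟩⟩ | ⟨i, s⟩)
    · exact ⟨Polynomial.X, monic_X, by simp [bK], fun _ _ _ h => by cases h⟩
    · obtain ⟨P, h1, h2⟩ := detT_integral (F := F i) j t
      exact ⟨P, h1, h2, fun _ _ _ h => by cases h⟩
    · obtain ⟨P, h1, h2⟩ := (F i).flag.integral j k
      exact ⟨P, h1, h2, fun _ _ _ h => by cases h⟩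
    · refine ⟨(actMat (F i).b (x l)).charpoly, Matrix.charpoly_monic _, ?_, ?_⟩
      · have h1 : actMat (F i).b (aeval (x l) (actMat (F i).b (x l)).charpoly) = 0 := by
          rw [← Polynomial.aeval_algHom_apply, Matrix.aeval_self_charpoly]
        have h2 := (F i).flag.eq_zero_of_act j h1
        rwa [← Polynomial.aeval_algHom_apply] at h2
      · intro _ _ _ _
        exact (F i).coeff_mem hM (hx l)
    · obtain ⟨P, h1, h2⟩ := hS i s.1 s.2
      exact ⟨P, h1, h2, fun _ _ _ h => by cases h⟩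
  choose PK h1 h2 h3 using hex
  let e := Fintype.equivFin K
  have hb : ∀ q, (bK ∘ e.symm) (e q) = bK q := fun q => by simp
  refine ⟨{
    m := Fintype.card K
    b := bK ∘ e.symm
    P := PK ∘ e.symm
    monic := fun l => h1 _
    root := fun l => h2 _
    lt := fun i j t => if h : j < (F i).n + 1 then
        e (Sum.inl ⟨Sum.inr (Sum.inl ⟨i, ⟨j, h⟩, t⟩)⟩) else e (Sum.inl ⟨Sum.inl ()⟩)
    lt_eq := ?_
    lx := fun i j l => e (Sum.inl ⟨Sum.inr (Sum.inr (Sum.inr ⟨i, j, l⟩))⟩)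
    lx_eq := fun i j l => hb _
    lx_nil := ?_
    lv := fun i j k => if h : j < (F i).n then
        e (Sum.inl ⟨Sum.inr (Sum.inr (Sum.inl ⟨i, ⟨j, h⟩, k⟩))⟩) else e (Sum.inl ⟨Sum.inl ()⟩)
    lv_eq := ?_
    lift := ?_ }⟩
  · intro i j t
    by_cases h : j < (F i).n + 1
    · rw [dif_pos h, hb]
    · rw [dif_neg h, hb]
      exact (detT_eq_zero_of_lt _ (by omega) t).symm
  · intro i j l k hk
    have h4 : (PK ∘ e.symm) (e (Sum.inl ⟨Sum.inr (Sum.inr (Sum.inr ⟨i, j, l⟩))⟩)) =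
        PK (Sum.inl ⟨Sum.inr (Sum.inr (Sum.inr ⟨i, j, l⟩))⟩) := by simp
    rw [h4] at hk ⊢
    exact h3 _ i j l rfl k hk
  · intro i j k
    by_cases h : j < (F i).n
    · rw [dif_pos h, hb]
    · rw [dif_neg h, hb, (F i).flag.zero j (by omega)]
      rfl
  · intro i j r
    have h4 := (hSB i (Algebra.adjoin Λ (Set.range (bK ∘ e.symm))) ?_).2 j r
    · rw [Algebra.adjoin_range_eq_range_aeval] at h4
      exact h4
    · intro s hs'
      refine Algebra.subset_adjoin ⟨e (Sum.inr ⟨i, ⟨s, hs'⟩⟩), hb _⟩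

/-- a nonzero algebraic element divides a nonzero element of the base. -/
theorem exists_mul_eq [IsDomain Λ] [FaithfulSMul Λ Ω] {y : Ω} (hy : y ≠ 0) {P : Λ[X]}
    (hP : P ≠ 0) (h : aeval y P = 0) :
    ∃ (f : Λ[X]) (g : Λ), g ≠ 0 ∧ y * aeval y f = algebraMap Λ Ω g := by
  induction hn : P.natDegree using Nat.strong_induction_on generalizing P with
  | _ n ih =>
    have hdiv : P = X * P.divX + C (P.coeff 0) := (Polynomial.X_mul_divX_add P).symm
    by_cases h0 : P.coeff 0 = 0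
    · have hd : P.divX ≠ 0 := by
        intro hd
        rw [hd, h0, mul_zero, C_0, add_zero] at hdiv
        exact hP hdiv
      have h1 : aeval y P.divX = 0 := by
        rw [hdiv, h0, C_0, add_zero, map_mul, aeval_X] at h
        exact (mul_eq_zero.1 h).resolve_left hy
      refine ih P.divX.natDegree ?_ hd h1 rfl
      rw [← hn, Polynomial.natDegree_divX_eq_natDegree_tsub_one]
      have h2 : P.natDegree ≠ 0 := by
        intro h3
        rw [Polynomial.eq_C_of_natDegree_eq_zero h3, h0, C_0] at hP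
        exact hP rfl
      omega
    · refine ⟨P.divX, -P.coeff 0, neg_ne_zero.2 h0, ?_⟩
      rw [hdiv, map_add, map_mul, aeval_X, aeval_C] at h
      rw [map_neg]
      exact eq_neg_of_add_eq_zero_left h

/-- the list of integral elements, in the form of the inner skeleton. -/
theorem exists_list [IsLocalRing R] [IsLocalRing Λ] [IsDomain Λ] [FaithfulSMul Λ Ω]
    [Module.Finite Λ (R ⧸ Ideal.ofList hs)]
    (F : Fin 2 → FlagMod Λ Ω hs)
    (hM : ∃ M : ℕ, maximalIdeal R ^ M ≤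
      Ideal.ofList hs ⊔ (maximalIdeal Λ).map (algebraMap Λ R))
    {d : ℕ} (x : Fin d → R) (hx : ∀ l, x l ∈ maximalIdeal R) :
    ∃ (m : ℕ) (b : Fin m → Ω) (Fp : Fin m → Λ[X])
      (ix : ∀ i : Fin 2, Fin (F i).n → Fin d → Fin m)
      (pl : ∀ (i : Fin 2) (j : ℕ), (Fin j → Fin (F i).n) → Fin m),
      (∀ l, (Fp l).Monic ∧ aeval (b l) (Fp l) = 0) ∧
      (∀ i j l, b (ix i j l) = (F i).σ j (x l) ∧
        ∀ t < (Fp (ix i j l)).natDegree, (Fp (ix i j l)).coeff t ∈ maximalIdeal Λ) ∧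
      (∀ (i : Fin 2) (j : ℕ) (t : Fin j → Fin (F i).n), b (pl i j t) = detT (F i).v j t) ∧
      (∀ i j (r : R), ∃ f : MvPolynomial (Fin m) Λ, MvPolynomial.aeval b f = (F i).σ j r) ∧
      (∀ l, b l ≠ 0 → ∃ (f : Λ[X]) (g : Λ), g ≠ 0 ∧
        b l * aeval (b l) f = algebraMap Λ Ω g) := by
  obtain ⟨M, hM⟩ := hM
  obtain ⟨B⟩ := exists_bdata F hM x hx
  exact ⟨B.m, B.b, B.P, B.lx, B.lt, fun l => ⟨B.monic l, B.root l⟩,
    fun i j l => ⟨B.lx_eq i j l, B.lx_nil i j l⟩, B.lt_eq, B.lift,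
    fun l hl => exists_mul_eq hl (B.monic l).ne_zero (B.root l)⟩

end data

end Vale.Agent.P177.Full
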