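import Vale.Agent.P177.Ap.TenMod
import Vale.Agent.P177.Ap.FlagX
import Vale.Agent.P177.TH.Theta
import Vale.Agent.P177.Flag.FamP

/-!
P177, block XMOD: the `R ⊗[ℤ] W`-modules `(WI J / ξ) ⊗ L` and `(M s / N s) ⊗ L`; their truncated
Euler characteristic.
-/

namespace Vale.Agent.P177.Ap

open Vale.Agent.P177.Flag Vale.Agent.P177.PI Vale.Agent.P177.TH Vale.Agent.P202.Mix TensorProduct
  WittVector

universe u v

section Quot

variable {W : Type u} [CommRing W]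

/-- `M / ξ M`. -/
abbrev JSh (ξ : W) (M : Ideal W) : Type u :=
  M ⧸ (Submodule.comap M.subtype (Ideal.span {ξ} * M))

theorem JSh.mk_eq_zero_iff {ξ : W} {M : Ideal W} (x : M) :
    (Submodule.Quotient.mk x : JSh ξ M) = 0 ↔ ∃ z ∈ M, (x : W) = ξ * z := by
  rw [Submodule.Quotient.mk_eq_zero, Submodule.mem_comap]
  change (x : W) ∈ Ideal.span {ξ} * M ↔ _
  rw [Ideal.mem_span_singleton_mul]
  exact ⟨fun ⟨z, hz, h⟩ => ⟨z, hz, h.symm⟩, fun ⟨z, hz, h⟩ => ⟨z, hz, h.symm⟩⟩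

variable {G : Type v} [AddCommGroup G] (F : RFam W G) (ξ : W) (s : G)

/-- `M s / ξ → M s / N s`. -/
noncomputable def jshGr (h : Ideal.span {ξ} * F.M s ≤ F.N s) : JSh ξ (F.M s) →ₗ[W] Gr F s :=
  Submodule.mapQ _ _ LinearMap.id (by
    intro x hx
    exact h hx)

theorem jshGr_mk (h : Ideal.span {ξ} * F.M s ≤ F.N s) (x : F.M s) :
    jshGr F ξ s h (Submodule.Quotient.mk x) = Submodule.Quotient.mk x := rfl

theorem jshGr_surjective (h : Ideal.span {ξ} * F.M s ≤ F.N s) :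
    Function.Surjective (jshGr F ξ s h) := by
  intro y
  obtain ⟨x, rfl⟩ := Submodule.Quotient.mk_surjective _ y
  exact ⟨Submodule.Quotient.mk x, rfl⟩

theorem jshGr_eq_zero_iff (h : Ideal.span {ξ} * F.M s ≤ F.N s) {a : W}
    (hN : F.N s = (Ideal.span {ξ} ⊔ Ideal.span {a}) * F.M s) (y : JSh ξ (F.M s)) :
    jshGr F ξ s h y = 0 ↔ ∃ z, y = a • z := by
  obtain ⟨x, rfl⟩ := Submodule.Quotient.mk_surjective _ y
  rw [jshGr_mk, Submodule.Quotient.mk_eq_zero, Submodule.mem_comap]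
  change (x : W) ∈ F.N s ↔ _
  rw [hN, Ideal.sup_mul, Submodule.mem_sup]
  constructor
  · rintro ⟨u, hu, v, hv, huv⟩
    obtain ⟨m, hm, rfl⟩ := Ideal.mem_span_singleton_mul.1 hv
    refine ⟨Submodule.Quotient.mk ⟨m, hm⟩, ?_⟩
    rw [← Submodule.Quotient.mk_smul, Submodule.Quotient.eq, Submodule.mem_comap]
    change (x : W) - a * m ∈ _
    rw [← huv, add_sub_cancel_right]
    exact hu
  · rintro ⟨z, hz⟩
    obtain ⟨m, rfl⟩ := Submodule.Quotient.mk_surjective _ z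
    rw [← Submodule.Quotient.mk_smul, Submodule.Quotient.eq, Submodule.mem_comap] at hz
    refine ⟨_, hz, a * m, Ideal.mem_span_singleton_mul.2 ⟨m, m.2, rfl⟩, ?_⟩
    change (x : W) - a * m + a * m = x
    ring

end Quot

section Witt

variable (p : ℕ) [hp : Fact p.Prime] {C : Type u} [CommRing C] [CharP C p] [PerfectRing C p]

/-- `WI J / (p - [t])` is `p`-torsion free. -/
theorem jsh_regular {J : Ideal C} (hJ : IsPerf p J) {t : C} (ht : t ∈ nonZeroDivisors C)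
    (y : JSh ((p : WittVector p C) - teichmuller p t) (WI p J))
    (hy : (p : WittVector p C) • y = 0) : y = 0 := by
  obtain ⟨x, rfl⟩ := Submodule.Quotient.mk_surjective _ y
  rw [← Submodule.Quotient.mk_smul, JSh.mk_eq_zero_iff] at hy
  rw [JSh.mk_eq_zero_iff]
  obtain ⟨m, hm, he⟩ := hy
  change (p : WittVector p C) * (x : WittVector p C) = _ at he
  have h0 : m.coeff 0 = 0 := by
    have h1 := congrArg WittVector.constantCoeff he
    rw [map_mul, map_mul, map_sub, map_natCast, CharP.cast_eq_zero, zero_mul, zero_sub] at h1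
    have h2 : 0 = -(teichmuller p t).coeff 0 * m.coeff 0 := h1
    rw [teichmuller_coeff_zero, neg_mul, zero_eq_neg] at h2
    exact (mul_left_mem_nonZeroDivisors_eq_zero_iff ht).1 h2
  obtain ⟨m', hm', rfl⟩ := exists_p_mul_of_coeff_zero p hJ hm h0
  refine ⟨m', hm', ?_⟩
  have h3 : ((x : WittVector p C) - ((p : WittVector p C) - teichmuller p t) * m') *
      (p : WittVector p C) = 0 := by
    linear_combination he
  exact sub_eq_zero.1 (WittVector.eq_zero_of_p_mul_eq_zero _ h3)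

end Witt

section Flag

variable {Λ R W : Type u} [CommRing Λ] [CommRing R] [Algebra Λ R] [CommRing W] (φ : Λ →+* W)
  {L : Type u} [AddCommGroup L] [Module R L] [Module Λ L] [IsScalarTower Λ R L]
  {G : Type v} [AddCommGroup G] {n : ℕ} (b : Module.Basis (Fin n) Λ L)
  {F : RFam W G} {τ : ∀ j : ℕ, (Fin j → Fin n) → W} {d : ℕ → G} {good : G → Prop} {η : W}
  {q : R ⊗[ℤ] W}
  {θ : ∀ (X : Type u) [AddCommGroup X] [Module (R ⊗[ℤ] W) X], ℝ}
  {Adm : ∀ (X : Type u) [AddCommGroup X] [Module (R ⊗[ℤ] W) X], Prop}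

/-- **The flag formula for `(M s / N s) ⊗ L`.** -/
theorem theta_flag (k : ℕ) (Θ : IsTheta (inW R W η) q θ Adm)
    (h : FDataE F τ d good η) (hn : 0 < n) {s : G}
    (hs : good s) (hs1 : ∀ j < n, good (s + d j - d (j + 1)))
    (hs2 : ∀ j < n, good (s - d (j + 1)))
    (hcol : ∀ j < n, ColN F τ d (j + 1) (s + d j))
    (hsko : ∀ j < n, SkoN F τ d j (s + d j - d (j + 1)))
    (hq : ∀ x : TenM φ (Gr F s) L, q • x = 0)
    (c : R → ℕ → W) (hEig : ∀ r, EigNA F τ d η ((actMat b r).map φ) (c r))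
    (N : ℕ → Type u) [∀ j, AddCommGroup (N j)] [∀ j, Module (R ⊗[ℤ] W) (N j)]
    (hN : ∀ j < n, Adm (N j)) (hNq : ∀ j < n, ∀ m : N j, q • m = 0)
    (π : ∀ j, Gr F (s + d j - d (j + 1)) →+ N j)
    (hπ : ∀ j < n, ∀ m : N j, ∃ g, π j g = inW R W η ^ k • m)
    (hπ0 : ∀ j < n, ∀ x, π j x = 0 → η ^ k • x = 0)
    (hπW : ∀ j < n, ∀ (a : W) (x), π j (a • x) = inW R W a • π j x)
    (hπR : ∀ j < n, ∀ (r : R) (x), π j (c r j • x) = inR R W r • π j x) :
    Adm (TenM φ (Gr F s) L) ∧ θ (TenM φ (Gr F s) L) = ∑ j ∈ Finset.range n, θ (N j) :=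
  theta_tensor b (Y := LM φ (Gr F s)) k (inR R W) (inW R W) φ ten_gen Θ h hn hs hs1 hs2 hcol hsko
    (AddEquiv.refl _) (fun _ _ => rfl) hq (AddEquiv.refl _)
    (fun r y l => (inR_smul_tmul (φ := φ) r y l).symm)
    (fun a y l => (inW_smul_tmul (φ := φ) a y l).symm) c hEig N hN hNq π hπ hπ0 hπW hπR

end Flag

section Trunc

variable {Λ R W : Type u} [CommRing Λ] [CommRing R] [Algebra Λ R] [CommRing W] (φ : Λ →+* W)
  (L : Type u) [AddCommGroup L] [Module R L] [Module Λ L] [IsScalarTower Λ R L] [Module.Flat Λ L]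
  {G : Type v} [AddCommGroup G] {F : RFam W G} {s : G} {p c m : ℕ} {α β : R} {ξ : W}
  (B : Type u) [CommRing B] [Algebra (R ⊗[ℤ] W) B] {ℓ : AddLen (R ⊗[ℤ] W)} {η : R ⊗[ℤ] W}

/-- **The truncated Euler characteristic of `(M s / N s) ⊗ L`**, `N s = (ξ, p ^ (c (m + 1))) M s`,
is the Euler characteristic of `(M s / ξ) ⊗ L`. -/
theorem theta_trunc_x (H : IsHypersurface (R ⊗[ℤ] W) B (inR R W α)) (hη : EtaNull ℓ η)
    (hαβ : (p : R) ^ c = α + β) (hβ : ∀ l : L, β • l = 0)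
    (hreg : ∀ y : JSh ξ (F.M s), (p : W) • y = 0 → y = 0)
    (hN : F.N s = (Ideal.span {ξ} ⊔ Ideal.span {(p : W) ^ (c * (m + 1))}) * F.M s)
    (A : Type u) [AddCommGroup A] [Module (R ⊗[ℤ] W) A] [Module B A]
    [IsScalarTower (R ⊗[ℤ] W) B A] (hA : ∀ i, FPn B i A) (n : ℕ)
    (hfin : ∀ i, ℓ.len (TorM (R ⊗[ℤ] W) i (TenM φ (JSh ξ (F.M s)) L) A) < ⊤) :
    (∀ x : TenM φ (Gr F s) L, inR R W α ^ (m + 1) • x = 0) ∧
      Adm B (inR R W α) ℓ η m A (TenM φ (Gr F s) L) ∧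
      theta B ℓ n A (TenM φ (Gr F s) L) = chi ℓ n (TenM φ (JSh ξ (F.M s)) L) A := by
  have hle : Ideal.span {ξ} * F.M s ≤ F.N s := by
    rw [hN]
    exact Ideal.mul_mono_left le_sup_left
  obtain ⟨h1, h2, h3, h4⟩ := TenM.trunc (φ := φ) (L := L) hαβ hβ hreg (jshGr F ξ s hle)
    (jshGr_surjective F ξ s hle) m (jshGr_eq_zero_iff F ξ s hle hN)
  exact ⟨h4, theta_trunc B (inR R W α) ℓ η H hη A hA n
    ⟨0, fun v hv => by rw [h1 v hv, smul_zero]⟩ hfin _ h2 h3⟩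

end Trunc

section FamP

variable (p : ℕ) [hp : Fact p.Prime] {ι : Type u} [Nonempty ι] {C : ι → Type u}
  [∀ e, CommRing (C e)] [∀ e, CharP (C e) p] [∀ e, PerfectRing (C e) p] {r : ℕ}

attribute [local instance] charP_pi perfectRing_pi

/-- `ξ = p - [t]`. -/
noncomputable abbrev xiW {C : Type u} [CommRing C] (t : C) : WittVector p C :=
  (p : WittVector p C) - teichmuller p t

theorem famP_regular (I : ∀ e, Fin r → Ideal (C e)) {t : ∀ e, C e}
    (ht : ∀ e, t e ∈ nonZeroDivisors (C e)) (N : ℕ) (s : Fin r → ℤ) :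
    ∀ y : JSh (xiW p t) ((famP p I t N).M s), (p : WittVector p (∀ e, C e)) • y = 0 → y = 0 := by
  rw [famP_M]
  refine jsh_regular p (isPerf_JP p I s) ?_
  rw [mem_nonZeroDivisors_iff_right]
  intro x hx
  funext e
  exact (mem_nonZeroDivisors_iff_right.1 (ht e)) _ (congrFun hx e)

theorem famP_N_eq (I : ∀ e, Fin r → Ideal (C e)) (t : ∀ e, C e) (N : ℕ) (s : Fin r → ℤ) :
    (famP p I t N).N s = (Ideal.span {xiW p t} ⊔
      Ideal.span {(p : WittVector p (∀ e, C e)) ^ N}) * (famP p I t N).M s := by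
  rw [famP_N, famP_M]
  rfl

end FamP

end Vale.Agent.P177.Ap
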