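import Vale.Agent.P177.Full.FormulaB
import Vale.Agent.P177.Full.XMod

/-!
P177, inner assembly, part C: `chi_flag_R` for the modules `(M s / ξ) ⊗ L`.
-/

namespace Vale.Agent.P177.Full

open TensorProduct Vale.Agent.P202.Mix Vale.Agent.P177.Flag Vale.Agent.P177.PI
  Vale.Agent.P177.Ap Vale.Agent.P177.TH
open scoped ENNReal

universe u v w

theorem inR_eq (R W : Type u) [CommRing R] [CommRing W] :
    inR R W = algebraMap R (R ⊗[ℤ] W) := rfl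

theorem inW_eq (R W : Type u) [CommRing R] [CommRing W] : inW R W = iWt R W := rfl

variable {R : Type u} [CommRing R] [IsRegularLocalRing R] {Λ L : Type u} [CommRing Λ]
  [Algebra Λ R] [AddCommGroup L]
  [Module R L] [Module Λ L] [IsScalarTower Λ R L] {n : ℕ}
  (b : Module.Basis (Fin n) Λ L)
  {W : Type u} [CommRing W] [Module.Flat ℤ W] {G : Type v} [AddCommGroup G]
  {F : RFam W G} {τ : ∀ j : ℕ, (Fin j → Fin n) → W} {dg : ℕ → G} {good : G → Prop} {η : W}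
  {LD : AddLen (R ⊗[ℤ] W)}

include b in
theorem chi_flag_X (d : ℕ) (hd : ringKrullDim R = d) (hd1 : 1 ≤ d) (nn : ℕ) (hnn : d ≤ nn)
    (P : Ideal R) {α β : R} (hαP : α ∈ P) (hα : IsSMulRegular R α) {p c m : ℕ} (hαβ : (p : R) ^ c = α + β)
    (hβ : ∀ l : L, β • l = 0) (k : ℕ) (ψ : Λ →+* W)
    (hη : EtaNull LD (iWt R W η)) (hm : 1 ≤ m)
    -- flag data
    (h : FDataE F τ dg good η) (hn : 0 < n) {s : G}
    (hs : good s) (hs1 : ∀ j < n, good (s + dg j - dg (j + 1)))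
    (hs2 : ∀ j < n, good (s - dg (j + 1)))
    (hcol : ∀ j < n, ColN F τ dg (j + 1) (s + dg j))
    (hsko : ∀ j < n, SkoN F τ dg j (s + dg j - dg (j + 1)))
    {ξ : W} (hN : F.N s = (Ideal.span {ξ} ⊔ Ideal.span {(p : W) ^ (c * (m + 1))}) * F.M s)
    (hreg : ∀ y : JSh ξ (F.M s), (p : W) • y = 0 → y = 0)
    (hfin : ∀ i, LD.len (TorM (R ⊗[ℤ] W) i (TenM ψ (JSh ξ (F.M s)) L)
      ((R ⊗[ℤ] W) ⊗[R] (R ⧸ P))) < ⊤)
    -- the eigencharacters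
    (cc : R → ℕ → W) (hEig : ∀ r, EigNA F τ dg η ((actMat b r).map ψ) (cc r))
    (N : ℕ → Type u) [∀ j, AddCommGroup (N j)] [∀ j, Module (R ⊗[ℤ] W) (N j)]
    (π : ∀ j, Gr F (s + dg j - dg (j + 1)) →+ N j)
    (hπ : ∀ j < n, ∀ m : N j, ∃ g, π j g = iWt R W η ^ k • m)
    (hπ0 : ∀ j < n, ∀ x, π j x = 0 → η ^ k • x = 0)
    (hπW : ∀ j < n, ∀ (a : W) (x), π j (a • x) = iWt R W a • π j x)
    (hπR : ∀ j < n, ∀ (r : R) (x), π j (cc r j • x) = algebraMap R (R ⊗[ℤ] W) r • π j x)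
    (H : ℕ → Type u) [∀ j, AddCommGroup (H j)] [∀ j, Module (R ⊗[ℤ] W) (H j)]
    (hH : ∀ j < n, ∃ k : ℕ, ∀ v : H j, algebraMap R (R ⊗[ℤ] W) α • v = 0 →
      iWt R W η ^ k • v = 0)
    (hHfin : ∀ j < n, ∀ i, LD.len (TorM (R ⊗[ℤ] W) i (H j) ((R ⊗[ℤ] W) ⊗[R] (R ⧸ P))) < ⊤)
    (f : ∀ j, H j →ₗ[R ⊗[ℤ] W] N j)
    (hf : ∀ j < n, Function.Surjective (f j))
    (hker : ∀ j < n, ∀ v, f j v = 0 ↔ ∃ w, v = algebraMap R (R ⊗[ℤ] W) α ^ (m + 1) • w) :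
    TH.chi LD nn (TenM ψ (JSh ξ (F.M s)) L) ((R ⊗[ℤ] W) ⊗[R] (R ⧸ P)) =
      ∑ j ∈ Finset.range n, TH.chi LD nn (H j) ((R ⊗[ℤ] W) ⊗[R] (R ⧸ P)) := by
  have hfree : Module.Free Λ L := Module.Free.of_basis b
  have hle : Ideal.span {ξ} * F.M s ≤ F.N s := by
    rw [hN]
    exact Ideal.mul_mono_left le_sup_left
  obtain ⟨h1, h2, h3, h4⟩ := TenM.trunc (φ := ψ) (L := L) hαβ hβ hreg (jshGr F ξ s hle)
    (jshGr_surjective F ξ s hle) m (jshGr_eq_zero_iff F ξ s hle hN)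
  exact chi_flag_R b (Y := LM ψ (Gr F s)) d hd hd1 nn hnn P hαP hα k ψ ten_gen hη hm h hn hs hs1 hs2
    hcol hsko (AddEquiv.refl _) (fun _ _ => rfl) h4 (AddEquiv.refl _)
    (fun r y l => (inR_smul_tmul (φ := ψ) r y l).symm)
    (fun a y l => (inW_smul_tmul (φ := ψ) a y l).symm)
    ⟨0, fun v hv => by rw [h1 v hv, smul_zero]⟩ hfin _ h2 h3 cc hEig N π hπ hπ0 hπW hπR H hH hHfin
    f hf hker

include b in
/-- `chi_flag_X` with `M s` renamed. -/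
theorem chi_flag_XM {M0 : Ideal W} (d : ℕ) (hd : ringKrullDim R = d) (hd1 : 1 ≤ d) (nn : ℕ) (hnn : d ≤ nn)
    (P : Ideal R) {α β : R} (hαP : α ∈ P) (hα : IsSMulRegular R α) {p c m : ℕ} (hαβ : (p : R) ^ c = α + β)
    (hβ : ∀ l : L, β • l = 0) (k : ℕ) (ψ : Λ →+* W)
    (hη : EtaNull LD (iWt R W η)) (hm : 1 ≤ m)
    -- flag data
    (h : FDataE F τ dg good η) (hn : 0 < n) {s : G}
    (hs : good s) (hs1 : ∀ j < n, good (s + dg j - dg (j + 1)))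
    (hs2 : ∀ j < n, good (s - dg (j + 1)))
    (hcol : ∀ j < n, ColN F τ dg (j + 1) (s + dg j))
    (hsko : ∀ j < n, SkoN F τ dg j (s + dg j - dg (j + 1)))
    {ξ : W} (hM0 : F.M s = M0)
    (hN : F.N s = (Ideal.span {ξ} ⊔ Ideal.span {(p : W) ^ (c * (m + 1))}) * M0)
    (hreg : ∀ y : JSh ξ M0, (p : W) • y = 0 → y = 0)
    (hfin : ∀ i, LD.len (TorM (R ⊗[ℤ] W) i (TenM ψ (JSh ξ M0) L)
      ((R ⊗[ℤ] W) ⊗[R] (R ⧸ P))) < ⊤)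
    -- the eigencharacters
    (cc : R → ℕ → W) (hEig : ∀ r, EigNA F τ dg η ((actMat b r).map ψ) (cc r))
    (N : ℕ → Type u) [∀ j, AddCommGroup (N j)] [∀ j, Module (R ⊗[ℤ] W) (N j)]
    (π : ∀ j, Gr F (s + dg j - dg (j + 1)) →+ N j)
    (hπ : ∀ j < n, ∀ m : N j, ∃ g, π j g = iWt R W η ^ k • m)
    (hπ0 : ∀ j < n, ∀ x, π j x = 0 → η ^ k • x = 0)
    (hπW : ∀ j < n, ∀ (a : W) (x), π j (a • x) = iWt R W a • π j x)
    (hπR : ∀ j < n, ∀ (r : R) (x), π j (cc r j • x) = algebraMap R (R ⊗[ℤ] W) r • π j x)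
    (H : ℕ → Type u) [∀ j, AddCommGroup (H j)] [∀ j, Module (R ⊗[ℤ] W) (H j)]
    (hH : ∀ j < n, ∃ k : ℕ, ∀ v : H j, algebraMap R (R ⊗[ℤ] W) α • v = 0 →
      iWt R W η ^ k • v = 0)
    (hHfin : ∀ j < n, ∀ i, LD.len (TorM (R ⊗[ℤ] W) i (H j) ((R ⊗[ℤ] W) ⊗[R] (R ⧸ P))) < ⊤)
    (f : ∀ j, H j →ₗ[R ⊗[ℤ] W] N j)
    (hf : ∀ j < n, Function.Surjective (f j))
    (hker : ∀ j < n, ∀ v, f j v = 0 ↔ ∃ w, v = algebraMap R (R ⊗[ℤ] W) α ^ (m + 1) • w) :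
    TH.chi LD nn (TenM ψ (JSh ξ M0) L) ((R ⊗[ℤ] W) ⊗[R] (R ⧸ P)) =
      ∑ j ∈ Finset.range n, TH.chi LD nn (H j) ((R ⊗[ℤ] W) ⊗[R] (R ⧸ P)) := by
  subst hM0
  exact chi_flag_X b d hd hd1 nn hnn P hαP hα hαβ hβ k ψ hη hm h hn hs hs1 hs2 hcol hsko hN hreg
    hfin cc hEig N π hπ hπ0 hπW hπR H hH hHfin f hf hker

end Vale.Agent.P177.Full
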