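import Vale.Agent.P177.Full.MainA
import Vale.Agent.P177.Full.FormulaC
import Vale.Agent.P177.B8.V1
import Vale.Agent.P177.SopReg

/-!
P177, inner assembly: the multiplicativity formula for the modules `(WI J / ξ) ⊗ L`.
-/

namespace Vale.Agent.P177.Full

open TensorProduct IsLocalRing RingTheory.Sequence Function Module Vale.Agent.P177.Flag
  Vale.Agent.P202.Mix Vale.Agent.P177.Lev WittVector Vale.Agent.P177.KG
open scoped ENNReal

universe u

section Lam

variable {p : ℕ} [Fact p.Prime] {R : Type u} [CommRing R] [IsRegularLocalRing R]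
    {hs : List R} {r : ℕ} [IsRegularLocalRing (Lam p (ResidueField R) r)]
    [Algebra (Lam p (ResidueField R) r) R]

/-- the parameters `p, u_1, .., u_r` of `Λ`. -/
noncomputable def parL (p : ℕ) [Fact p.Prime] (k : Type u) [CommRing k] (r : ℕ) :
    List (Lam p k r) :=
  (p : Lam p k r) :: List.ofFn fun l : Fin r => MvPowerSeries.X l

theorem parL_length (p : ℕ) [Fact p.Prime] (k : Type u) [CommRing k] (r : ℕ) :
    (parL p k r).length = r + 1 := by
  rw [parL, List.length_cons, List.length_ofFn]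

theorem Norm.ofList_parL (h : Norm p R r hs) :
    Ideal.ofList (parL p (ResidueField R) r) = maximalIdeal (Lam p (ResidueField R) r) := by
  rw [h.max, parL, Ideal.ofList_cons, Ideal.span_union, Ideal.ofList]
  congr 2
  ext x
  simp only [List.mem_ofFn, Set.mem_ofPred_eq, Set.mem_range]

theorem Norm.isWeaklyRegular_parL (h : Norm p R r hs)
    (hdim : ringKrullDim (R ⧸ Ideal.ofList hs) = ((r + 1 : ℕ) : WithBot ℕ∞)) :
    IsWeaklyRegular (Lam p (ResidueField R) r) (parL p (ResidueField R) r) := by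
  refine SR.isWeaklyRegular_of_sop (t := r + 1) (h.dim.trans hdim) _ (parL_length _ _ _)
    (fun z hz => ?_) ?_
  · rw [← h.ofList_parL]
    exact Ideal.subset_span hz
  · rw [h.ofList_parL]
    exact Ideal.le_radical

theorem Norm.exists_sub_mem (h : Norm p R r hs) (x : R) :
    ∃ a : Lam p (ResidueField R) r, x - algebraMap _ R a ∈ maximalIdeal R := by
  refine ⟨MvPowerSeries.C (WittVector.teichmuller p (IsLocalRing.residue R x)), ?_⟩
  rw [← residue_eq_zero_iff, map_sub, h.residue, WittVector.teichmuller_coeff_zero, sub_self]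

end Lam

namespace Core

variable {p : ℕ} [Fact p.Prime] {R : Type u} [CommRing R] [IsRegularLocalRing R]
    [CharP (ResidueField R) p] [PerfectRing (ResidueField R) p] {d : ℕ} {P : Ideal R}
    {hs : List R} {r : ℕ} [IsRegularLocalRing (Lam p (ResidueField R) r)]
    [Algebra (Lam p (ResidueField R) r) R] {Ω : Type u} [Field Ω]
    [Algebra (Lam p (ResidueField R) r) Ω] {F : Fin 2 → FlagMod (Lam p (ResidueField R) r) Ω hs}
    (X : Core p d P hs r Ω F)

/-- `Λ → W(C)` -/
noncomputable abbrev la : Lam p (ResidueField R) r →+* WittVector p X.K.C := laW X.ψ X.K.C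

/-- the mass over `R ⊗ W(C)`. -/
noncomputable def LD : AddLen (R ⊗[ℤ] WittVector p X.K.C) :=
  B8.pullL (Ap.inW R (WittVector p X.K.C)) X.K.mass

/-- the mass of the residue field. -/
noncomputable def rho : ℝ :=
  (X.K.mass.len (WittVector p X.K.C ⧸ vW p (ResidueField R) r X.K.C)).toReal

theorem rho_pos : 0 < X.rho := by
  refine ENNReal.toReal_pos ?_ X.K.mass_ne_top
  intro h0
  exact X.ε_ne (le_antisymm (h0 ▸ X.K.le_mass_vW) bot_le)

/-- the `W(C)`-module `WI J / (p - [t])`. -/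
abbrev YJ (J : Ideal X.K.C) : Type u :=
  Ap.JSh (Ap.xiW p (tC p (ResidueField R) r X.K.C)) (PI.WI p J)

/-- **The multiplicativity formula** for `(WI J / ξ) ⊗ L`. -/
theorem euler_mul (hN : Norm p R r hs) (hd : ringKrullDim R = d)
    (hdim : ringKrullDim (R ⧸ Ideal.ofList hs) = ((r + 1 : ℕ) : WithBot ℕ∞))
    (hrad : maximalIdeal R ≤ (P ⊔ Ideal.ofList hs).radical) (i : Fin 2) (J : Ideal X.K.C)
    (hfin : ∀ j, X.K.mass.len ((KC (R := WittVector p X.K.C) (X.YJ J)
      ((parL p (ResidueField R) r).map X.la)).H j) ≠ ⊤)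
    (hchi : ∑ j ∈ Finset.range (r + 2), (-1 : ℝ) ^ j * (X.K.mass.len
      ((KC (R := WittVector p X.K.C) (X.YJ J)
        ((parL p (ResidueField R) r).map X.la)).H j)).toReal = X.rho) :
    (∀ j, X.LD.len (TorM (R ⊗[ℤ] WittVector p X.K.C) j (Ap.TenM X.la (X.YJ J) (F i).L)
      ((R ⊗[ℤ] WittVector p X.K.C) ⊗[R] (R ⧸ P))) < ⊤) ∧
    ∀ nn, d + r + 3 ≤ nn → TH.chi X.LD nn (Ap.TenM X.la (X.YJ J) (F i).L)
      ((R ⊗[ℤ] WittVector p X.K.C) ⊗[R] (R ⧸ P)) =
        (eulerTor R (d + 1) (R ⧸ P) (F i).L : ℝ) * X.rho := by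
  have h1 : IsLocalHom (algebraMap (Lam p (ResidueField R) r) R) := hN.isLocalHom
  have h2 : Module.Flat ℤ (WittVector p X.K.C) := flat_int_witt p X.K.C
  have h3 : Module.Free (Lam p (ResidueField R) r) (F i).L := Module.Free.of_basis (F i).b
  obtain ⟨h4, h5⟩ := B8.b8_koszul (φ := X.la) (Y := X.YJ J) (P := (F i).L) X.K.mass (R ⧸ P)
    (hN.isWeaklyRegular_parL hdim) hN.ofList_parL hfin (d + 1)
    (fun j hj => regular_tor_vanish R d hd (R ⧸ P) (F i).L j hj)
    (fun j => length_tor_ne_top hrad (F i).L (F i).kill j) hN.exists_sub_mem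
  refine ⟨fun j => lt_top_iff_ne_top.2 (h4 j), fun nn hnn => ?_⟩
  rw [parL_length] at h5
  have h6 := h5 nn (by omega)
  rw [eulerTor_eq_of_le hd P (F i).L (by omega), hchi] at h6
  exact h6

end Core

end Vale.Agent.P177.Full
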