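import Mathlib

/-!
P177: the Witt vectors of a perfect ring are flat over `ℤ`, so `R ⊗ W(C)` is flat over `R`.
-/

namespace Vale.Agent.P177.Full

open TensorProduct WittVector

universe u

variable (p : ℕ) [hp : Fact p.Prime] (C : Type u) [CommRing C] [CharP C p] [PerfectRing C p]

theorem witt_int_smul {n : ℤ} (hn : n ≠ 0) {x : WittVector p C} (h : n • x = 0) : x = 0 := by
  obtain ⟨a, n', hn', rfl⟩ : ∃ (a : ℕ) (n' : ℤ), ¬ (p : ℤ) ∣ n' ∧ n = (p : ℤ) ^ a * n' := by
    have hfin : FiniteMultiplicity (p : ℤ) n := by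
      refine Int.finiteMultiplicity_iff.2 ⟨?_, hn⟩
      simpa using hp.1.ne_one
    obtain ⟨c, hc, hc'⟩ := hfin.exists_eq_pow_mul_and_not_dvd
    exact ⟨_, c, hc', hc⟩
  have h1 : ∀ (a : ℕ) (y : WittVector p C), ((p : ℤ) ^ a) • y = 0 → y = 0 := by
    intro a
    induction a with
    | zero => intro y hy; simpa using hy
    | succ a ih =>
      intro y hy
      refine WittVector.eq_zero_of_p_mul_eq_zero y ?_
      apply ih
      rw [pow_succ, mul_smul] at hy
      rw [← hy]
      congr 1
      rw [zsmul_eq_mul, mul_comm]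
      simp
  rw [mul_smul] at h
  have h2 := h1 a _ h
  -- Bezout
  have hcop : ∀ m : ℕ, IsCoprime n' ((p : ℤ) ^ m) := fun m =>
    IsCoprime.pow_right ((Prime.coprime_iff_not_dvd (Nat.prime_iff_prime_int.1 hp.1)).2 hn').symm
  have h3 : ∀ m : ℕ, x ∈ Ideal.span {(p : WittVector p C) ^ m} := by
    intro m
    obtain ⟨u, v, huv⟩ := hcop m
    rw [Ideal.mem_span_singleton']
    refine ⟨v • x, ?_⟩
    have h4 : (u * n' + v * (p : ℤ) ^ m) • x = x := by rw [huv, one_smul]
    rw [add_smul, mul_smul, h2, smul_zero, zero_add] at h4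
    conv_rhs => rw [← h4]
    rw [mul_smul, zsmul_eq_mul, zsmul_eq_mul, zsmul_eq_mul]
    push_cast
    ring
  ext m
  have h4 := (WittVector.mem_span_p_pow_iff_le_coeff_eq_zero x (m + 1)).1 (h3 (m + 1)) m
    (Nat.lt_succ_self m)
  rw [h4, WittVector.zero_coeff]

instance flat_int_witt : Module.Flat ℤ (WittVector p C) := by
  have : Module.IsTorsionFree ℤ (WittVector p C) := by
    refine ⟨fun n hn x y hxy => ?_⟩
    have hn0 : n ≠ 0 := by
      rintro rfl
      exact not_isRegular_zero hn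
    have h1 : n • (x - y) = 0 := by
      rw [smul_sub]
      exact sub_eq_zero.2 hxy
    exact sub_eq_zero.1 (witt_int_smul p C hn0 h1)
  infer_instance

instance flat_tensor_witt (R : Type u) [CommRing R] : Module.Flat R (R ⊗[ℤ] WittVector p C) :=
  inferInstance

end Vale.Agent.P177.Full
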