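import Vale.Agent.P177.Full.CoreDefs
import Vale.Agent.P177.Full.MainB
import Vale.Agent.P177.SL.FinalA
import Vale.Agent.P177.Nat.ExactE

/-!
P177, inner assembly: Tor of the honest modules over `R ⊗ W(C)` is Tor over
`W(k)[[x]] ⊗ W(C')` of `WI J'`.
-/

namespace Vale.Agent.P177.Full

open TensorProduct IsLocalRing RingTheory.Sequence Function Vale.Agent.P202.Mix
  Vale.Agent.P177.Flag Vale.Agent.P177.PI Vale.Agent.P177.Lev Vale.Agent.P177.SL WittVector
open scoped ENNReal

universe u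

section gen

variable {S R : Type u} [CommRing S] [CommRing R] (Φ : S →+* R) (P : Ideal R)

/-- `S ⧸ Φ⁻¹ P ≃ R ⧸ P` over `S`. -/
theorem exists_quot_equiv (hΦ : Surjective Φ) :
    letI : Module S (R ⧸ P) := Module.compHom _ Φ
    Nonempty ((S ⧸ P.comap Φ) ≃ₗ[S] (R ⧸ P)) := by
  let _ : Module S (R ⧸ P) := Module.compHom _ Φ
  let g : S ⧸ P.comap Φ →+* R ⧸ P := Ideal.quotientMap P Φ le_rfl
  have hg : Bijective g := by
    constructor
    · exact Ideal.quotientMap_injective
    · exact Ideal.quotientMap_surjective hΦ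
  refine ⟨LinearEquiv.ofBijective
    { toFun := g
      map_add' := g.map_add
      map_smul' := fun s x => ?_ } hg⟩
  obtain ⟨x, rfl⟩ := Ideal.Quotient.mk_surjective x
  exact map_mul g (Ideal.Quotient.mk _ s) (Ideal.Quotient.mk _ x)

/-- `S ⧸ Φ⁻¹ P ≃ R ⧸ P`. -/
noncomputable def _root_.Ideal.quotientEquivOfComap (hΦ : Surjective Φ) :
    S ⧸ P.comap Φ ≃+* R ⧸ P :=
  RingEquiv.ofBijective (Ideal.quotientMap P Φ le_rfl)
    ⟨Ideal.quotientMap_injective, Ideal.quotientMap_surjective hΦ⟩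

variable {p : ℕ} [hp : Fact p.Prime] {C C' : Type u}
  [CommRing C] [CharP C p] [PerfectRing C p] [CommRing C'] [CharP C' p] [PerfectRing C' p]
  (f : C →+* C') (hΦ : Surjective Φ) (E : S) (hE : RingHom.ker Φ = Ideal.span {E})
  (ψ : S →+* WittVector p C)

theorem glue_len (L : AddLen (WittVector p C)) (J : Ideal C) (hreg : IsSMulRegular S E)
    (hψ : ∀ x : WittVector p C', ((WittVector.map f).comp ψ) E * x = 0 → x = 0)
    (P : Ideal R) (n : ℕ) :
    (L.restrict (Algebra.TensorProduct.includeRight :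
      WittVector p C →ₐ[ℤ] R ⊗[ℤ] WittVector p C).toRingHom).len
      (TorM (R ⊗[ℤ] WittVector p C) n (NatG.HJ p f Φ hΦ E hE ψ J)
        ((R ⊗[ℤ] WittVector p C) ⊗[R] (R ⧸ P))) =
    tau S (lenR S (L.restrict (WittVector.map f))) n (S ⧸ P.comap Φ)
      (XS p (J.map f) ((WittVector.map f).comp ψ)) := by
  have hflat : Module.Flat ℤ (WittVector p C') := flat_int_witt p C'
  let _ : Module S (R ⧸ P) := Module.compHom _ Φ
  obtain ⟨e⟩ := exists_quot_equiv Φ P hΦ
  have h1 := NatG.len_tor_HJ_W p f Φ hΦ E hE ψ L J n (R ⧸ P)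
  have h2 := len_tor_hmod_eq_tau (J' := J.map f) (L.restrict (WittVector.map f)) Φ hΦ E hE
    hreg ((WittVector.map f).comp ψ) (RingHom.id (WittVector p C')) (fun x _ => hψ x) n (R ⧸ P)
    (fun s a => rfl)
  rw [tau_congr _ n e]
  exact h1.trans h2

/-- **generic form**: the Euler characteristics over `R ⊗ W(C)` and over `S ⊗ W(C')`. -/
theorem glue_chi (L : AddLen (WittVector p C)) (J : Ideal C) (hreg : IsSMulRegular S E)
    (hψ : ∀ x : WittVector p C', ((WittVector.map f).comp ψ) E * x = 0 → x = 0)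
    (P : Ideal R) (nn : ℕ) :
    TH.chi (L.restrict (Algebra.TensorProduct.includeRight :
      WittVector p C →ₐ[ℤ] R ⊗[ℤ] WittVector p C).toRingHom) nn (NatG.HJ p f Φ hΦ E hE ψ J)
        ((R ⊗[ℤ] WittVector p C) ⊗[R] (R ⧸ P)) =
    SL.chi S (lenR S (L.restrict (WittVector.map f))) nn (S ⧸ P.comap Φ)
      (XS p (J.map f) ((WittVector.map f).comp ψ)) := by
  unfold TH.chi SL.chi
  exact Finset.sum_congr rfl fun i _ => by rw [glue_len Φ f hΦ E hE ψ L J hreg hψ P i]

variable (p) in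
/-- the Euler characteristic over `S ⊗ W(C')` of `S ⧸ I` and `WI J'`. -/
noncomputable def chiXS (L' : AddLen (WittVector p C')) (ψ' : S →+* WittVector p C')
    (J' : Ideal C') (nn : ℕ) (I : Ideal S) : ℝ :=
  SL.chi S (lenR S L') nn (S ⧸ I) (XS p J' ψ')

variable (p) in
/-- the length of a single Tor module over `S ⊗ W(C')` of `S ⧸ I` and `WI J'`. -/
noncomputable def tauXS (L' : AddLen (WittVector p C')) (ψ' : S →+* WittVector p C')
    (J' : Ideal C') (n : ℕ) (I : Ideal S) : ℝ≥0∞ :=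
  tau S (lenR S L') n (S ⧸ I) (XS p J' ψ')

theorem chiXS_eq (L' : AddLen (WittVector p C')) (ψ' : S →+* WittVector p C')
    (J' : Ideal C') (nn : ℕ) (I : Ideal S) :
    chiXS p L' ψ' J' nn I = SL.chi S (lenR S L') nn (S ⧸ I) (XS p J' ψ') := rfl

theorem tauXS_eq (L' : AddLen (WittVector p C')) (ψ' : S →+* WittVector p C')
    (J' : Ideal C') (n : ℕ) (I : Ideal S) :
    tauXS p L' ψ' J' n I = tau S (lenR S L') n (S ⧸ I) (XS p J' ψ') := rfl

end gen

namespace Core

variable {p : ℕ} [Fact p.Prime] {R : Type u} [CommRing R] [IsRegularLocalRing R]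
    [CharP (ResidueField R) p] [PerfectRing (ResidueField R) p] {d : ℕ} {P : Ideal R}
    {hs : List R} {r : ℕ} [IsRegularLocalRing (Lam p (ResidueField R) r)]
    [Algebra (Lam p (ResidueField R) r) R] {Ω : Type u} [Field Ω]
    [Algebra (Lam p (ResidueField R) r) Ω] {F : Fin 2 → FlagMod (Lam p (ResidueField R) r) Ω hs}
    (X : Core p d P hs r Ω F)

/-- `E` is not zero. -/
theorem E_ne_zero : X.E ≠ 0 := by
  intro h
  have h1 : (MvPowerSeries.constantCoeff (σ := Fin d) (R := WittVector p (ResidueField R))) X.E =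
      (p : WittVector p (ResidueField R)) := by
    have h2 : (MvPowerSeries.constantCoeff (σ := Fin d) (R := WittVector p (ResidueField R)))
        X.g = 0 := by
      have h3 : Ideal.span (Set.range (MvPowerSeries.X : Fin d → Sx p (ResidueField R) d)) ^ 2 ≤
          RingHom.ker (MvPowerSeries.constantCoeff (σ := Fin d)
            (R := WittVector p (ResidueField R))) := by
        refine (Ideal.pow_le_self two_ne_zero).trans ?_
        rw [Ideal.span_le]
        rintro _ ⟨i, rfl⟩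
        exact MvPowerSeries.constantCoeff_X i
      exact h3 X.g_mem
    rw [E, map_sub, h2, sub_zero, map_natCast]
  rw [h, map_zero] at h1
  exact (WittVector.p_nonzero p (ResidueField R)) h1.symm

theorem E_regular : IsSMulRegular (Sx p (ResidueField R) d) X.E := by
  intro x y h
  exact mul_left_cancel₀ X.E_ne_zero h

variable {C' : Type u} [CommRing C'] [CharP C' p] [PerfectRing C' p] (f : X.K.C →+* C')

/-- `W(k)[[x]] → W(C')`. -/
noncomputable abbrev psiZ (σ : R →ₐ[Lam p (ResidueField R) r] Ω) :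
    Sx p (ResidueField R) d →+* WittVector p C' := (WittVector.map f).comp (X.psi σ)

/-- **the single Tor modules**. -/
theorem len_tor_HJ (σ : R →ₐ[Lam p (ResidueField R) r] Ω) (J : Ideal X.K.C)
    (hψ : ∀ x : WittVector p C', X.psiZ f σ X.E * x = 0 → x = 0) (n : ℕ) :
    X.LD.len (TorM (R ⊗[ℤ] WittVector p X.K.C) n (X.HJ f σ J)
      ((R ⊗[ℤ] WittVector p X.K.C) ⊗[R] (R ⧸ P))) =
    tauXS p (X.K.mass.restrict (WittVector.map f)) (X.psiZ f σ) (J.map f) n (P.comap X.Φ) :=
  glue_len X.Φ f X.Φ_surj X.E X.ker_Φ (X.psi σ) X.K.mass J X.E_regular hψ P n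

/-- **the Euler characteristics**. -/
theorem chi_HJ (σ : R →ₐ[Lam p (ResidueField R) r] Ω) (J : Ideal X.K.C)
    (hψ : ∀ x : WittVector p C', X.psiZ f σ X.E * x = 0 → x = 0) (nn : ℕ) :
    TH.chi X.LD nn (X.HJ f σ J) ((R ⊗[ℤ] WittVector p X.K.C) ⊗[R] (R ⧸ P)) =
    chiXS p (X.K.mass.restrict (WittVector.map f)) (X.psiZ f σ) (J.map f) nn (P.comap X.Φ) :=
  glue_chi X.Φ f X.Φ_surj X.E X.ker_Φ (X.psi σ) X.K.mass J X.E_regular hψ P nn

/-- (H1) from the exactness relation of `E`. -/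
theorem psiE_regular (σ : R →ₐ[Lam p (ResidueField R) r] Ω) {t : C'}
    (ht : t ∈ nonZeroDivisors C') {z w : WittVector p C'} {M : ℕ} (hz : IsUnit z) (hM : 1 ≤ M)
    (hE : X.psiZ f σ X.E = ((p : WittVector p C') - teichmuller p t) * z +
      (p : WittVector p C') ^ M * w) (x : WittVector p C') (hx : X.psiZ f σ X.E * x = 0) :
    x = 0 :=
  NatC.eq_zero_of_E_mul p ht hz hM hE hx

/-- the dimension of the support. -/
theorem supportDim_comap : Module.supportDim (Sx p (ResidueField R) d)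
    (Sx p (ResidueField R) d ⧸ P.comap X.Φ) = ringKrullDim (R ⧸ P) := by
  rw [Module.supportDim_quotient_eq_ringKrullDim]
  exact ringKrullDim_eq_of_ringEquiv (Ideal.quotientEquivOfComap X.Φ P X.Φ_surj)

end Core

end Vale.Agent.P177.Full
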