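import Vale.Agent.P177.Full.ChiH
import Vale.Agent.P177.Full.Glue866
import Vale.Agent.P177.Full.H4
import Vale.Agent.P177.Full.ExB7
import Vale.Agent.P177.Full.CutK
import Vale.Agent.P177.SL.GenS
import Vale.Agent.P177.SL.FinalPos

/-!
P177: the Euler characteristics `chiH` do not depend on the ideal and are positive.
-/

namespace Vale.Agent.P177.Full

open TensorProduct IsLocalRing RingTheory.Sequence Function Vale.Agent.P202.Mix
  Vale.Agent.P177.Flag Vale.Agent.P177.PI Vale.Agent.P177.Lev WittVector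
open scoped ENNReal

universe u

section gen

variable {p : ℕ} [hp : Fact p.Prime] {C' : Type u} [CommRing C'] {S : Type u} [CommRing S]
  [IsLocalRing S] {d : ℕ} {z : Fin d → S} [CharP C' p] [PerfectRing C' p]

/-- **independence, vanishing and positivity in one statement.** -/
theorem b7_gen (h : SL.PSRing p S z)
    (ψ : S →+* WittVector p C') {n : ℕ} (v : Fin n → C') (L' : AddLen (WittVector p C'))
    (hr1 : ∀ l, ∃ m : ℕ, ψ (z l) ^ m ∈
      Ideal.ofList ((p : WittVector p C') :: List.ofFn fun i => teichmuller p (v i)))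
    (hr2 : ∀ i, ∃ m : ℕ, teichmuller p (v i) ^ m ∈
      Ideal.span (Set.range fun l => ψ (z l)) ⊔ Ideal.span {(p : WittVector p C')})
    (m0 : ∀ i, 1 ≤ i → L'.len ((KG.KC (R := WittVector p C') (WittVector p C')
      ((p : WittVector p C') :: List.ofFn fun i => teichmuller p (v i))).H i) = 0)
    (m1 : L'.len ((KG.KC (R := WittVector p C') (WittVector p C')
      ((p : WittVector p C') :: List.ofFn fun i => teichmuller p (v i))).H 0) ≠ ⊤)
    (m2 : L'.len ((KG.KC (R := WittVector p C') (WittVector p C')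
      ((p : WittVector p C') :: List.ofFn fun i => teichmuller p (v i))).H 0) ≠ 0)
    (P : Ideal S) (hP : P.IsPrime) (hp' : ∃ m : ℕ, (p : WittVector p C') ^ m ∈ P.map ψ)
    (hv : ∀ i, ∃ m : ℕ, teichmuller p (v i) ^ m ∈ P.map ψ) {J : Ideal C'} (hJ : IsPerf p J)
    (hmJ : ∀ i, L'.len ((KG.KC (R := WittVector p C') (WI p J)
      ((p : WittVector p C') :: List.ofFn fun i => teichmuller p (v i))).H i) ≠ ⊤)
    {m : ℕ} (y : Fin m → C') (hy : ∀ j, y j ∈ Ideal.span (Set.range v)) (l : ℕ)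
    (hcut : Ideal.span (Set.range v) ^ l ≤ Ideal.span (Set.range y) ⊔ J)
    (a : ℕ) (ha : Module.supportDim S (S ⧸ P) = a) (hmn : m < n) (had : a + n ≤ d) (nn : ℕ)
    (hnn : d + 2 ≤ nn)
    (hpos : a + n = d → ∃ gs : List S, IsWeaklyRegular S gs ∧ gs.length = n + 1 ∧
      Ideal.ofList gs ≤ P ∧ (∃ s, s ∉ P ∧ ∀ x ∈ P, s * x ∈ Ideal.ofList gs) ∧
      (∃ m : ℕ, (p : WittVector p C') ^ m ∈ (Ideal.ofList gs).map ψ) ∧
      ∀ i, ∃ m : ℕ, teichmuller p (v i) ^ m ∈ (Ideal.ofList gs).map ψ) :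
    chiXS p L' ψ J nn P = chiXS p L' ψ ⊤ nn P ∧ 0 ≤ chiXS p L' ψ ⊤ nn P ∧
      (a + n = d → 0 < chiXS p L' ψ ⊤ nn P) := by
  have hmV : ∀ i, L'.len ((KG.KC (R := WittVector p C') (WittVector p C')
      ((p : WittVector p C') :: List.ofFn fun i => teichmuller p (v i))).H i) ≠ ⊤ := by
    intro i
    rcases Nat.eq_zero_or_pos i with rfl | hi
    · exact m1
    · rw [m0 i hi]
      exact ENNReal.zero_ne_top
  have hmT : ∀ i, L'.len ((KG.KC (R := WittVector p C') (WI p (⊤ : Ideal C'))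
      ((p : WittVector p C') :: List.ofFn fun i => teichmuller p (v i))).H i) ≠ ⊤ := by
    intro i
    have h1 := MN.KC_len_congr (KG.ALen.of L') (WItopE p (C' := C'))
      ((p : WittVector p C') :: List.ofFn fun i => teichmuller p (v i)) i
    exact fun h2 => hmV i (h1.symm.trans h2)
  have hpos' : a + n = d → 0 < chiXS p L' ψ ⊤ nn P := by
    intro hd
    obtain ⟨gs, h1, h2, h3, ⟨s, h4, h5⟩, h6, h7⟩ := hpos hd
    exact h.pos ψ v L' hr1 hr2 m0 m1 m2 P gs h1 h2 h3 s h4 h5 h6 h7 a ha hd nn hnn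
  refine ⟨h.indep ψ v L' hr1 hr2 P hp' hv hJ hmJ hmV y hy l hcut a ha.le (by omega) nn hnn,
    ?_, hpos'⟩
  rcases had.lt_or_eq with h1 | h1
  · exact (h.vanish ψ v L' hr1 hr2 P hp' hv ⊤ hmT a ha.le h1 nn hnn).ge
  · exact (hpos' h1).le

theorem max_le_radical_of {R : Type u} [CommRing R] [IsLocalRing R] (Φ : S →+* R)
    (hΦ : Surjective Φ) {A : Ideal S} {B : Ideal R}
    (h : maximalIdeal S ≤ (A ⊔ B.comap Φ).radical) :
    maximalIdeal R ≤ (A.map Φ ⊔ B).radical := by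
  intro x hx
  obtain ⟨s, rfl⟩ := hΦ x
  have hs : s ∈ maximalIdeal S := by
    rw [mem_maximalIdeal, mem_nonunits_iff]
    intro hu
    exact (mem_nonunits_iff.1 ((mem_maximalIdeal _).1 hx)) (hu.map Φ)
  obtain ⟨k, hk⟩ := h hs
  refine ⟨k, ?_⟩
  have h1 := Ideal.mem_map_of_mem Φ hk
  rw [map_pow, Ideal.map_sup, Ideal.map_comap_of_surjective Φ hΦ] at h1
  exact h1

theorem exists_max_pow_le {R : Type u} [CommRing R] [IsLocalRing R] [IsNoetherianRing R]
    {I : Ideal R} (h : maximalIdeal R ≤ I.radical) : ∃ K : ℕ, maximalIdeal R ^ K ≤ I :=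
  Ideal.exists_pow_le_of_le_radical_of_fg h (IsNoetherian.noetherian (maximalIdeal R))

end gen

namespace Core

variable {p : ℕ} [Fact p.Prime] {R : Type u} [CommRing R] [IsRegularLocalRing R]
    [CharP (ResidueField R) p] [PerfectRing (ResidueField R) p] {d : ℕ} {P : Ideal R}
    {hs : List R} {r : ℕ} [IsRegularLocalRing (Lam p (ResidueField R) r)]
    [Algebra (Lam p (ResidueField R) r) R] {Ω : Type u} [Field Ω]
    [Algebra (Lam p (ResidueField R) r) Ω] {F : Fin 2 → FlagMod (Lam p (ResidueField R) r) Ω hs}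
    (X : Core p d P hs r Ω F)

/-- the generic complete intersection. -/
theorem exists_gs (hN : Norm p R r hs) (hd : ringKrullDim R = d)
    (hP : P.IsPrime) (hdim : ringKrullDim (R ⧸ Ideal.ofList hs) = ((r + 1 : ℕ) : WithBot ℕ∞))
    (hrad : maximalIdeal R ≤ (P ⊔ Ideal.ofList hs).radical) (hlen : hs.length + (r + 1) = d)
    {a : ℕ} (ha : ringKrullDim (R ⧸ P) = a) :
    ∃ K : ℕ, a + (r + 1) = d → ∃ gs : List (Sx p (ResidueField R) d),
      IsWeaklyRegular (Sx p (ResidueField R) d) gs ∧ gs.length = (r + 1) + 1 ∧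
      Ideal.ofList gs ≤ P.comap X.Φ ∧
      (∃ s, s ∉ P.comap X.Φ ∧ ∀ x ∈ P.comap X.Φ, s * x ∈ Ideal.ofList gs) ∧
      X.E ∈ Ideal.ofList gs ∧ maximalIdeal R ^ K ≤ (Ideal.ofList gs).map X.Φ ⊔ Ideal.ofList hs := by
  by_cases hab : a + (r + 1) = d
  · obtain ⟨fs, h1, h2, h3, h4, h5, h6⟩ := SL.exists_generic_ci_lift X.Φ X.Φ_surj X.E X.ker_Φ
      (mem_nonZeroDivisors_of_ne_zero X.E_ne_zero) P hs hN.mem a (r + 1) d hd ha (by omega) hab
      hrad hdim.le
    obtain ⟨K, hK⟩ := exists_max_pow_le (max_le_radical_of X.Φ X.Φ_surj h6)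
    refine ⟨K, fun _ => ⟨X.E :: fs, h3, by rw [List.length_cons, h1], h4, h5, ?_, hK⟩⟩
    exact Ideal.subset_span (List.mem_cons_self)
  · exact ⟨0, fun h => absurd h hab⟩

variable [IsAdicComplete (maximalIdeal R) R]

/-- **(S4)** -/
theorem b7' (hN : Norm p R r hs) (hd : ringKrullDim R = d)
    (hP : P.IsPrime) (hdim : ringKrullDim (R ⧸ Ideal.ofList hs) = ((r + 1 : ℕ) : WithBot ℕ∞))
    (hrad : maximalIdeal R ≤ (P ⊔ Ideal.ofList hs).radical) (hlen : hs.length + (r + 1) = d)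
    {a : ℕ} (ha : ringKrullDim (R ⧸ P) = a) (hab : a + (r + 1) ≤ d) (nn : ℕ)
    (hnn : d + r + 3 ≤ nn) :
    ∃ M0 : ℕ, ∀ M, M0 ≤ M → ∀ (Z : CN.NatZ p X.K.C (tC p (ResidueField R) r X.K.C) (X.K.etM M))
      (i : Fin 2) (j : Fin (F i).n),
      X.chiH Z.f nn ((F i).σ j) (X.Jp i j) = X.chiH Z.f nn ((F i).σ j) ⊤ ∧
      0 ≤ X.chiH Z.f nn ((F i).σ j) ⊤ ∧
      (a + (r + 1) = d → 0 < X.chiH Z.f nn ((F i).σ j) ⊤) := by
  obtain ⟨K1, hK1⟩ := exists_max_pow_le hrad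
  obtain ⟨K2, hK2⟩ := X.exists_gs hN hd hP hdim hrad hlen ha
  choose Mc hMc using fun (i : Fin 2) (j : Fin (F i).n) =>
    X.exists_cut hN i (PI.sb (F i).n + PI.dg (F i).n j - PI.dg (F i).n (j + 1))
  refine ⟨2 + K1 + K2 + Finset.univ.sup fun i => Finset.univ.sup fun j => Mc i j,
    fun M hM Z i j => ?_⟩
  have hMij : Mc i j ≤ M := by
    have h1 : Mc i j ≤ Finset.univ.sup fun j => Mc i j :=
      Finset.le_sup (f := fun j => Mc i j) (Finset.mem_univ j)
    have h2 : (Finset.univ.sup fun j => Mc i j) ≤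
        Finset.univ.sup fun i => Finset.univ.sup fun j => Mc i j :=
      Finset.le_sup (f := fun i => Finset.univ.sup fun j => Mc i j) (Finset.mem_univ i)
    omega
  have hM2 : 2 ≤ M := by omega
  obtain ⟨y, hy, l, hcut⟩ := hMc i j M hMij Z.f Z.reg Z.jac Z.dvd
  obtain ⟨z, w, hz, hE⟩ := X.z_E hN hM2 Z i j
  have hψ : ∀ x : WittVector p Z.C', X.psiZ Z.f ((F i).σ j) X.E * x = 0 → x = 0 :=
    fun x hx => X.psiE_regular Z.f ((F i).σ j) Z.reg hz (by omega) hE x hx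
  have hEP : X.E ∈ P.comap X.Φ := by
    have h1 : X.E ∈ RingHom.ker X.Φ := by
      rw [X.ker_Φ]
      exact Ideal.mem_span_singleton_self _
    rw [Ideal.mem_comap, (RingHom.mem_ker).1 h1]
    exact P.zero_mem
  obtain ⟨hp', hv⟩ := X.z_H2C hN hM2 Z i j (I := P.comap X.Φ) hEP (K := K1) (by omega) (by
    rw [Ideal.map_comap_of_surjective X.Φ X.Φ_surj]
    exact hK1)
  have hΦ : ∀ j, j * (p ^ j * p ^ j) ≤ X.gr j :=
    fun j => (Nat.mul_le_mul_right _ (Nat.le_add_right _ _)).trans (X.gr_le j)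
  have key := b7_gen (SL.psRing_sx p (ResidueField R) d) (X.psiZ Z.f ((F i).σ j))
    (fun q => Z.f (xC p (ResidueField R) r X.K.C q))
    (X.K.mass.restrict (WittVector.map Z.f)) (X.z_hr1 Z.f i j) (X.z_hr2 hN hM2 Z i j)
    (fun q hq => X.K.m0 (X.K.kil_etM M) Z q hq) (X.K.m1 (X.K.kil_etM M) Z)
    (X.K.m2 X.ε_ne (X.K.kil_etM M) Z) (P.comap X.Φ) (hP.comap X.Φ) hp' hv
    (J := (X.Jp i j).map Z.f) ((X.K.sp_Jz (X.pl i) _).map Z.f).isPerf
    (fun q => X.K.mJ X.base hΦ (X.K.kil_etM M) Z (F i).n (X.pl i) _ (fun j => by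
      obtain ⟨t, ht⟩ := (F i).flag.exists_detT_ne_zero ((j : ℕ) + 1) j.2
      exact ⟨t, by rwa [X.pl_spec i _ j.2 t]⟩) q)
    y hy l hcut a (X.supportDim_comap.trans ha) (Nat.lt_succ_self r) hab nn (by omega)
    (fun hd' => by
      obtain ⟨gs, h1, h2, h3, h4, h5, h6⟩ := hK2 hd'
      obtain ⟨h7, h8⟩ := X.z_H2C hN hM2 Z i j (I := Ideal.ofList gs) h5 (K := K2) (by omega) h6
      exact ⟨gs, h1, h2, h3, h4, h7, h8⟩)
  have e1 := X.chi_HJ Z.f ((F i).σ j) (X.Jp i j) hψ nn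
  have e2 := (X.chi_HJ Z.f ((F i).σ j) ⊤ hψ nn).trans
    (congrArg (fun I => chiXS p (X.K.mass.restrict (WittVector.map Z.f))
      (X.psiZ Z.f ((F i).σ j)) I nn (P.comap X.Φ)) (Ideal.map_top Z.f))
  unfold chiH
  rw [e1, e2]
  exact key

end Core

end Vale.Agent.P177.Full
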