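import Vale.Agent.P177.Full.Pkg

/-!
P177, package: regular sequence, roots of the relations, the additive length `mass` over the
product ring.
-/

namespace Vale.Agent.P177.Full

open Vale.Agent.P202.Mix Vale.Agent.P177.Lev Vale.Agent.P177.SL WittVector Polynomial Filter
open scoped ENNReal

universe u

section root

variable {p : ℕ} [hp : Fact p.Prime]

theorem toB_eq_zero_iff' {C : Type u} [CommRing C] {t : C} {M : ℕ} {x : WittVector p C} :
    x ∈ Ideal.span {(p : WittVector p C) - teichmuller p t, (p : WittVector p C) ^ M} ↔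
      toB p C t x ∈ Ideal.span {(p : Bt p C t) ^ M} := by
  constructor
  · intro h
    obtain ⟨a, b, rfl⟩ := Ideal.mem_span_pair.1 h
    rw [map_add, map_mul, map_mul, map_pow, map_natCast]
    have h0 : toB p C t ((p : WittVector p C) - teichmuller p t) = 0 :=
      Ideal.Quotient.eq_zero_iff_mem.2 (Ideal.mem_span_singleton_self _)
    rw [h0, mul_zero, zero_add]
    exact Ideal.mul_mem_left _ _ (Ideal.mem_span_singleton_self _)
  · intro h
    obtain ⟨a, ha⟩ := Ideal.mem_span_singleton'.1 h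
    obtain ⟨a, rfl⟩ : ∃ a', toB p C t a' = a := Ideal.Quotient.mk_surjective a
    have h1 : toB p C t (x - a * (p : WittVector p C) ^ M) = 0 := by
      rw [map_sub, map_mul, map_pow, map_natCast, ha, sub_self]
    obtain ⟨b, hb⟩ := Ideal.mem_span_singleton'.1 (Ideal.Quotient.eq_zero_iff_mem.1 h1)
    rw [Ideal.mem_span_pair]
    exact ⟨b, a, by rw [hb, sub_add_cancel]⟩

/-- roots of Teichmueller annihilators -/
theorem root_xi {C : Type u} [CommRing C] [CharP C p] [PerfectRing C p] {t : C}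
    (ht : t ∈ nonZeroDivisors C) (Θ : C) (i M N : ℕ) (h : p ^ i * N ≤ M) (x : WittVector p C)
    (hx : teichmuller p Θ * x ∈
      Ideal.span {(p : WittVector p C) - teichmuller p t, (p : WittVector p C) ^ M}) :
    teichmuller p (rt p i Θ) * x ∈
      Ideal.span {(p : WittVector p C) - teichmuller p t, (p : WittVector p C) ^ N} := by
  rw [toB_eq_zero_iff'] at hx ⊢
  apply root_closed p C t ht i N
  have h1 : toB p C t (teichmuller p (rt p i Θ) * x) ^ p ^ i =
      toB p C t (teichmuller p Θ * x) * toB p C t x ^ (p ^ i - 1) := by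
    rw [← map_pow, mul_pow, ← map_pow (teichmuller p), rt_pow_self, ← map_pow, ← map_mul, mul_assoc,
      ← pow_succ', Nat.sub_add_cancel (Nat.one_le_pow _ _ hp.out.pos)]
  rw [h1]
  refine Ideal.mul_mem_right _ _ ?_
  exact (Ideal.span_singleton_le_span_singleton.2 (pow_dvd_pow _ h)) hx

end root

namespace Pkg

variable {p : ℕ} [Fact p.Prime] {k : Type u} [Field k] [CharP k p] {r : ℕ}
variable {Λ : Type u} [CommRing Λ] [IsLocalRing Λ] {ψ : Λ →+* WittVector p (Rp p k r)}
variable {Ω : Type u} [Field Ω] [Algebra Λ Ω] {s : ℕ} {b : Fin s → Ω} {F G : Fin s → Λ[X]}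
    {D : ℕ} {ε : ℝ≥0∞} {Φ : ℕ → ℕ} (K : Pkg ψ b F G D ε Φ)

/-- from `[Θ]` to `[η]` -/
theorem η_mem_xiP {x : WittVector p K.C} {M n : ULift.{u} ℕ → ℕ}
    (h : ∀ e, p ^ K.j e * n e ≤ M e) (hx : teichmuller p K.Θ * x ∈ K.xiP M) :
    teichmuller p K.η * x ∈ K.xiP n := by
  rw [mem_xiP] at hx ⊢
  intro e
  have h1 := hx e
  rw [map_mul, pr_te] at h1 ⊢
  exact root_xi (K.te_reg e) (K.Θ e) (K.j e) (M e) (n e) (h e) _ h1

/-- from `[Θ]` to the roots of `[Θ]` -/
theorem rt_mem_xiP {x : WittVector p K.C} {M n : ULift.{u} ℕ → ℕ} (i : ℕ)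
    (h : ∀ e, p ^ i * n e ≤ M e) (hx : teichmuller p K.Θ * x ∈ K.xiP M) :
    teichmuller p (rt p i K.Θ) * x ∈ K.xiP n := by
  rw [mem_xiP] at hx ⊢
  intro e
  have h1 := hx e
  rw [map_mul, pr_te] at h1 ⊢
  rw [rt_apply]
  exact root_xi (K.te_reg e) (K.Θ e) i (M e) (n e) (h e) _ h1

/-- all relations, with the small error `[η]` -/
theorem η_rel {n : ULift.{u} ℕ → ℕ} (h : ∀ e, p ^ K.j e * n e ≤ K.I e + 1)
    (f : MvPolynomial (Fin s) Λ) (hf : MvPolynomial.aeval b f = 0) :
    teichmuller p K.η * MvPolynomial.eval₂ (laW ψ K.C) (fun l => teichmuller p (K.c l)) f ∈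
      K.xiP n :=
  K.η_mem_xiP h (K.rel f hf)

/-- finitely generated ideals of a product are checked componentwise -/
theorem mem_span_image_pi {ι : Type u} {C : ι → Type u} [∀ e, CommRing (C e)] {n : ℕ}
    (a : Fin n → ∀ e, C e) (S : Set (Fin n)) (y : ∀ e, C e) :
    y ∈ Ideal.span (a '' S) ↔ ∀ e, y e ∈ Ideal.span ((fun l => a l e) '' S) := by
  classical
  constructor
  · intro h e
    have h1 := Ideal.mem_map_of_mem (Pi.evalRingHom C e) h
    rw [Ideal.map_span, Set.image_image] at h1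
    exact h1
  · intro h
    have hS : S = ((Finset.univ.filter fun l => l ∈ S : Finset (Fin n)) : Set (Fin n)) := by
      ext l
      simp
    rw [hS] at h ⊢
    have h1 : ∀ e, ∃ f : Fin n → C e, ∑ l ∈ Finset.univ.filter (fun l => l ∈ S), f l • a l e =
        y e := fun e => (Submodule.mem_span_image_finset_iff_exists_fun' (C e)).1 (h e)
    choose f hf using h1
    refine (Submodule.mem_span_image_finset_iff_exists_fun' _).2 ⟨fun l e => f e l, funext fun e => ?_⟩
    rw [← hf e, Finset.sum_apply]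
    rfl

/-- the variables form a regular sequence -/
theorem regular (i : Fin (r + 1)) (y : K.C)
    (h : xC p k r K.C i * y ∈ Ideal.span ((fun l => xC p k r K.C l) '' {l | l < i})) :
    y ∈ Ideal.span ((fun l => xC p k r K.C l) '' {l | l < i}) := by
  rw [mem_span_image_pi (fun l => (xC p k r K.C l : ∀ e, K.Ce e))] at h ⊢
  intro e
  exact variables_regular (K.lv e).ext i (y e) (h e)

/-- the limit length -/
noncomputable def massU : AddLen (WittVector p K.C) :=
  SL.massU p K.Ce K.U fun e => (K.lv e).L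

/-- THE mass -/
noncomputable def mass : AddLen (WittVector p K.C) :=
  SL.mass p K.Ce K.U (fun e => (K.lv e).L) K.η

theorem mass_eq : K.mass = etaLen K.massU (teichmuller p K.η) := rfl

theorem mass_eq_zero (c : ℕ) (M : Type u) [AddCommGroup M] [Module (WittVector p K.C) M]
    (h : ∀ x : M, teichmuller p K.η ^ c • x = 0) : K.mass.len M = 0 :=
  etaLen_eq_zero _ _ c M h

theorem vW_map (e : ULift.{u} ℕ) : (vW p k r K.C).map (K.pr e) = vW p k r (K.Ce e) := by
  rw [vW, vW, Ideal.map_span, Set.image_insert_eq, map_natCast, ← Set.range_comp]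
  congr 3
  funext l
  exact K.pr_te e _

theorem mass_vW_le : K.mass.len (WittVector p K.C ⧸ vW p k r K.C) ≤ 1 := by
  refine Pos.etaLen_massU_quot_le p K.Ce K.U _ _ _ 1 (Eventually.of_forall fun e => ?_)
  have h := K.vW_map e
  rw [pr] at h
  rw [h, (K.lv e).len_one]

theorem le_mass_vW : ε ≤ K.mass.len (WittVector p K.C ⧸ vW p k r K.C) := by
  refine Pos.le_etaLen_massU_quot p K.Ce K.U _ _ _ ε fun c => ?_
  refine (K.ev c).mono fun e he => ?_
  have h := K.vW_map e
  rw [pr] at h
  rw [h, prW_teichmuller]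
  refine (K.lv e).len_pos.trans ?_
  exact len_mono _ (etaSub_anti (teichmuller p (K.η e)) (by omega : c ≤ e.down + K.N))

theorem mass_ne_top : K.mass.len (WittVector p K.C ⧸ vW p k r K.C) ≠ ⊤ :=
  ne_top_of_le_ne_top ENNReal.one_ne_top K.mass_vW_le

end Pkg

end Vale.Agent.P177.Full
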