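import Vale.Agent.P177.Full.OuterDef
import Vale.Agent.P177.Full.Mass
import Vale.Agent.P177.Flag.Rel

/-!
P177, inner assembly: the data attached to two flags (structure `Core`).
-/

namespace Vale.Agent.P177.Full

open TensorProduct IsLocalRing RingTheory.Sequence Function Vale.Agent.P202.Mix
  Vale.Agent.P177.Flag Vale.Agent.P177.PI Vale.Agent.P177.Lev WittVector
open scoped ENNReal

universe u

/-- `W(k)[[x_1, .., x_d]]` -/
abbrev Sx (p : ℕ) [Fact p.Prime] (k : Type u) [CommRing k] (d : ℕ) : Type u :=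
  MvPowerSeries (Fin d) (WittVector p k)

/-- `Λ[[x_1, .., x_d]]` -/
abbrev Tx (p : ℕ) [Fact p.Prime] (k : Type u) [CommRing k] (r d : ℕ) : Type u :=
  MvPowerSeries (Fin d) (Lam p k r)

/-- all the data used for the two flags `F 0`, `F 1`. -/
structure Core (p : ℕ) [Fact p.Prime] {R : Type u} [CommRing R] [IsRegularLocalRing R]
    [CharP (ResidueField R) p] [PerfectRing (ResidueField R) p] (d : ℕ) (P : Ideal R)
    (hs : List R) (r : ℕ) [IsRegularLocalRing (Lam p (ResidueField R) r)]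
    [Algebra (Lam p (ResidueField R) r) R] (Ω : Type u) [Field Ω]
    [Algebra (Lam p (ResidueField R) r) Ω] (F : Fin 2 → FlagMod (Lam p (ResidueField R) r) Ω hs) where
  /-- the presentation `S = W(k)[[x]] → R` with kernel `(p - g)` -/
  Φ : Sx p (ResidueField R) d →+* R
  g : Sx p (ResidueField R) d
  Φ_surj : Surjective Φ
  Φ_C : ∀ w, Φ (MvPowerSeries.C w) =
    algebraMap (Lam p (ResidueField R) r) R (MvPowerSeries.C w)
  Φ_X : ∀ i, Φ (MvPowerSeries.X i) ∈ maximalIdeal R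
  g_mem : g ∈ Ideal.span (Set.range (MvPowerSeries.X : Fin d → Sx p (ResidueField R) d)) ^ 2
  Φ_ker : RingHom.ker Φ = Ideal.span {(p : Sx p (ResidueField R) d) - g}
  /-- `p ^ c0 = α + β` -/
  c0 : ℕ
  α : R
  β : R
  c0_pos : 1 ≤ c0
  α_mem : α ∈ P
  β_mem : β ∈ Ideal.ofList hs
  α_add : (p : R) ^ c0 = α + β
  α_ne : α ≠ 0
  /-- the integral elements of `Ω` -/
  m : ℕ
  b : Fin m → Ω
  Fp : Fin m → Polynomial (Lam p (ResidueField R) r)
  /-- the indices of the values of the characters -/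
  ix : (R →ₐ[Lam p (ResidueField R) r] Ω) → Fin d → Fin m
  ix_spec : ∀ i j l, b (ix ((F i).σ j) l) = (F i).σ j (Φ (MvPowerSeries.X l))
  ix_nil : ∀ i j l, ∀ t < (Fp (ix ((F i).σ j) l)).natDegree,
    (Fp (ix ((F i).σ j) l)).coeff t ∈ maximalIdeal (Lam p (ResidueField R) r)
  /-- the indices of the Pluecker coordinates -/
  pl : ∀ (i : Fin 2) (j : ℕ), (Fin j → Fin (F i).n) → Fin m
  pl_spec : ∀ i j, j ≤ (F i).n → ∀ t, b (pl i j t) = detT (F i).v j t
  /-- every nonzero `b l` has a cofactor -/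
  cof : ∀ l, b l ≠ 0 → ∃ (f : Polynomial (Lam p (ResidueField R) r))
    (γ : Lam p (ResidueField R) r), γ ≠ 0 ∧
      b l * Polynomial.aeval (b l) f = algebraMap (Lam p (ResidueField R) r) Ω γ
  /-- the base -/
  ψ : Lam p (ResidueField R) r →+* WittVector p (Rp p (ResidueField R) r)
  red : Lam p (ResidueField R) r →+*
    R0 (ResidueField R) r ⧸ Ideal.span {(MvPowerSeries.X 0 : R0 (ResidueField R) r)}
  base : IsBase p (ResidueField R) r (Lam p (ResidueField R) r) (fun i => MvPowerSeries.X i) ψ red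
  /-- the levels -/
  G : Fin m → Polynomial (Lam p (ResidueField R) r)
  D : ℕ
  ε : ℝ≥0∞
  gr : ℕ → ℕ
  ε_ne : ε ≠ 0
  gr_le : ∀ j, (j + 2 * c0) * (p ^ j * p ^ j) ≤ gr j
  K : Pkg ψ b Fp G D ε gr
  /-- the start of the levels is large -/
  N_le : 2 * c0 + 2 ≤ K.N
  /-- the homomorphisms `φ_σ : Λ[[x]] → W(C)`, `x_l ↦ [c_l]` -/
  φ : (R →ₐ[Lam p (ResidueField R) r] Ω) → (Tx p (ResidueField R) r d →+* WittVector p K.C)
  φ_spec : ∀ i j (f : MvPolynomial (Fin d) (Lam p (ResidueField R) r)),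
    φ ((F i).σ j) f = MvPolynomial.eval₂ (laW ψ K.C)
      (fun l => teichmuller p (K.c (ix ((F i).σ j) l))) f

end Vale.Agent.P177.Full
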