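import Vale.Agent.P177.OCore

/-!
P177, block PRES: presentation `W(k)[[x_1, .., x_d]] → R` with prescribed constants.
-/

namespace Vale.Agent.P177.Full

open IsLocalRing Function

universe u

/-- The presentation of a ramified complete regular local ring with perfect residue field, with
prescribed homomorphism `ι : W(k) → R`. -/
theorem exists_pres (p : ℕ) [Fact p.Prime] {R : Type u} [CommRing R]
    [IsRegularLocalRing R] [IsAdicComplete (maximalIdeal R) R] [CharP (ResidueField R) p]
    [PerfectRing (ResidueField R) p] {d : ℕ} (hd : ringKrullDim R = d)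
    (hp2 : (p : R) ∈ maximalIdeal R ^ 2) (ι : WittVector p (ResidueField R) →+* R)
    (hι : ∀ w, residue R (ι w) = w.coeff 0) :
    ∃ (Φ : MvPowerSeries (Fin d) (WittVector p (ResidueField R)) →+* R)
      (g : MvPowerSeries (Fin d) (WittVector p (ResidueField R))),
      Surjective Φ ∧ (∀ w, Φ (MvPowerSeries.C w) = ι w) ∧
      (∀ i, Φ (MvPowerSeries.X i) ∈ maximalIdeal R) ∧
      Ideal.span (Set.range fun i => Φ (MvPowerSeries.X i)) = maximalIdeal R ∧
      g ∈ Ideal.span (Set.range
        (MvPowerSeries.X : Fin d → MvPowerSeries (Fin d) (WittVector p (ResidueField R)))) ^ 2 ∧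
      RingHom.ker Φ = Ideal.span {(p : MvPowerSeries (Fin d) (WittVector p (ResidueField R))) - g} := by
  obtain ⟨rs, hrs, hlen⟩ := exists_list_maximalIdeal R
  have hl : rs.length = d := by
    rw [hd] at hlen
    exact_mod_cast hlen
  subst hl
  let x : Fin rs.length → R := fun i => rs.get i
  have hx : Ideal.span (Set.range x) = maximalIdeal R := by
    rw [← hrs, Ideal.ofList]
    congr 1
    ext y
    simp only [x, Set.mem_range, Set.mem_ofPred_eq, List.mem_iff_get]
  -- the quadratic form
  obtain ⟨c, hc⟩ : ∃ c : Fin rs.length → Fin rs.length → R,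
      (p : R) = ∑ i, ∑ j, x i * c i j * x j := by
    rw [← hx, pow_two] at hp2
    have h1 : ∀ y ∈ Ideal.span (Set.range x) * Ideal.span (Set.range x),
        ∃ c : Fin rs.length → Fin rs.length → R, y = ∑ i, ∑ j, x i * c i j * x j := by
      intro y hy
      refine Submodule.mul_induction_on hy ?_ ?_
      · intro a ha b hb
        obtain ⟨α, rfl⟩ := (Ideal.mem_span_range_iff_exists_fun).1 ha
        obtain ⟨β, rfl⟩ := (Ideal.mem_span_range_iff_exists_fun).1 hb
        refine ⟨fun i j => α i * β j, ?_⟩
        rw [Finset.sum_mul_sum]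
        refine Finset.sum_congr rfl fun i _ => Finset.sum_congr rfl fun j _ => ?_
        ring
      · rintro a b ⟨α, rfl⟩ ⟨β, rfl⟩
        refine ⟨fun i j => α i j + β i j, ?_⟩
        simp only [← Finset.sum_add_distrib]
        refine Finset.sum_congr rfl fun i _ => Finset.sum_congr rfl fun j _ => ?_
        ring
    exact h1 _ hp2
  obtain ⟨hreg, hmax, hdim⟩ := witt_dim_one (ResidueField R) p
  obtain ⟨φ, hφ, hC, hX⟩ := exists_evalHom_surjective ι (fun y =>
    ⟨WittVector.teichmuller p y, by
      change residue R (ι (WittVector.teichmuller p y)) = y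
      rw [hι, WittVector.teichmuller_coeff_zero]⟩) x hx
  choose g hg using hφ
  let c' : Fin rs.length → Fin rs.length →
    MvPowerSeries (Fin rs.length) (WittVector p (ResidueField R)) := fun i j => g (c i j)
  have hle : Ideal.span {quadEq (WittVector p (ResidueField R)) (p : WittVector p _) rs.length c'} ≤
      RingHom.ker φ := by
    rw [Ideal.span_singleton_le_iff_mem, RingHom.mem_ker, quadEq, map_sub, hC, map_natCast, hc,
      map_sum, sub_eq_zero]
    refine Finset.sum_congr rfl fun i _ => ?_
    rw [map_sum]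
    refine Finset.sum_congr rfl fun j _ => ?_
    rw [map_mul, map_mul, hX, hX, hg]
  obtain ⟨hR, -, hdR⟩ := quadRing_regular (WittVector p (ResidueField R)) (p : WittVector p _)
    hmax hdim rs.length c'
  have hq : quadEq (WittVector p (ResidueField R)) (p : WittVector p _) rs.length c' =
      (p : MvPowerSeries (Fin rs.length) (WittVector p (ResidueField R))) -
        ∑ i, ∑ j, MvPowerSeries.X i * c' i j * MvPowerSeries.X j := by
    rw [quadEq, map_natCast]
  refine ⟨φ, ∑ i, ∑ j, MvPowerSeries.X i * c' i j * MvPowerSeries.X j,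
    fun y => ⟨g y, hg y⟩, hC, fun i => ?_, ?_, ?_, ?_⟩
  · rw [hX, ← hx]
    exact Ideal.subset_span ⟨i, rfl⟩
  · rw [← hx]
    congr 1
    ext y
    simp only [Set.mem_range, hX]
  · refine Ideal.sum_mem _ fun i _ => Ideal.sum_mem _ fun j _ => ?_
    rw [pow_two, mul_assoc, mul_comm (c' i j)]
    rw [← mul_assoc]
    exact Ideal.mul_mem_right _ _ (Ideal.mul_mem_mul (Ideal.subset_span ⟨i, rfl⟩)
      (Ideal.subset_span ⟨j, rfl⟩))
  · rw [← hq]
    refine le_antisymm ?_ hle
    let ψ : QuadRing (WittVector p (ResidueField R)) (p : WittVector p _) rs.length c' →+* R :=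
      Ideal.Quotient.lift _ φ fun a ha => hle ha
    have hψ : Surjective ψ := fun s => ⟨Ideal.Quotient.mk _ (g s), hg s⟩
    have hinj : RingHom.ker ψ = ⊥ := ker_eq_bot_of_dim_eq ψ hψ (by rw [hd, hdR])
    intro a ha
    rw [← Ideal.Quotient.eq_zero_iff_mem]
    have h1 : Ideal.Quotient.mk _ a ∈ RingHom.ker ψ := by
      rw [RingHom.mem_ker]
      exact ha
    rwa [hinj, Ideal.mem_bot] at h1

end Vale.Agent.P177.Full
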