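import Vale.Agent.P177.Full.Core
import Vale.Agent.P177.Full.BChoice
import Vale.Agent.P177.Full.Pres
import Vale.Agent.P177.Lev.Inst
import Vale.Agent.P177.Regular
import Vale.Agent.P177.Lf.Base0

/-!
P177, inner assembly: the structure `Core` exists.
-/

namespace Vale.Agent.P177.Full

open TensorProduct IsLocalRing RingTheory.Sequence Function Vale.Agent.P202.Mix
  Vale.Agent.P177.Flag Vale.Agent.P177.Lev WittVector
open scoped ENNReal

universe u

/-- a power of `p` is the sum of a nonzero element of `P` and an element of `(hs)`. -/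
theorem exists_alpha_reg {p : ℕ} [Fact p.Prime] {R : Type u} [CommRing R] [IsLocalRing R] {P : Ideal R}
    {hs : List R} (hm : ∀ h ∈ hs, h ∈ maximalIdeal R) (l : List R)
    (hreg : IsWeaklyRegular R (hs ++ ((p : R) :: l)))
    (hp : (p : R) ∈ (P ⊔ Ideal.ofList hs).radical) :
    ∃ (c : ℕ) (α β : R), 1 ≤ c ∧ α ∈ P ∧ β ∈ Ideal.ofList hs ∧ (p : R) ^ c = α + β ∧ α ≠ 0 := by
  obtain ⟨n, hn⟩ := hp
  have hn1 : (p : R) ^ (n + 1) ∈ P ⊔ Ideal.ofList hs := by
    rw [pow_succ]
    exact Ideal.mul_mem_right _ _ hn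
  obtain ⟨α, hα, β, hβ, hab⟩ := Submodule.mem_sup.1 hn1
  refine ⟨n + 1, α, β, Nat.le_add_left 1 n, hα, hβ, hab.symm, ?_⟩
  rintro rfl
  rw [zero_add] at hab
  have hle : Ideal.ofList hs ≤ maximalIdeal R := by
    rw [Ideal.ofList, Ideal.span_le]
    exact hm
  have h1 := (isWeaklyRegular_append_iff R hs ((p : R) :: l)).1 hreg
  have h2 := ((isWeaklyRegular_cons_iff _ _ _).1 h1.2).1
  have h3 : ∀ k : ℕ, (p : R) ^ k ∈ Ideal.ofList hs → (1 : R) ∈ Ideal.ofList hs := by
    intro k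
    induction k with
    | zero => intro h; rwa [pow_zero] at h
    | succ k ih =>
      intro h
      apply ih
      have h4 : (Submodule.Quotient.mk ((p : R) ^ k) : R ⧸ (Ideal.ofList hs • (⊤ : Submodule R R))) = 0 := by
        apply h2
        change (p : R) • (Submodule.Quotient.mk ((p : R) ^ k) :
          R ⧸ (Ideal.ofList hs • (⊤ : Submodule R R))) = (p : R) • 0
        rw [smul_zero, ← Submodule.Quotient.mk_smul, Submodule.Quotient.mk_eq_zero, smul_eq_mul,
          smul_eq_mul, Ideal.mul_top, ← pow_succ']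
        exact h
      rwa [Submodule.Quotient.mk_eq_zero, smul_eq_mul, Ideal.mul_top] at h4
  refine (maximalIdeal.isMaximal R).ne_top ((Ideal.eq_top_iff_one _).2 (hle (h3 (n + 1) ?_)))
  rw [← hab]
  exact hβ

section phi

variable {p : ℕ} [Fact p.Prime] {k : Type u} [Field k] [CharP k p] {r : ℕ}
variable {Λ : Type u} [CommRing Λ] [IsLocalRing Λ] {ψ : Λ →+* WittVector p (Rp p k r)}
variable {Ω : Type u} [Field Ω] [Algebra Λ Ω] {s : ℕ} {b : Fin s → Ω} {F G : Fin s → Polynomial Λ}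
    {D : ℕ} {ε : ℝ≥0∞} {Φ : ℕ → ℕ}

/-- the homomorphisms of the levels glue. -/
theorem Pkg.exists_glue (K : Pkg ψ b F G D ε Φ) {T : Type*} [CommRing T]
    (φe : ∀ e, T →+* WittVector p (K.Ce e)) :
    ∃ φ : T →+* WittVector p K.C, ∀ e x, K.pr e (φ x) = φe e x := by
  choose φ hφ using fun x => K.exists_pr fun e => φe e x
  refine ⟨{
    toFun := φ
    map_one' := K.pr_ext fun e => ?_
    map_mul' := fun x y => K.pr_ext fun e => ?_
    map_zero' := K.pr_ext fun e => ?_
    map_add' := fun x y => K.pr_ext fun e => ?_ }, fun e x => hφ x e⟩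
  · rw [hφ, map_one, map_one]
  · rw [hφ, map_mul, map_mul, hφ, hφ]
  · rw [hφ, map_zero, map_zero]
  · rw [hφ, map_add, map_add, hφ, hφ]

/-- evaluation of power series at the Teichmueller representatives. -/
theorem Pkg.exists_phi (K : Pkg ψ b F G D ε Φ) {d : ℕ} (c : Fin d → K.C)
    (h : ∀ e, ∃ φe : MvPowerSeries (Fin d) Λ →+* WittVector p (K.Ce e),
      ∀ f : MvPolynomial (Fin d) Λ, φe f =
        MvPolynomial.eval₂ (laW ψ (K.Ce e)) (fun l => teichmuller p (c l e)) f) :
    ∃ φ : MvPowerSeries (Fin d) Λ →+* WittVector p K.C, ∀ f : MvPolynomial (Fin d) Λ,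
      φ f = MvPolynomial.eval₂ (laW ψ K.C) (fun l => teichmuller p (c l)) f := by
  choose φe hφe using h
  obtain ⟨φ, hφ⟩ := K.exists_glue φe
  refine ⟨φ, fun f => K.pr_ext fun e => ?_⟩
  rw [hφ, hφe, K.pr_eval₂]

end phi

/-- THE EXISTENCE OF THE DATA, with levels starting at `N0` or later. -/
theorem exists_core (N0 : ℕ) (p : ℕ) [Fact p.Prime] (R : Type u) [CommRing R]
    [IsRegularLocalRing R] [IsAdicComplete (maximalIdeal R) R] [CharP (ResidueField R) p]
    [PerfectRing (ResidueField R) p] (d : ℕ) (hd : ringKrullDim R = d)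
    (hp2 : (p : R) ∈ maximalIdeal R ^ 2) (P : Ideal R) (hs : List R)
    (hrad : maximalIdeal R ≤ (P ⊔ Ideal.ofList hs).radical) (r : ℕ)
    [IsRegularLocalRing (Lam p (ResidueField R) r)] [Algebra (Lam p (ResidueField R) r) R]
    (hN : Norm p R r hs) (Ω : Type u) [Field Ω] [CharZero Ω]
    [Algebra (Lam p (ResidueField R) r) Ω] [FaithfulSMul (Lam p (ResidueField R) r) Ω]
    (F : Fin 2 → FlagMod (Lam p (ResidueField R) r) Ω hs) :
    ∃ X : Core p d P hs r Ω F, N0 ≤ X.K.N := by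
  classical
  have hdom : IsDomain (Lam p (ResidueField R) r) := regular_isDomain _
  have hfin := hN.finite
  have hpm : (p : R) ∈ maximalIdeal R := Ideal.pow_le_self two_ne_zero hp2
  -- the presentation
  obtain ⟨Φ, g, h1, h2, h3, -, h5, h6⟩ := exists_pres p hd hp2
    ((algebraMap (Lam p (ResidueField R) r) R).comp MvPowerSeries.C) hN.residue
  -- `α`, `β`
  obtain ⟨c0, α, β, a1, a2, a3, a4, a5⟩ := exists_alpha_reg (p := p) (P := P) hN.mem _ hN.reg (hrad hpm)
  -- the list
  obtain ⟨m, b, Fp, ix0, pl, b1, b2, b3, -, b5⟩ := exists_list F hN.pow_le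
    (fun l => Φ (MvPowerSeries.X l)) h3
  let ix : (R →ₐ[Lam p (ResidueField R) r] Ω) → Fin d → Fin m := fun σ =>
    if h : ∃ (i : Fin 2) (j : Fin (F i).n), (F i).σ j = σ then ix0 h.choose h.choose_spec.choose
    else fun _ => pl 0 0 Fin.elim0
  have hix : ∀ (i : Fin 2) (j : Fin (F i).n), ∃ (i' : Fin 2) (j' : Fin (F i').n),
      (F i').σ j' = (F i).σ j ∧ ix ((F i).σ j) = ix0 i' j' := by
    intro i j
    have h : ∃ (i' : Fin 2) (j' : Fin (F i').n), (F i').σ j' = (F i).σ j := ⟨i, j, rfl⟩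
    exact ⟨h.choose, h.choose_spec.choose, h.choose_spec.choose_spec, dif_pos h⟩
  -- the base
  obtain ⟨ψ0, red, e1, -, -⟩ := Lf.exists_isBase0 p (ResidueField R) r
    (maximalIdeal_witt p (ResidueField R)) (RingHom.id _)
  let ψ : Lam p (ResidueField R) r →+* WittVector p (Rp p (ResidueField R) r) :=
    (WittVector.map (PerfectClosure.of (R0 (ResidueField R) r) p)).comp ψ0
  change IsBase p (ResidueField R) r (Lam p (ResidueField R) r) (fun i => MvPowerSeries.X i) ψ red
    at e1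
  -- the levels
  obtain ⟨D, G, ε, -, -, -, l4, l5⟩ := exists_level e1 (by
    rw [hN.max, Set.singleton_union]) (FaithfulSMul.algebraMap_injective _ Ω) b Fp
    (fun l => (b1 l).1) (fun l => (b1 l).2)
  obtain ⟨K, hK⟩ := exists_pkg ψ b Fp G D ε (fun j => (j + 2 * c0) * (p ^ j * p ^ j))
    (2 * c0 + 2 + N0) (fun e => l5 _ e)
  -- the homomorphisms
  have hφ : ∀ σ : R →ₐ[Lam p (ResidueField R) r] Ω,
      ∃ φ : MvPowerSeries (Fin d) (Lam p (ResidueField R) r) →+* WittVector p K.C,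
        (∃ (i : Fin 2) (j : Fin (F i).n), (F i).σ j = σ) →
        ∀ f : MvPolynomial (Fin d) (Lam p (ResidueField R) r),
        φ f = MvPolynomial.eval₂ (laW ψ K.C) (fun l => teichmuller p (K.c (ix σ l))) f := by
    intro σ
    by_cases h : ∃ (i : Fin 2) (j : Fin (F i).n), (F i).σ j = σ
    · obtain ⟨φ, hφ⟩ := K.exists_phi (fun l => K.c (ix σ l)) (fun e => by
        obtain ⟨φe, hφe⟩ := Lf.exists_phi ψ0 (K.lv e).ext (fun l => K.c (ix σ l) e) (fun l => by
          obtain ⟨i, j, rfl⟩ := h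
          obtain ⟨i', j', -, hij⟩ := hix i j
          refine ⟨D, (K.lv e).nil _ ?_⟩
          rw [hij]
          exact (b2 i' j' l).2)
        exact ⟨φe, fun f => hφe f⟩)
      exact ⟨φ, fun _ => hφ⟩
    · exact ⟨(laW ψ K.C).comp MvPowerSeries.constantCoeff, fun h' => absurd h' h⟩
  choose φ hφ using hφ
  refine ⟨{
    Φ := Φ
    g := g
    Φ_surj := h1
    Φ_C := h2
    Φ_X := h3
    g_mem := h5
    Φ_ker := h6
    c0 := c0
    α := α
    β := β
    c0_pos := a1
    α_mem := a2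
    β_mem := a3
    α_add := a4
    α_ne := a5
    m := m
    b := b
    Fp := Fp
    ix := ix
    ix_spec := fun i j l => ?_
    ix_nil := fun i j l => ?_
    pl := pl
    pl_spec := fun i j _ t => b3 i j t
    cof := b5
    ψ := ψ
    red := red
    base := e1
    G := G
    D := D
    ε := ε
    gr := _
    ε_ne := l4
    gr_le := fun j => le_rfl
    K := K
    N_le := hK ▸ Nat.le_add_right _ _
    φ := φ
    φ_spec := fun i j f => hφ _ ⟨i, j, rfl⟩ f }, ?_⟩
  · obtain ⟨i', j', h7, h8⟩ := hix i j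
    rw [h8, (b2 i' j' l).1, h7]
  · obtain ⟨i', j', h7, h8⟩ := hix i j
    rw [h8]
    exact (b2 i' j' l).2
  · change N0 ≤ K.N
    rw [hK]
    exact Nat.le_add_left _ _

end Vale.Agent.P177.Full
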