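import Vale.Agent.P177.Full.Core
import Vale.Agent.P177.Full.Adm
import Vale.Agent.P177.Nat.ExNatZ
import Vale.Agent.P177.Nat.AnnE

/-!
P177, inner assembly: the error element `etM M = η * tl (M + 2)`; relations hold with this error
modulo every prescribed power of `p`, the mass does not see it.
-/

namespace Vale.Agent.P177.Full

open Vale.Agent.P202.Mix Vale.Agent.P177.Lev Vale.Agent.P177.SL Vale.Agent.P177.KM
  Vale.Agent.P177.NatC WittVector Polynomial Filter
open scoped ENNReal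

universe u

namespace Pkg

variable {p : ℕ} [hp : Fact p.Prime] {k : Type u} [Field k] [CharP k p] {r : ℕ}
variable {Λ : Type u} [CommRing Λ] [IsLocalRing Λ] {ψ : Λ →+* WittVector p (Rp p k r)}
variable {Ω : Type u} [Field Ω] [Algebra Λ Ω] {s : ℕ} {b : Fin s → Ω} {F G : Fin s → Λ[X]}
    {D : ℕ} {ε : ℝ≥0∞} {Φ : ℕ → ℕ} (K : Pkg ψ b F G D ε Φ)

/-- the error element which is invisible below the level `M + 2` -/
noncomputable def etM (M : ℕ) : K.C := K.η * K.tl (M + 2)

theorem etM_def (M : ℕ) : K.etM M = K.η * K.tl (M + 2) := rfl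

theorem te_etM (M : ℕ) : teichmuller p (K.etM M) =
    teichmuller p K.η * teichmuller p (K.tl (M + 2)) := map_mul _ _ _

theorem tl_mul_tl (N : ℕ) : K.tl N * K.tl N = K.tl N := by
  funext e
  rw [Pi.mul_apply]
  unfold tl
  split_ifs
  · rw [mul_one]
  · rw [mul_zero]

theorem tl_mul_tl_le {N N' : ℕ} (h : N ≤ N') : K.tl N * K.tl N' = K.tl N' := by
  funext e
  rw [Pi.mul_apply]
  unfold tl
  split_ifs with h1 h2 h2
  · rw [mul_one]
  · rw [mul_zero]
  · omega
  · rw [mul_zero]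

/-- `[η · tl]` is invisible. -/
theorem kil_etM (M : ℕ) : Kil K.mass (teichmuller p (K.etM M)) := by
  rw [te_etM]
  exact K.kil_η.mul (K.kil_tl _)

/-- modules killed by a power of `[η · tl]` are invisible. -/
theorem mass_etM_eq_zero (M c : ℕ) (N : Type u) [AddCommGroup N] [Module (WittVector p K.C) N]
    (h : ∀ x : N, teichmuller p (K.etM M) ^ c • x = 0) : K.mass.len N = 0 :=
  (K.kil_etM M).pow c N h

theorem etM_dvd (M : ℕ) : K.η ∣ K.etM M := ⟨_, rfl⟩

/-- `(K.etM M)` is a multiple of `K.etM M'` for `M' ≤ M`. -/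
theorem etM_dvd_etM {M M' : ℕ} (h : M' ≤ M) : K.etM M' ∣ K.etM M :=
  ⟨K.tl (M + 2), by
    rw [etM, etM, mul_assoc, K.tl_mul_tl_le (by omega)]⟩

/-- relations with the error `[η]` hold with the error `[etM]` modulo `p ^ (M + 1)`. -/
theorem te_etM_mul_mem (hΦ : ∀ j, j * (p ^ j * p ^ j) ≤ Φ j) (M : ℕ) {x : WittVector p K.C}
    (hx : ∀ n : ULift.{u} ℕ → ℕ, (∀ e, p ^ K.j e * n e ≤ K.I e + 1) →
      teichmuller p K.η * x ∈ K.xiP n) :
    teichmuller p (K.etM M) * x ∈ xiM p k r K.C (M + 1) := by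
  let n : ULift.{u} ℕ → ℕ := fun e => if M + 2 ≤ e.down then M + 1 else 0
  have hn : ∀ e, p ^ K.j e * n e ≤ K.I e + 1 := by
    intro e
    show p ^ K.j e * (if M + 2 ≤ e.down then M + 1 else 0) ≤ K.I e + 1
    split_ifs with he
    · have h1 := K.le_j e
      have h2 := K.le_I e
      have h3 := hΦ (K.j e)
      have h4 : p ^ K.j e * (M + 1) ≤ K.j e * (p ^ K.j e * p ^ K.j e) := by
        have h5 : M + 1 ≤ K.j e * p ^ K.j e := by
          have h6 : 1 ≤ p ^ K.j e := Nat.one_le_pow _ _ hp.out.pos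
          calc M + 1 ≤ K.j e := by omega
            _ = K.j e * 1 := (mul_one _).symm
            _ ≤ K.j e * p ^ K.j e := Nat.mul_le_mul_left _ h6
        calc p ^ K.j e * (M + 1) ≤ p ^ K.j e * (K.j e * p ^ K.j e) := Nat.mul_le_mul_left _ h5
          _ = K.j e * (p ^ K.j e * p ^ K.j e) := by ring
      omega
    · rw [mul_zero]
      exact Nat.zero_le _
  have h1 := hx n hn
  rw [mem_xiP] at h1
  choose a b hab using fun e => mem_xiM_iff.1 (h1 e)
  obtain ⟨a', ha'⟩ := K.exists_pr fun e => if M + 2 ≤ e.down then a e else 0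
  obtain ⟨b', hb'⟩ := K.exists_pr fun e => if M + 2 ≤ e.down then b e else 0
  refine mem_xiM_iff.2 ⟨a', b', K.pr_ext fun e => ?_⟩
  rw [map_add, map_mul, map_mul, map_mul, map_sub, map_pow, map_natCast, pr_te, pr_te, ha', hb']
  have h2 : K.etM M e = K.η e * K.tl (M + 2) e := rfl
  by_cases he : M + 2 ≤ e.down
  · have h3 : K.tl (M + 2) e = 1 := if_pos he
    have h4 : n e = M + 1 := if_pos he
    rw [if_pos he, if_pos he, h2, h3, mul_one]
    have h5 := hab e
    rw [map_mul, pr_te, h4] at h5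
    exact h5
  · have h3 : K.tl (M + 2) e = 0 := if_neg he
    have h6 : teichmuller p (0 : K.Ce e) = 0 := WittVector.teichmuller_zero (p := p)
    rw [if_neg he, if_neg he, h2, h3, mul_zero, h6, zero_mul, zero_mul, zero_mul, add_zero]

/-- the form of `Nat/Exact.lean` -/
theorem exists_te_etM_mul (hΦ : ∀ j, j * (p ^ j * p ^ j) ≤ Φ j) (M : ℕ) {x : WittVector p K.C}
    (hx : ∀ n : ULift.{u} ℕ → ℕ, (∀ e, p ^ K.j e * n e ≤ K.I e + 1) →
      teichmuller p K.η * x ∈ K.xiP n) :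
    ∃ a b, teichmuller p (K.etM M) * x =
      ((p : WittVector p K.C) - teichmuller p (tC p k r K.C)) * a +
        (p : WittVector p K.C) ^ (M + 1) * b := by
  obtain ⟨a, b, h⟩ := mem_xiM_iff.1 (K.te_etM_mul_mem hΦ M hx)
  exact ⟨a, b, by rw [h]; ring⟩

/-- `(etM M) ^ 3` is not a multiple of `t`. -/
theorem etM_pow_notMem (hε : ε ≠ 0) (M c : ℕ) :
    K.etM M ^ c ∉ Ideal.span {tC p k r K.C} := by
  intro h
  obtain ⟨y, hy⟩ := Ideal.mem_span_singleton'.1 h
  have h1 : K.mass.len (WittVector p K.C ⧸ vW p k r K.C) = 0 := by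
    refine K.mass_etM_eq_zero M c _ fun x => ?_
    obtain ⟨x, rfl⟩ := Ideal.Quotient.mk_surjective x
    have h2 : teichmuller p (K.etM M) ^ c * x ∈ vW p k r K.C := by
      refine Ideal.mul_mem_right _ _ ?_
      rw [← map_pow, ← hy, map_mul]
      refine Ideal.mul_mem_left _ _ (Ideal.subset_span ?_)
      exact Set.mem_insert_of_mem _ ⟨0, rfl⟩
    exact Ideal.Quotient.eq_zero_iff_mem.2 h2
  have h3 := K.le_mass_vW
  rw [h1] at h3
  exact hε (le_antisymm h3 zero_le)

/-- the NAT ring for the error element `etM M`. -/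
theorem exists_natZ (hε : ε ≠ 0) (M : ℕ) :
    Nonempty (CN.NatZ p K.C (tC p k r K.C) (K.etM M)) :=
  CN.exists_natZ p K.t_reg (K.etM_pow_notMem hε M 3)

end Pkg

end Vale.Agent.P177.Full
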