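import Vale.Agent.P177.Nat.AnnE
import Vale.Agent.P177.SL.Base

/-!
P177, hypothesis (H2) of block B7: powers of `p`, `[t]`, `[u_i]` and of the maximal ideal of `S`
act on `W(C')`-modules through `I`, for every ideal `I` of `S` with `E ∈ I` and
`m_R ^ K ≤ I R + (hs)`.
-/

namespace Vale.Agent.P177.Full

open IsLocalRing Function Vale.Agent.P177.NatC WittVector

universe u v

section max

variable {S R : Type u} [CommRing S] [CommRing R] [IsLocalRing S] [IsLocalRing R]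

/-- the maximal ideal of `S` modulo `I + 𝔥`. -/
theorem maxpow_le {Φ : S →+* R} (hΦ : Surjective Φ) {I : Ideal S} (hk : RingHom.ker Φ ≤ I)
    {𝔞 : Ideal R} {K : ℕ} (h : maximalIdeal R ^ K ≤ I.map Φ ⊔ 𝔞) :
    maximalIdeal S ^ K ≤ I ⊔ 𝔞.comap Φ := by
  have hloc : ∀ x ∈ maximalIdeal S, Φ x ∈ maximalIdeal R := by
    intro x hx
    rw [mem_maximalIdeal, mem_nonunits_iff] at hx ⊢
    intro hu
    obtain ⟨y, hy⟩ := hΦ (↑hu.unit⁻¹ : R)
    have h1 : Φ (1 - x * y) = 0 := by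
      rw [map_sub, map_one, map_mul, hy, IsUnit.mul_val_inv, sub_self]
    have h2 : (1 : S) - x * y ∈ maximalIdeal S := by
      rw [mem_maximalIdeal, mem_nonunits_iff]
      intro hu2
      have h3 := hu2.map Φ
      rw [h1] at h3
      exact not_isUnit_zero h3
    have h3 : x * y ∈ maximalIdeal S :=
      Ideal.mul_mem_right _ _ ((mem_maximalIdeal _).2 hx)
    have h4 := add_mem h2 h3
    rw [sub_add_cancel] at h4
    exact (mem_maximalIdeal _).1 h4 isUnit_one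
  have h1 : (maximalIdeal S).map Φ ≤ maximalIdeal R := by
    rw [Ideal.map_le_iff_le_comap]
    intro x hx
    exact hloc x hx
  intro x hx
  have h2 : Φ x ∈ (I ⊔ 𝔞.comap Φ).map Φ := by
    rw [Ideal.map_sup, Ideal.map_comap_of_surjective Φ hΦ]
    apply h
    apply Ideal.pow_right_mono h1 K
    rw [← Ideal.map_pow]
    exact Ideal.mem_map_of_mem Φ hx
  rw [Ideal.mem_map_iff_of_surjective Φ hΦ] at h2
  obtain ⟨y, hy, hxy⟩ := h2
  have h3 : x - y ∈ I := hk (by rw [RingHom.mem_ker, map_sub, hxy, sub_self])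
  have h4 := add_mem ((le_sup_left : I ≤ I ⊔ 𝔞.comap Φ) h3) hy
  rwa [sub_add_cancel] at h4

end max

section nilp

variable {S D W : Type u} [CommRing S] [IsLocalRing S] [CommRing D] [Algebra S D] [CommRing W]

/-- `Nilp` for modules on which `D` acts through `W`. -/
theorem nilp_of {φ : S →+* W} (ι : D →+* W) (hι : Surjective ι)
    (hφ : ∀ s, ι (algebraMap S D s) = φ s) {X : Type u} [AddCommGroup X] [Module D X]
    (hk : ∀ d : D, ι d = 0 → ∀ x : X, d • x = 0) {I : Ideal S} {c : ℕ}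
    (h : ∀ s ∈ maximalIdeal S, φ s ^ c ∈ I.map φ) : SL.Nilp D I X := by
  refine ⟨c, fun s hs => ?_⟩
  have h1 : ι (algebraMap S D (s ^ c)) ∈ (I.map (algebraMap S D)).map ι := by
    rw [Ideal.map_map, hφ, map_pow]
    have : ι.comp (algebraMap S D) = φ := RingHom.ext hφ
    rw [this]
    exact h s hs
  rw [Ideal.mem_map_iff_of_surjective ι hι] at h1
  obtain ⟨y, hy, he⟩ := h1
  have h2 : algebraMap S D (s ^ c) - y ∈ Module.annihilator D X := by
    rw [Module.mem_annihilator]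
    intro x
    exact hk _ (by rw [map_sub, he, sub_self]) x
  have h3 := add_mem ((le_sup_left : I.map (algebraMap S D) ≤
    I.map (algebraMap S D) ⊔ Module.annihilator D X) hy)
    ((le_sup_right : Module.annihilator D X ≤
    I.map (algebraMap S D) ⊔ Module.annihilator D X) h2)
  rwa [add_sub_cancel] at h3

end nilp

section h2

variable {p : ℕ} [hp : Fact p.Prime] {S R : Type u} [CommRing S] [CommRing R] [IsLocalRing S]
  [IsLocalRing R] {C : Type v} [CommRing C] [CharP C p] [PerfectRing C p]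

omit [IsLocalRing R] in
/-- **(H2)** over `S`. -/
theorem H2_gen {φ : S →+* WittVector p C} {t : C} {M : ℕ} {E : S}
    {z w : WittVector p C} (hz : IsUnit z)
    (hE : φ E = ((p : WittVector p C) - teichmuller p t) * z + (p : WittVector p C) ^ M * w)
    {𝔥 : Ideal S} (h𝔥 : ∀ s ∈ 𝔥, φ s ∈ XM p t M)
    {I : Ideal S} (hEI : E ∈ I) {K K0 : ℕ} (hKM : K < M) (hpK : (p : S) ^ K ∈ I ⊔ 𝔥)
    (hm : maximalIdeal S ^ K0 ≤ I ⊔ 𝔥) :
    XM p t M ≤ I.map φ ∧ (p : WittVector p C) ^ K ∈ I.map φ ∧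
      teichmuller p t ^ K ∈ I.map φ ∧ (∀ s ∈ maximalIdeal S, φ s ^ K0 ∈ I.map φ) ∧
      ∀ s ∈ maximalIdeal S, ∀ v : WittVector p C, φ s - v ∈ XM p t M → v ^ K0 ∈ I.map φ := by
  obtain ⟨h1, h2⟩ := p_pow_mem_map p φ hKM hz hEI hE h𝔥 hpK
  refine ⟨h2, h1, te_pow_mem_map p φ h2 h1, fun s hs => ?_, fun s hs v hv => ?_⟩
  · exact pow_mem_map_of_sub_mem p φ h2 h𝔥 (hm (Ideal.pow_mem_pow hs K0))
      (by rw [sub_self]; exact zero_mem _)
  · exact pow_mem_map_of_sub_mem p φ h2 h𝔥 (hm (Ideal.pow_mem_pow hs K0)) hv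

/-- **(H2)**: `φ : S → W(C')`, `Φ : S → R` surjective with kernel `(E)`. -/
theorem H2 {Φ : S →+* R} (hΦ : Surjective Φ) {E : S} (hker : RingHom.ker Φ = Ideal.span {E})
    (hpS : (p : S) ∈ maximalIdeal S) {φ : S →+* WittVector p C} {t : C} {M : ℕ}
    {z w : WittVector p C} (hz : IsUnit z)
    (hE : φ E = ((p : WittVector p C) - teichmuller p t) * z + (p : WittVector p C) ^ M * w)
    {𝔞 : Ideal R} (h𝔞 : ∀ s, Φ s ∈ 𝔞 → φ s ∈ XM p t M)
    {I : Ideal S} (hEI : E ∈ I) {K : ℕ} (hKM : K < M)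
    (hI : maximalIdeal R ^ K ≤ I.map Φ ⊔ 𝔞) :
    XM p t M ≤ I.map φ ∧ (p : WittVector p C) ^ K ∈ I.map φ ∧
      teichmuller p t ^ K ∈ I.map φ ∧ (∀ s ∈ maximalIdeal S, φ s ^ K ∈ I.map φ) ∧
      ∀ s ∈ maximalIdeal S, ∀ v : WittVector p C, φ s - v ∈ XM p t M → v ^ K ∈ I.map φ := by
  have hk : RingHom.ker Φ ≤ I := by
    rw [hker, Ideal.span_singleton_le_iff_mem]
    exact hEI
  have hm := maxpow_le hΦ hk hI
  exact H2_gen hz hE (𝔥 := 𝔞.comap Φ) (fun x hx => h𝔞 x hx) hEI hKM (hm (Ideal.pow_mem_pow hpS K)) hm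

end h2

end Vale.Agent.P177.Full
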