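import Vale.Agent.P177.Full.Core
import Vale.Agent.P177.PI.KosW
import Vale.Agent.P177.Lf.Base0

/-!
P177, block L6: the Teichmueller representatives `c_l` of the values of the characters generate a
perfect ideal inside the Jacobson radical of `C`; values of power series without constant term.
-/

namespace Vale.Agent.P177.Full

open TensorProduct IsLocalRing RingTheory.Sequence Function Vale.Agent.P202.Mix
  Vale.Agent.P177.Flag Vale.Agent.P177.PI Vale.Agent.P177.Lev WittVector
open scoped ENNReal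

universe u

theorem mem_jacobson_pi {ι : Type*} {A : ι → Type*} [∀ e, CommRing (A e)] {x : ∀ e, A e}
    (h : ∀ e, x e ∈ (⊥ : Ideal (A e)).jacobson) : x ∈ (⊥ : Ideal (∀ e, A e)).jacobson := by
  rw [Ideal.mem_jacobson_bot]
  intro y
  rw [Pi.isUnit_iff]
  intro e
  exact (Ideal.mem_jacobson_bot.1 (h e)) (y e)

section

variable {p : ℕ} [Fact p.Prime] {R : Type u} [CommRing R] [IsRegularLocalRing R]
    [CharP (ResidueField R) p] [PerfectRing (ResidueField R) p] {d : ℕ} {P : Ideal R}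
    {hs : List R} {r : ℕ} [IsRegularLocalRing (Lam p (ResidueField R) r)]
    [Algebra (Lam p (ResidueField R) r) R] {Ω : Type u} [Field Ω]
    [Algebra (Lam p (ResidueField R) r) Ω] {F : Fin 2 → FlagMod (Lam p (ResidueField R) r) Ω hs}
    (X : Core p d P hs r Ω F)

/-- `t, u_i` are in the Jacobson radical of the product `C`. -/
theorem Core.xC_mem_jacobson (l : Fin (r + 1)) :
    xC p (ResidueField R) r X.K.C l ∈ (⊥ : Ideal X.K.C).jacobson :=
  mem_jacobson_pi fun e => Lf.xC_mem_jacobson (X.K.lv e).ext l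

/-- `c_l ^ D ∈ (t, u)` for the values of the characters. -/
theorem Core.c_pow_mem (i : Fin 2) (j : Fin (F i).n) (l : Fin d) :
    X.K.c (X.ix ((F i).σ j) l) ^ X.D ∈
      Ideal.span (Set.range (xC p (ResidueField R) r X.K.C)) :=
  X.K.nil _ (X.ix_nil i j l)

/-- the perfect ideal generated by the `c_l` -/
noncomputable def Core.Jc (i : Fin 2) (j : Fin (F i).n) : Ideal X.K.C :=
  Perf.perfHull p (Ideal.span (Set.range fun l => X.K.c (X.ix ((F i).σ j) l)))

theorem Core.isPerf_Jc (i : Fin 2) (j : Fin (F i).n) : IsPerf p (X.Jc i j) :=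
  isPerf_perfHull p _

theorem Core.c_mem_Jc (i : Fin 2) (j : Fin (F i).n) (l : Fin d) :
    X.K.c (X.ix ((F i).σ j) l) ∈ X.Jc i j :=
  Perf.le_perfHull (Ideal.subset_span ⟨l, rfl⟩)

theorem Core.Jc_le_radical (i : Fin 2) (j : Fin (F i).n) :
    X.Jc i j ≤ (Ideal.span (Set.range (xC p (ResidueField R) r X.K.C))).radical := by
  refine (Lf.perfHull_le_radical _).trans ?_
  rw [← Ideal.radical_idem (Ideal.span (Set.range (xC p (ResidueField R) r X.K.C)))]
  apply Ideal.radical_mono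
  rw [Ideal.span_le]
  rintro _ ⟨l, rfl⟩
  exact ⟨X.D, X.c_pow_mem i j l⟩

theorem Core.Jc_le_jacobson (i : Fin 2) (j : Fin (F i).n) :
    X.Jc i j ≤ (⊥ : Ideal X.K.C).jacobson := by
  refine (X.Jc_le_radical i j).trans ?_
  have h2 : (⊥ : Ideal X.K.C).jacobson.radical = (⊥ : Ideal X.K.C).jacobson :=
    Ideal.isRadical_jacobson _ |>.radical
  rw [← h2]
  apply Ideal.radical_mono
  rw [Ideal.span_le]
  rintro _ ⟨l, rfl⟩
  exact X.xC_mem_jacobson l

theorem Core.psi_X (i : Fin 2) (j : Fin (F i).n) (l : Fin d) :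
    (X.φ ((F i).σ j)).comp (MvPowerSeries.map MvPowerSeries.C) (MvPowerSeries.X l) =
      teichmuller p (X.K.c (X.ix ((F i).σ j) l)) := by
  rw [RingHom.comp_apply, MvPowerSeries.map_X, ← MvPolynomial.coe_X, X.φ_spec,
    MvPolynomial.eval₂_X]

/-- values of power series without constant term -/
theorem Core.psi_mem_WI (i : Fin 2) (j : Fin (F i).n) {s : Sx p (ResidueField R) d}
    (hs' : s ∈ Ideal.span (Set.range (MvPowerSeries.X : Fin d → Sx p (ResidueField R) d))) :
    (X.φ ((F i).σ j)).comp (MvPowerSeries.map MvPowerSeries.C) s ∈ WI p (X.Jc i j) :=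
  Lf.phi_mem_WI (fun l => X.K.c (X.ix ((F i).σ j) l)) _ (fun l => X.psi_X i j l) hs'

/-- (L6) -/
theorem Core.exists_L6 (i : Fin 2) (j : Fin (F i).n) :
    ∃ Jc : Ideal X.K.C, IsPerf p Jc ∧ Jc ≤ (⊥ : Ideal X.K.C).jacobson ∧
      (X.φ ((F i).σ j)).comp (MvPowerSeries.map MvPowerSeries.C) X.g ∈ WI p Jc :=
  ⟨X.Jc i j, X.isPerf_Jc i j, X.Jc_le_jacobson i j,
    X.psi_mem_WI i j (Ideal.pow_le_self two_ne_zero X.g_mem)⟩

end

end Vale.Agent.P177.Full
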