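import Vale.Agent.P177.Full.Rels
import Vale.Agent.P177.Full.H2
import Vale.Agent.P177.Nat.Exact
import Vale.Agent.P177.Nat.ExactE
import Vale.Agent.P177.Full.CoreDefs
import Vale.Agent.P177.Full.EtM
import Vale.Agent.P177.Full.L6

/-!
P177: the EXACT relations over `W(C')` for `X : Core` and `f : X.K.C → C'` as in `NatZ`, and the
hypotheses (H2), (H3) of block B7.
-/

namespace Vale.Agent.P177.Full

open TensorProduct IsLocalRing RingTheory.Sequence Function Vale.Agent.P202.Mix
  Vale.Agent.P177.Flag Vale.Agent.P177.PI Vale.Agent.P177.Lev WittVector Vale.Agent.P177.NatC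
open scoped ENNReal

universe u

section

/-- an element of `(p - [t], p ^ M)`, `M ≥ 1`, modulo `p`. -/
theorem coeff_zero_of_mem_XM {p : ℕ} [Fact p.Prime] {C : Type*} [CommRing C] [CharP C p]
    {t : C} {M : ℕ} (hM : 1 ≤ M) {x : WittVector p C} (hx : x ∈ XM p t M) :
    x.coeff 0 ∈ Ideal.span {t} := by
  obtain ⟨a, b, rfl⟩ := (mem_XM p).1 hx
  have h1 : WittVector.constantCoeff (((p : WittVector p C) - teichmuller p t) * a +
      (p : WittVector p C) ^ M * b) = t * (-(a.coeff 0)) := by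
    have h2 : WittVector.constantCoeff (teichmuller p t) = t := teichmuller_coeff_zero p t
    rw [map_add, map_mul, map_mul, map_sub, map_pow, map_natCast, CharP.cast_eq_zero, h2,
      zero_pow (by omega)]
    change (0 - t) * a.coeff 0 + 0 * b.coeff 0 = _
    ring
  have h3 : (((p : WittVector p C) - teichmuller p t) * a + (p : WittVector p C) ^ M * b).coeff 0 =
      t * (-(a.coeff 0)) := h1
  rw [h3]
  exact Ideal.mul_mem_right _ _ (Ideal.mem_span_singleton_self t)

/-- the maximal ideal of `W(k)[[x]]`. -/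
theorem max_sx_le (p : ℕ) [Fact p.Prime] (k : Type u) [Field k] [CharP k p] [PerfectRing k p]
    (d : ℕ) {s : Sx p k d} (hs : ¬ IsUnit s) :
    s ∈ (Ideal.span {(p : WittVector p k)}).map
      (MvPowerSeries.C : WittVector p k →+* Sx p k d) ⊔ Ideal.span (Set.range MvPowerSeries.X) := by
  have h1 : maximalIdeal (WittVector p k) = Ideal.span {(p : WittVector p k)} :=
    (WittVector.irreducible p).maximalIdeal_eq
  have h2 : MvPowerSeries.constantCoeff s ∈ Ideal.span {(p : WittVector p k)} := by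
    rw [← h1, mem_maximalIdeal, mem_nonunits_iff]
    intro hu
    exact hs (MvPowerSeries.isUnit_iff_constantCoeff.2 hu)
  have h3 : s ∈ mG (Ideal.span {(p : WittVector p k)}) 1 := by
    rw [mem_mG]
    intro α
    rcases eq_or_ne α 0 with rfl | hα
    · rw [map_zero, Nat.sub_zero, pow_one]
      exact h2
    · have h4 : 1 - α.degree = 0 := by
        have : α.degree ≠ 0 := by
          rw [Ne, Finsupp.degree_eq_zero_iff]
          exact hα
        omega
      rw [h4, pow_zero, Ideal.one_eq_top]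
      exact Submodule.mem_top (R := WittVector p k) (M := WittVector p k)
  have h4 := mG_le_pow (Ideal.span {(p : WittVector p k)}) 1 h3
  rwa [pow_one] at h4

end

section

variable {p : ℕ} [Fact p.Prime] {R : Type u} [CommRing R] [IsRegularLocalRing R]
    [CharP (ResidueField R) p] [PerfectRing (ResidueField R) p] {d : ℕ} {P : Ideal R}
    {hs : List R} {r : ℕ} [IsRegularLocalRing (Lam p (ResidueField R) r)]
    [Algebra (Lam p (ResidueField R) r) R] {Ω : Type u} [Field Ω]
    [Algebra (Lam p (ResidueField R) r) Ω] {F : Fin 2 → FlagMod (Lam p (ResidueField R) r) Ω hs}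
    (X : Core p d P hs r Ω F)

/-- the precision `M + 1` at the levels `e ≥ M + 2`. -/
def nM (M : ℕ) : ULift.{u} ℕ → ℕ := fun e => if M + 2 ≤ e.down then M + 1 else 0

theorem Core.nM_le (M : ℕ) : ∀ e, p ^ X.K.j e * nM M e ≤ X.K.I e + 1 := by
  refine X.n_le fun e => ?_
  rw [nM]
  split_ifs with h
  · have h1 := X.K.le_j e
    have h2 : 1 ≤ p ^ X.K.j e := Nat.one_le_pow _ _ (Fact.out : p.Prime).pos
    calc M + 1 ≤ (X.K.j e + 2 * X.c0) * 1 := by omega
      _ ≤ _ := Nat.mul_le_mul_left _ h2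
  · exact Nat.zero_le _

/-- `et` is an error element for the precision `M`. -/
def Core.ErrOK (et : X.K.C) (M : ℕ) : Prop :=
  ∀ x : WittVector p X.K.C, teichmuller p X.K.η * x ∈ X.K.xiP (nM M) →
    teichmuller p et * x ∈ xiM p (ResidueField R) r X.K.C (M + 1)

theorem Core.errOK_tl (M : ℕ) : X.ErrOK (X.K.η * X.K.tl (M + 2)) M := by
  intro x hx
  have h1 : teichmuller p (X.K.η * X.K.tl (M + 2)) * x ∈ X.K.xiP (fun _ => M + 1) := by
    rw [Pkg.mem_xiP] at hx ⊢
    intro e
    have h2 : teichmuller p (X.K.η * X.K.tl (M + 2)) * x =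
        teichmuller p (X.K.tl (M + 2)) * (teichmuller p X.K.η * x) := by
      rw [map_mul]; ring
    rw [h2, map_mul, Pkg.pr_te]
    by_cases h : M + 2 ≤ e.down
    · have h3 := hx e
      rw [nM, if_pos h] at h3
      exact Ideal.mul_mem_left _ _ h3
    · have h3 : X.K.tl (M + 2) e = 0 := by
        rw [Pkg.tl, if_neg h]
      rw [h3, WittVector.teichmuller_zero, zero_mul]
      exact zero_mem _
  exact X.K.xiP_le_xiM (fun _ => le_rfl) h1

/-- `etM` is an error element. -/
theorem Core.errOK_etM (M : ℕ) : X.ErrOK (X.K.etM M) M := X.errOK_tl M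

variable {C' : Type u} [CommRing C'] [CharP C' p] [PerfectRing C' p] (f : X.K.C →+* C')

/-- relations up to `[η]` over `W(C)` are exact over `W(C')`. -/
theorem Core.ex_of_err (ht : f (tC p (ResidueField R) r X.K.C) ∈ nonZeroDivisors C')
    {et : X.K.C} {M : ℕ} (het : X.ErrOK et M)
    (hdvd : f et ∣ f (tC p (ResidueField R) r X.K.C)) {x : WittVector p X.K.C}
    (hx : teichmuller p X.K.η * x ∈ X.K.xiP (nM M)) :
    WittVector.map f x ∈ XM p (f (tC p (ResidueField R) r X.K.C)) M := by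
  obtain ⟨w, hw⟩ := hdvd
  obtain ⟨a, b, hab⟩ := Pkg.mem_xiM_iff.1 (het x hx)
  obtain ⟨a', b', h⟩ := exact_rel_map p f (κ := 1) (M := M + 1) ht (w := w)
    (by rw [pow_one]; exact hw.symm) ⟨a, b, by rw [hab]; ring⟩ (by omega)
  rw [mem_XM]
  exact ⟨a', b', h⟩

section rel

variable [IsAdicComplete (maximalIdeal R) R] (hN : Norm p R r hs)
  (ht : f (tC p (ResidueField R) r X.K.C) ∈ nonZeroDivisors C')
  {et : X.K.C} {M : ℕ} (het : X.ErrOK et M)
  (hdvd : f et ∣ f (tC p (ResidueField R) r X.K.C)) (i : Fin 2) (j : Fin (F i).n)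

include hN ht het hdvd

/-- **(R0)** -/
theorem Core.ex_rels (s : Sx p (ResidueField R) d)
    (q : MvPolynomial (Fin X.m) (Lam p (ResidueField R) r))
    (hq : MvPolynomial.aeval X.b q = (F i).σ j (X.Φ s)) :
    WittVector.map f (X.psi ((F i).σ j) s) - WittVector.map f (tev p (laW X.ψ X.K.C) X.K.c q) ∈
      XM p (f (tC p (ResidueField R) r X.K.C)) M := by
  rw [← map_sub]
  exact X.ex_of_err f ht het hdvd (X.rels hN i j (X.nM_le M) s q hq)

theorem Core.ex_zero (s : Sx p (ResidueField R) d) (h : (F i).σ j (X.Φ s) = 0) :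
    WittVector.map f (X.psi ((F i).σ j) s) ∈ XM p (f (tC p (ResidueField R) r X.K.C)) M :=
  X.ex_of_err f ht het hdvd (X.rels_zero hN i j (X.nM_le M) s h)

/-- **(R3)** -/
theorem Core.ex_hs (s : Sx p (ResidueField R) d) (h : X.Φ s ∈ Ideal.ofList hs) :
    WittVector.map f (X.psi ((F i).σ j) s) ∈ XM p (f (tC p (ResidueField R) r X.K.C)) M :=
  X.ex_zero f hN ht het hdvd i j s ((F i).σ_eq_zero j h)

theorem Core.ex_const (s : Sx p (ResidueField R) d) (a : Lam p (ResidueField R) r)
    (h : X.Φ s = algebraMap (Lam p (ResidueField R) r) R a) :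
    WittVector.map f (X.psi ((F i).σ j) s) - WittVector.map f (laW X.ψ X.K.C a) ∈
      XM p (f (tC p (ResidueField R) r X.K.C)) M := by
  rw [← map_sub]
  refine X.ex_of_err f ht het hdvd (X.rels_const hN i j (X.nM_le M) s a ?_)
  rw [h, AlgHom.commutes]

/-- **(R5)** -/
theorem Core.ex_X (s : Sx p (ResidueField R) d) (l : Fin r)
    (h : X.Φ s = algebraMap (Lam p (ResidueField R) r) R (MvPowerSeries.X l)) :
    WittVector.map f (X.psi ((F i).σ j) s) - teichmuller p (f (xC p (ResidueField R) r X.K.C l.succ)) ∈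
      XM p (f (tC p (ResidueField R) r X.K.C)) M := by
  have h1 := X.ex_const f hN ht het hdvd i j s _ h
  have h2 : laW X.ψ X.K.C (MvPowerSeries.X l) =
      teichmuller p (xC p (ResidueField R) r X.K.C l.succ) := by
    rw [laW, RingHom.comp_apply, X.base.psi_u l, map_teichmuller]
  rwa [h2, map_teichmuller] at h1

/-- **(R1)** -/
theorem Core.ex_E : ∃ z w, WittVector.map f (X.psi ((F i).σ j) X.E) =
    ((p : WittVector p C') - teichmuller p (f (tC p (ResidueField R) r X.K.C))) * z +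
      (p : WittVector p C') ^ M * w := by
  have h1 : X.Φ X.E = 0 := by
    rw [← RingHom.mem_ker, X.Φ_ker]
    exact Ideal.mem_span_singleton_self _
  exact (mem_XM p).1 (X.ex_zero f hN ht het hdvd i j X.E (by rw [h1, map_zero]))

end rel

/-- the reduction of `ψ_σ (s)` for `s` in the maximal ideal. -/
theorem Core.psi_coeff_zero (i : Fin 2) (j : Fin (F i).n) {s : Sx p (ResidueField R) d}
    (hs : ¬ IsUnit s) : (X.psi ((F i).σ j) s).coeff 0 ∈
      Ideal.span (Set.range fun l => X.K.c (X.ix ((F i).σ j) l)) := by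
  set 𝔞 : Ideal (Sx p (ResidueField R) d) :=
    (Ideal.span (Set.range fun l => X.K.c (X.ix ((F i).σ j) l))).comap
      ((WittVector.constantCoeff : WittVector p X.K.C →+* X.K.C).comp (X.psi ((F i).σ j))) with h𝔞
  have h1 := max_sx_le p (ResidueField R) d hs
  have h2 : (Ideal.span {(p : WittVector p (ResidueField R))}).map
      (MvPowerSeries.C : WittVector p (ResidueField R) →+* Sx p (ResidueField R) d) ⊔
        Ideal.span (Set.range MvPowerSeries.X) ≤ 𝔞 := by
    rw [sup_le_iff, Ideal.map_span, Ideal.span_le, Ideal.span_le]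
    constructor
    · rintro _ ⟨_, rfl, rfl⟩
      rw [map_natCast, h𝔞, SetLike.mem_coe, Ideal.mem_comap, map_natCast, CharP.cast_eq_zero]
      exact zero_mem _
    · rintro _ ⟨l, rfl⟩
      rw [h𝔞, SetLike.mem_coe, Ideal.mem_comap, RingHom.comp_apply, X.psi_X]
      have h3 : WittVector.constantCoeff (teichmuller p (X.K.c (X.ix ((F i).σ j) l))) =
          X.K.c (X.ix ((F i).σ j) l) := teichmuller_coeff_zero p _
      rw [h3]
      exact Ideal.subset_span ⟨l, rfl⟩
  exact h2 h1

/-- **(H3)**, first half -/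
theorem Core.nil_c (i : Fin 2) (j : Fin (F i).n) (l : Fin d) :
    X.K.c (X.ix ((F i).σ j) l) ^ X.D ∈
      Ideal.span (Set.range (xC p (ResidueField R) r X.K.C)) :=
  X.K.nil _ (X.ix_nil i j l)

omit [CharP C' p] [PerfectRing C' p] in
theorem Core.nil_fc (i : Fin 2) (j : Fin (F i).n) (l : Fin d) :
    f (X.K.c (X.ix ((F i).σ j) l)) ^ X.D ∈
      Ideal.span (Set.range fun q => f (xC p (ResidueField R) r X.K.C q)) := by
  have h1 := Ideal.mem_map_of_mem f (X.nil_c i j l)
  rw [map_pow, Ideal.map_span, ← Set.range_comp] at h1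
  exact h1

section unit

variable [IsAdicComplete (maximalIdeal R) R] (hN : Norm p R r hs)
  (ht : f (tC p (ResidueField R) r X.K.C) ∈ nonZeroDivisors C')
  {et : X.K.C} {M : ℕ} (het : X.ErrOK et M)
  (hdvd : f et ∣ f (tC p (ResidueField R) r X.K.C))
  (hjac : f (tC p (ResidueField R) r X.K.C) ∈ Ideal.jacobson (⊥ : Ideal C')) (hM : 2 ≤ M)
  (i : Fin 2) (j : Fin (F i).n)
  {Jc : Ideal X.K.C} (hJc : IsPerf p Jc) (hrad : Jc ≤ Ideal.jacobson ⊥)
  (hg : X.psi ((F i).σ j) X.g ∈ WI p Jc)

include hN ht het hdvd hjac hM hJc hrad hg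

/-- **(R1)** with a unit -/
theorem Core.ex_E_unit : ∃ z w, IsUnit z ∧ WittVector.map f (X.psi ((F i).σ j) X.E) =
    ((p : WittVector p C') - teichmuller p (f (tC p (ResidueField R) r X.K.C))) * z +
      (p : WittVector p C') ^ M * w := by
  obtain ⟨z, w, h⟩ := X.ex_E f hN ht het hdvd i j
  refine ⟨z, w, ?_, h⟩
  refine isUnit_z p f hJc hrad hg hjac hM (w := w) ?_
  rw [← h, Core.E, map_sub, map_sub, map_natCast, map_natCast]

/-- **(H3)** for `t`: `t'` is in the ideal generated by the `c_l`. -/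
theorem Core.ft_mem : f (tC p (ResidueField R) r X.K.C) ∈
    Ideal.span (Set.range fun l => f (X.K.c (X.ix ((F i).σ j) l))) := by
  obtain ⟨z, w, hz, h⟩ := X.ex_E_unit f hN ht het hdvd hjac hM i j hJc hrad hg
  have h0 : (p : WittVector p C') - WittVector.map f (X.psi ((F i).σ j) X.g) =
      ((p : WittVector p C') - teichmuller p (f (tC p (ResidueField R) r X.K.C))) * z +
      (p : WittVector p C') ^ M * w := by
    rw [← h, Core.E, map_sub, map_sub, map_natCast, map_natCast]
  obtain ⟨h1, -⟩ := exists_coeff_z p f hJc hg hM h0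
  have h2 : ¬ IsUnit X.g := by
    intro hu
    have h3 : X.g ∈ Ideal.span (Set.range
        (MvPowerSeries.X : Fin d → Sx p (ResidueField R) d)) := Ideal.pow_le_self two_ne_zero X.g_mem
    have h4 := Ideal.eq_top_of_isUnit_mem _ h3 hu
    have h5 : (1 : Sx p (ResidueField R) d) ∈ RingHom.ker
        (MvPowerSeries.constantCoeff (σ := Fin d) (R := WittVector p (ResidueField R))) := by
      have h6 : Ideal.span (Set.range
          (MvPowerSeries.X : Fin d → Sx p (ResidueField R) d)) ≤ RingHom.ker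
          (MvPowerSeries.constantCoeff (σ := Fin d) (R := WittVector p (ResidueField R))) := by
        rw [Ideal.span_le]
        rintro _ ⟨l, rfl⟩
        exact MvPowerSeries.constantCoeff_X l
      apply h6
      rw [h4]
      exact Submodule.mem_top
    rw [RingHom.mem_ker, map_one] at h5
    exact one_ne_zero h5
  have h3 := Ideal.mem_map_of_mem f (X.psi_coeff_zero i j h2)
  rw [Ideal.map_span, ← Set.range_comp, h1] at h3
  have h4 : IsUnit (z.coeff 0) := hz.map (WittVector.constantCoeff : WittVector p C' →+* C')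
  have h5 := Ideal.mul_mem_right (↑h4.unit⁻¹ : C') _ h3
  rw [mul_assoc, IsUnit.mul_val_inv, mul_one] at h5
  exact h5

/-- **(H3)** for `u_l`. -/
theorem Core.fu_mem (l : Fin r) : f (xC p (ResidueField R) r X.K.C l.succ) ∈
    Ideal.span (Set.range fun l => f (X.K.c (X.ix ((F i).σ j) l))) := by
  obtain ⟨s, hs⟩ := X.Φ_surj (algebraMap (Lam p (ResidueField R) r) R (MvPowerSeries.X l))
  have h1 := X.ex_X f hN ht het hdvd i j s l hs
  have h2 := coeff_zero_of_mem_XM (by omega : 1 ≤ M) h1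
  have h3 : (WittVector.map f (X.psi ((F i).σ j) s) -
      teichmuller p (f (xC p (ResidueField R) r X.K.C l.succ))).coeff 0 =
      f ((X.psi ((F i).σ j) s).coeff 0) - f (xC p (ResidueField R) r X.K.C l.succ) := by
    have h4 : WittVector.constantCoeff (WittVector.map f (X.psi ((F i).σ j) s) -
      teichmuller p (f (xC p (ResidueField R) r X.K.C l.succ))) =
      f ((X.psi ((F i).σ j) s).coeff 0) - f (xC p (ResidueField R) r X.K.C l.succ) := by
      rw [map_sub]
      change (WittVector.map f (X.psi ((F i).σ j) s)).coeff 0 -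
        (teichmuller p (f (xC p (ResidueField R) r X.K.C l.succ))).coeff 0 = _
      rw [WittVector.map_coeff, teichmuller_coeff_zero]
    exact h4
  rw [h3] at h2
  have h5 : ¬ IsUnit s := by
    intro hu
    have h6 := hu.map X.Φ
    rw [hs] at h6
    exact (mem_maximalIdeal _).1 (hN.X_mem l) h6
  have h6 := Ideal.mem_map_of_mem f (X.psi_coeff_zero i j h5)
  rw [Ideal.map_span, ← Set.range_comp] at h6
  have h7 : Ideal.span {f (tC p (ResidueField R) r X.K.C)} ≤
      Ideal.span (Set.range fun l => f (X.K.c (X.ix ((F i).σ j) l))) := by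
    rw [Ideal.span_singleton_le_iff_mem]
    exact X.ft_mem f hN ht het hdvd hjac hM i j hJc hrad hg
  have h8 := sub_mem h6 (h7 h2)
  rwa [sub_sub_cancel] at h8

/-- **(H2)** -/
theorem Core.ex_H2 {I : Ideal (Sx p (ResidueField R) d)} (hEI : X.E ∈ I) {K K0 : ℕ} (hKM : K < M)
    (hpK : (p : Sx p (ResidueField R) d) ^ K ∈ I ⊔ (Ideal.ofList hs).comap X.Φ)
    (hm : maximalIdeal (Sx p (ResidueField R) d) ^ K0 ≤ I ⊔ (Ideal.ofList hs).comap X.Φ) :
    XM p (f (tC p (ResidueField R) r X.K.C)) M ≤ I.map ((WittVector.map f).comp (X.psi ((F i).σ j))) ∧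
      (p : WittVector p C') ^ K ∈ I.map ((WittVector.map f).comp (X.psi ((F i).σ j))) ∧
      teichmuller p (f (tC p (ResidueField R) r X.K.C)) ^ K ∈
        I.map ((WittVector.map f).comp (X.psi ((F i).σ j))) ∧
      (∀ s ∈ maximalIdeal (Sx p (ResidueField R) d),
        (WittVector.map f (X.psi ((F i).σ j) s)) ^ K0 ∈ I.map ((WittVector.map f).comp (X.psi ((F i).σ j)))) ∧
      ∀ l : Fin r, teichmuller p (f (xC p (ResidueField R) r X.K.C l.succ)) ^ K0 ∈
        I.map ((WittVector.map f).comp (X.psi ((F i).σ j))) := by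
  obtain ⟨z, w, hz, h⟩ := X.ex_E_unit f hN ht het hdvd hjac hM i j hJc hrad hg
  obtain ⟨h1, h2, h3, h4, h5⟩ := H2_gen (φ := (WittVector.map f).comp (X.psi ((F i).σ j))) hz h
    (𝔥 := (Ideal.ofList hs).comap X.Φ)
    (fun s hs' => X.ex_hs f hN ht het hdvd i j s (Ideal.mem_comap.1 hs')) hEI hKM hpK hm
  refine ⟨h1, h2, h3, h4, fun l => ?_⟩
  obtain ⟨s, hs'⟩ := X.Φ_surj (algebraMap (Lam p (ResidueField R) r) R (MvPowerSeries.X l))
  refine h5 s ?_ _ (X.ex_X f hN ht het hdvd i j s l hs')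
  rw [mem_maximalIdeal, mem_nonunits_iff]
  intro hu
  have h6 := hu.map X.Φ
  rw [hs'] at h6
  exact (mem_maximalIdeal _).1 (hN.X_mem l) h6

/-- **(H2)** with the maximal ideal of `R` -/
theorem Core.ex_H2' {I : Ideal (Sx p (ResidueField R) d)} (hEI : X.E ∈ I) {K : ℕ} (hKM : K < M)
    (hI : maximalIdeal R ^ K ≤ I.map X.Φ ⊔ Ideal.ofList hs) :
    XM p (f (tC p (ResidueField R) r X.K.C)) M ≤ I.map ((WittVector.map f).comp (X.psi ((F i).σ j))) ∧
      (p : WittVector p C') ^ K ∈ I.map ((WittVector.map f).comp (X.psi ((F i).σ j))) ∧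
      teichmuller p (f (tC p (ResidueField R) r X.K.C)) ^ K ∈
        I.map ((WittVector.map f).comp (X.psi ((F i).σ j))) ∧
      (∀ s ∈ maximalIdeal (Sx p (ResidueField R) d),
        (WittVector.map f (X.psi ((F i).σ j) s)) ^ K ∈ I.map ((WittVector.map f).comp (X.psi ((F i).σ j)))) ∧
      ∀ l : Fin r, teichmuller p (f (xC p (ResidueField R) r X.K.C l.succ)) ^ K ∈
        I.map ((WittVector.map f).comp (X.psi ((F i).σ j))) := by
  have hk : RingHom.ker X.Φ ≤ I := by
    rw [X.Φ_ker, Ideal.span_singleton_le_iff_mem]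
    exact hEI
  have hm := maxpow_le X.Φ_surj hk hI
  have hp : (p : Sx p (ResidueField R) d) ∈ maximalIdeal (Sx p (ResidueField R) d) := by
    rw [mem_maximalIdeal, mem_nonunits_iff]
    intro hu
    have h1 := (hu.map (MvPowerSeries.constantCoeff (σ := Fin d)
      (R := WittVector p (ResidueField R)))).map
        (WittVector.constantCoeff : WittVector p (ResidueField R) →+* ResidueField R)
    rw [map_natCast, map_natCast, CharP.cast_eq_zero] at h1
    exact not_isUnit_zero h1
  exact X.ex_H2 f hN ht het hdvd hjac hM i j hJc hrad hg hEI hKM (hm (Ideal.pow_mem_pow hp K)) hm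

end unit

section final

variable [IsAdicComplete (maximalIdeal R) R] (hN : Norm p R r hs) {M : ℕ} (hM : 2 ≤ M)
  (Z : CN.NatZ p X.K.C (tC p (ResidueField R) r X.K.C) (X.K.etM M))
  (i : Fin 2) (j : Fin (F i).n)

include hN

/-- the relations for `Z`: (R3) -/
theorem Core.z_hs (s : Sx p (ResidueField R) d) (h : X.Φ s ∈ Ideal.ofList hs) :
    WittVector.map Z.f (X.psi ((F i).σ j) s) ∈
      XM p (Z.f (tC p (ResidueField R) r X.K.C)) M :=
  X.ex_hs Z.f hN Z.reg (X.errOK_etM M) Z.dvd i j s h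

/-- (R0) -/
theorem Core.z_rels (s : Sx p (ResidueField R) d)
    (q : MvPolynomial (Fin X.m) (Lam p (ResidueField R) r))
    (hq : MvPolynomial.aeval X.b q = (F i).σ j (X.Φ s)) :
    WittVector.map Z.f (X.psi ((F i).σ j) s) -
      WittVector.map Z.f (tev p (laW X.ψ X.K.C) X.K.c q) ∈
      XM p (Z.f (tC p (ResidueField R) r X.K.C)) M :=
  X.ex_rels Z.f hN Z.reg (X.errOK_etM M) Z.dvd i j s q hq

include hM

/-- (R1) -/
theorem Core.z_E : ∃ z w, IsUnit z ∧ WittVector.map Z.f (X.psi ((F i).σ j) X.E) =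
    ((p : WittVector p Z.C') - teichmuller p (Z.f (tC p (ResidueField R) r X.K.C))) * z +
      (p : WittVector p Z.C') ^ M * w :=
  X.ex_E_unit Z.f hN Z.reg (X.errOK_etM M) Z.dvd Z.jac hM i j (X.isPerf_Jc i j)
    (X.Jc_le_jacobson i j) (X.psi_mem_WI i j (Ideal.pow_le_self two_ne_zero X.g_mem))

/-- (H3) for `t` and `u_l` -/
theorem Core.z_mem (l : Fin (r + 1)) : Z.f (xC p (ResidueField R) r X.K.C l) ∈
    Ideal.span (Set.range fun l => Z.f (X.K.c (X.ix ((F i).σ j) l))) := by
  refine Fin.cases ?_ (fun l => ?_) l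
  · exact X.ft_mem Z.f hN Z.reg (X.errOK_etM M) Z.dvd Z.jac hM i j (X.isPerf_Jc i j)
      (X.Jc_le_jacobson i j) (X.psi_mem_WI i j (Ideal.pow_le_self two_ne_zero X.g_mem))
  · exact X.fu_mem Z.f hN Z.reg (X.errOK_etM M) Z.dvd Z.jac hM i j (X.isPerf_Jc i j)
      (X.Jc_le_jacobson i j) (X.psi_mem_WI i j (Ideal.pow_le_self two_ne_zero X.g_mem)) l

/-- (H2) -/
theorem Core.z_H2 {I : Ideal (Sx p (ResidueField R) d)} (hEI : X.E ∈ I) {K : ℕ} (hKM : K < M)
    (hI : maximalIdeal R ^ K ≤ I.map X.Φ ⊔ Ideal.ofList hs) :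
    XM p (Z.f (tC p (ResidueField R) r X.K.C)) M ≤
      I.map ((WittVector.map Z.f).comp (X.psi ((F i).σ j))) ∧
      (p : WittVector p Z.C') ^ K ∈ I.map ((WittVector.map Z.f).comp (X.psi ((F i).σ j))) ∧
      (∀ s ∈ maximalIdeal (Sx p (ResidueField R) d),
        (WittVector.map Z.f (X.psi ((F i).σ j) s)) ^ K ∈
          I.map ((WittVector.map Z.f).comp (X.psi ((F i).σ j)))) ∧
      ∀ l : Fin (r + 1), teichmuller p (Z.f (xC p (ResidueField R) r X.K.C l)) ^ K ∈
        I.map ((WittVector.map Z.f).comp (X.psi ((F i).σ j))) := by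
  obtain ⟨h1, h2, h3, h4, h5⟩ := X.ex_H2' Z.f hN Z.reg (X.errOK_etM M) Z.dvd Z.jac hM i j
    (X.isPerf_Jc i j) (X.Jc_le_jacobson i j)
    (X.psi_mem_WI i j (Ideal.pow_le_self two_ne_zero X.g_mem)) hEI hKM hI
  refine ⟨h1, h2, h4, fun l => ?_⟩
  refine Fin.cases ?_ (fun l => ?_) l
  · exact h3
  · exact h5 l

end final

end

end Vale.Agent.P177.Full
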