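import Vale.Agent.P177.KM.FinTor
import Vale.Agent.P177.Perf.KTor
import Vale.Agent.P177.Nat.MassN
import Vale.Agent.P177.RegularTor

/-!
P177, assembly: finiteness of the masses of `Tor_i(H, R / P)` for an honest module `H`.
-/

namespace Vale.Agent.P177.Full

open TensorProduct IsLocalRing RingTheory.Sequence Function Vale.Agent.P202.Mix
  Vale.Agent.P177.KM Vale.Agent.P177.KG Vale.Agent.P177.Mass
open scoped ENNReal

universe u

variable {R D : Type u} [CommRing R] [CommRing D] [Algebra R D]

/-- finite Koszul masses give finite masses of `Tor(H, R / m)`. -/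
theorem fin_residue [IsRegularLocalRing R] [Module.Flat R D] (L : AddLen D) (H : Type u)
    [AddCommGroup H] [Module D H] {n : ℕ} (y z : Fin n → D)
    (hyz : ∀ l (x : H), y l • x = z l • x)
    (hz : ∀ l, z l ∈ (maximalIdeal R).map (algebraMap R D))
    (hf : ∀ q, (ALen.of L).len ((KC (R := D) H (List.ofFn y)).H q) < ⊤) (i : ℕ) :
    L.len (TorM D i H (D ⊗[R] (R ⧸ maximalIdeal R))) < ⊤ := by
  obtain ⟨rs, hrs, hlen⟩ := exists_list_maximalIdeal R
  have hreg := isRegular_of_ofList_eq_maximalIdeal R rs hrs hlen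
  have h1 : ∀ q, (ALen.of L).len ((KC (R := D) H (List.ofFn z)).H q) < ⊤ := by
    intro q
    have h2 := MN.KC_len_ops (C := D) (C' := D) (V := H) (ALen.of L) y z hyz q
    rw [ALen.res_len, ALen.res_len] at h2
    rw [← h2]
    exact hf q
  have h3 := len_tor_flat_lt_top (ALen.of L) hreg.toIsWeaklyRegular H (ys := List.ofFn z) (l := 1)
    (fun x hx => by
      obtain ⟨l, rfl⟩ := List.mem_ofFn.1 hx
      rw [pow_one, ← Ideal.map_ofList, hrs]
      exact hz l) h1 i
  rw [hrs] at h3
  exact h3

/-- **finiteness for honest modules.** -/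
theorem fin_honest [IsRegularLocalRing R] [Module.Flat R D] (L : AddLen D) (P : Ideal R)
    (hs : List R) (hm : maximalIdeal R ≤ (P ⊔ Ideal.ofList hs).radical)
    (H : Type u) [AddCommGroup H] [Module D H] {n : ℕ} (y z : Fin n → D)
    (hyz : ∀ l (x : H), y l • x = z l • x)
    (hz : ∀ l, z l ∈ (maximalIdeal R).map (algebraMap R D))
    (hf : ∀ q, (ALen.of L).len ((KC (R := D) H (List.ofFn y)).H q) < ⊤)
    (πc : D) (hreg : ∀ x : H, πc • x = 0 → x = 0)
    (hh : ∀ h ∈ hs, ∀ x : H, ∃ x' : H, algebraMap R D h • x = πc • x')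
    (α β : R) (hα : α ∈ P) (hαβ : πc = algebraMap R D (α + β))
    (w : D) (hw : IsUnit (1 - w)) (hβ : ∀ x : H, algebraMap R D β • x = (πc * w) • x) (i : ℕ) :
    L.len (TorM D i H (D ⊗[R] (R ⧸ P))) < ⊤ := by
  have hres := fin_residue L H y z hyz hz hf
  -- the quotient `X = H / πc H`
  let f : H →ₗ[D] H := LinearMap.lsmul D H πc
  have hfi : Injective f := by
    rw [injective_iff_map_eq_zero]
    exact hreg
  let X := H ⧸ LinearMap.range f
  let g : H →ₗ[D] X := (LinearMap.range f).mkQ
  have hg : Surjective g := Submodule.mkQ_surjective _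
  have hex : Exact f g := by
    rw [LinearMap.exact_iff, Submodule.ker_mkQ]
  -- `Tor(X, R / m)` is finite
  have hX : TF R L X (R ⧸ maximalIdeal R) := by
    refine TF.of_len_tor_lt_top L X fun i => ?_
    obtain ⟨δ, h1, h2, h3⟩ := exists_torDelta f g hfi hg hex (D ⊗[R] (R ⧸ maximalIdeal R))
    cases i with
    | zero =>
      exact lt_of_le_of_lt (len_surj L _ (torMap_zero_surjective g hg _)) (hres 0)
    | succ i =>
      exact lt_of_le_of_lt (exact_len_le L _ _ (h1 i)) (ENNReal.add_lt_top.2 ⟨hres _, hres _⟩)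
  have hkill : ∀ h ∈ Ideal.ofList hs, ∀ x : X, algebraMap R D h • x = 0 := by
    intro h hh' x
    refine Submodule.span_induction (p := fun h _ => algebraMap R D h • x = 0) ?_ ?_ ?_ ?_ hh'
    · intro h hmem
      obtain ⟨x, rfl⟩ := hg x
      obtain ⟨x', hx'⟩ := hh h hmem x
      rw [← map_smul, hx']
      exact (hex _).2 ⟨x', rfl⟩
    · rw [map_zero, zero_smul]
    · intro a b _ _ ha hb
      rw [map_add, add_smul, ha, hb, add_zero]
    · intro a b _ hb
      rw [smul_eq_mul, map_mul, mul_smul, hb, smul_zero]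
  have hA : ∀ a ∈ P, ∀ x : R ⧸ P, a • x = 0 := by
    intro a ha x
    obtain ⟨x, rfl⟩ := Ideal.Quotient.mk_surjective x
    show Ideal.Quotient.mk _ (a * x) = 0
    rw [Ideal.Quotient.eq_zero_iff_mem]
    exact Ideal.mul_mem_right _ _ ha
  have hXP : TF R L X (R ⧸ P) := TF.of_residue L X P (Ideal.ofList hs) hkill hm hX (R ⧸ P) hA
  have hXP' := TF.len_tor_lt_top L X hXP
  -- `πc` kills `Tor(H, R / P)`
  have hA' : ∀ x : D ⊗[R] (R ⧸ P), algebraMap R D α • x = 0 := by
    intro x
    induction x using TensorProduct.induction_on with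
    | zero => rw [smul_zero]
    | tmul d a =>
      rw [algebraMap_smul, ← TensorProduct.tmul_smul, hA α hα, TensorProduct.tmul_zero]
    | add y z hy hz => rw [smul_add, hy, hz, add_zero]
  have hT : ∀ x : TorM D i H (D ⊗[R] (R ⧸ P)), πc • x = 0 := by
    intro x
    have h1 : algebraMap R D α • x = 0 := tor_smul_eq_zero_right _ hA' i _ x
    have h2 : (algebraMap R D β - πc * w) • x = 0 := by
      refine tor_smul_eq_zero_left _ (fun m => ?_) i _ x
      rw [sub_smul, hβ, sub_self]
    have h3 : (πc * (1 - w)) • x = 0 := by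
      have h4 : πc * (1 - w) = algebraMap R D α + (algebraMap R D β - πc * w) := by
        have h5 := hαβ
        rw [map_add] at h5
        linear_combination h5
      rw [h4, add_smul, h1, h2, add_zero]
    obtain ⟨v, hv⟩ := hw
    rw [← hv, mul_comm, mul_smul] at h3
    have h6 : (↑v⁻¹ : D) • ((v : D) • πc • x) = 0 := by rw [h3, smul_zero]
    rwa [smul_smul, v.inv_mul, one_smul] at h6
  obtain ⟨δ, h1, h2, h3⟩ := exists_torDelta f g hfi hg hex (D ⊗[R] (R ⧸ P))
  have hs' : Surjective (δ i) := by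
    intro x
    refine (h2 i x).1 ?_
    rw [torMap_smul_id i πc f (fun m => rfl)]
    exact hT x
  exact lt_of_le_of_lt (len_surj L (δ i) hs') (hXP' (i + 1))

end Vale.Agent.P177.Full
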