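import Vale.Agent.P177.Full.FinCore
import Vale.Agent.P177.Full.ExCore

/-!
P177, inner assembly: finiteness of the masses of `Tor_i(H_J, R / P)` for the ring `C'` of the
error element `etM M`.
-/

namespace Vale.Agent.P177.Full

open TensorProduct IsLocalRing RingTheory.Sequence Function Module Vale.Agent.P177.Flag
  Vale.Agent.P202.Mix Vale.Agent.P177.Lev WittVector Vale.Agent.P177.CN
open scoped ENNReal

universe u

namespace Core

variable {p : ℕ} [Fact p.Prime] {R : Type u} [CommRing R] [IsRegularLocalRing R]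
    [IsAdicComplete (maximalIdeal R) R]
    [CharP (ResidueField R) p] [PerfectRing (ResidueField R) p] {d : ℕ} {P : Ideal R}
    {hs : List R} {r : ℕ} [IsRegularLocalRing (Lam p (ResidueField R) r)]
    [Algebra (Lam p (ResidueField R) r) R] {Ω : Type u} [Field Ω]
    [Algebra (Lam p (ResidueField R) r) Ω] {F : Fin 2 → FlagMod (Lam p (ResidueField R) r) Ω hs}
    (X : Core p d P hs r Ω F)

theorem fin_z_J (hN : Norm p R r hs)
    (hrad : maximalIdeal R ≤ (P ⊔ Ideal.ofList hs).radical) {M : ℕ} (hM : 2 ≤ M)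
    (hM' : X.c0 + 1 ≤ M)
    (Z : NatZ p X.K.C (tC p (ResidueField R) r X.K.C) (X.K.etM M)) (i : Fin 2)
    (j : Fin (F i).n) (z : Fin (F i).n → ℤ) (l : ℕ) :
    X.LD.len (TorM (R ⊗[ℤ] WittVector p X.K.C) l
      (X.HJ Z.f ((F i).σ j) (X.K.J (F i).n (X.pl i) z))
      ((R ⊗[ℤ] WittVector p X.K.C) ⊗[R] (R ⧸ P))) < ⊤ :=
  X.fin_HJ_J Z ((F i).σ j) hN hrad (X.K.kil_etM M) hM' (X.z_E hN hM Z i j)
    (fun s hs' => X.z_hs hN Z i j s (Ideal.subset_span hs'))
    (fun q s h => X.ex_X Z.f hN Z.reg (X.errOK_etM M) Z.dvd i j s q h) i z l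

theorem fin_z_top (hN : Norm p R r hs)
    (hrad : maximalIdeal R ≤ (P ⊔ Ideal.ofList hs).radical) {M : ℕ} (hM : 2 ≤ M)
    (hM' : X.c0 + 1 ≤ M)
    (Z : NatZ p X.K.C (tC p (ResidueField R) r X.K.C) (X.K.etM M)) (i : Fin 2)
    (j : Fin (F i).n) (l : ℕ) :
    X.LD.len (TorM (R ⊗[ℤ] WittVector p X.K.C) l (X.HJ Z.f ((F i).σ j) ⊤)
      ((R ⊗[ℤ] WittVector p X.K.C) ⊗[R] (R ⧸ P))) < ⊤ :=
  X.fin_HJ_top Z ((F i).σ j) hN hrad (X.K.kil_etM M) hM' (X.z_E hN hM Z i j)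
    (fun s hs' => X.z_hs hN Z i j s (Ideal.subset_span hs'))
    (fun q s h => X.ex_X Z.f hN Z.reg (X.errOK_etM M) Z.dvd i j s q h) l

end Core

end Vale.Agent.P177.Full
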