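import Vale.Agent.P177.Lf.Compat
import Vale.Agent.P177.CPs
import Mathlib.RingTheory.WittVector.Complete

/-!
P177: power series rings over complete noetherian local rings are complete.
-/

namespace Vale.Agent.P177.Full

open IsLocalRing MvPowerSeries

section

variable {A : Type*} [CommRing A] (m : Ideal A) {n : ℕ}

/-- the power series whose coefficients of degree `j` lie in `m ^ (N - j)`. -/
def mG (N : ℕ) : Ideal (MvPowerSeries (Fin n) A) where
  carrier := {f | ∀ α : Fin n →₀ ℕ, coeff α f ∈ m ^ (N - α.degree)}
  add_mem' {f g} hf hg α := by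
    rw [map_add]
    exact add_mem (hf α) (hg α)
  zero_mem' α := by
    rw [map_zero]
    exact zero_mem _
  smul_mem' c f hf α := by
    classical
    rw [smul_eq_mul, coeff_mul]
    refine Ideal.sum_mem _ fun q hq => Ideal.mul_mem_left _ _ ?_
    have h1 : q.2.degree ≤ α.degree := by
      rw [← Finset.HasAntidiagonal.mem_antidiagonal.1 hq, map_add]
      exact Nat.le_add_left _ _
    exact Ideal.pow_le_pow_right (by omega) (hf q.2)

theorem mem_mG {N : ℕ} {f : MvPowerSeries (Fin n) A} :
    f ∈ mG m N ↔ ∀ α : Fin n →₀ ℕ, coeff α f ∈ m ^ (N - α.degree) := Iff.rfl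

theorem pow_le_mG (N : ℕ) :
    (m.map (C : A →+* MvPowerSeries (Fin n) A) ⊔ Ideal.span (Set.range X)) ^ N ≤ mG m N := by
  classical
  induction N with
  | zero =>
    intro f _ α
    simp
  | succ N ih =>
    rw [pow_succ, Ideal.mul_le]
    intro f hf g hg
    have hfG := ih hf
    have key : m.map (C : A →+* MvPowerSeries (Fin n) A) ⊔ Ideal.span (Set.range X) ≤
        Submodule.comap (LinearMap.mulLeft (MvPowerSeries (Fin n) A) f) (mG m (N + 1)) := by
      rw [sup_le_iff, Ideal.map, Ideal.span_le, Ideal.span_le]
      constructor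
      · rintro _ ⟨a, ha, rfl⟩
        change f * C a ∈ mG m (N + 1)
        intro α
        rw [coeff_mul_C]
        rcases Nat.lt_or_ge N α.degree with h | h
        · rw [show N + 1 - α.degree = 0 by omega]
          simp
        · rw [show N + 1 - α.degree = (N - α.degree) + 1 by omega, pow_succ]
          exact Ideal.mul_mem_mul (hfG α) ha
      · rintro _ ⟨l, rfl⟩
        change f * X l ∈ mG m (N + 1)
        intro α
        rw [X, coeff_mul_monomial]
        split_ifs with h
        · rw [mul_one]
          have h1 := hfG (α - Finsupp.single l 1)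
          have h2 : (α - Finsupp.single l 1).degree + 1 = α.degree := by
            conv_rhs => rw [← tsub_add_cancel_of_le h]
            rw [map_add, Finsupp.degree_single]
          rwa [show N + 1 - α.degree = N - (α - Finsupp.single l 1).degree by omega]
        · exact zero_mem _
    exact key hg

theorem mG_le_pow [IsNoetherianRing A] (N : ℕ) :
    mG m N ≤ (m.map (C : A →+* MvPowerSeries (Fin n) A) ⊔ Ideal.span (Set.range X)) ^ N := by
  classical
  set J := m.map (C : A →+* MvPowerSeries (Fin n) A) ⊔ Ideal.span (Set.range X) with hJ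
  have hX : ∀ l, (X l : MvPowerSeries (Fin n) A) ∈ J := fun l =>
    Ideal.mem_sup_right (Ideal.subset_span ⟨l, rfl⟩)
  intro f hf
  obtain ⟨P, q, rfl⟩ := Lf.exists_trunc N f
  refine add_mem ?_ (Ideal.sum_mem _ fun l _ => Ideal.mul_mem_right _ _
    (Ideal.pow_mem_pow (hX l) N))
  have hP : ∀ α : Fin n →₀ ℕ, P.coeff α ∈ m ^ (N - α.degree) := by
    intro α
    rcases Nat.lt_or_ge α.degree N with h | h
    · have h1 := hf α
      rw [map_add, map_sum, MvPolynomial.coeff_coe, Finset.sum_eq_zero, add_zero] at h1
      · exact h1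
      · intro l _
        rw [mul_comm, X_pow_eq, coeff_mul_monomial, if_neg]
        intro hle
        have h2 : N ≤ α l := by
          have := hle l
          simpa using this
        have h3 : α l ≤ α.degree := Finsupp.le_degree l α
        omega
    · rw [show N - α.degree = 0 by omega]
      simp
  have h1 : (P : MvPowerSeries (Fin n) A) =
      ∑ α ∈ P.support, C (P.coeff α) * ∏ l, (X l : MvPowerSeries (Fin n) A) ^ α l := by
    conv_lhs => rw [P.as_sum]
    rw [← MvPolynomial.coeToMvPowerSeries.ringHom_apply, map_sum]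
    refine Finset.sum_congr rfl fun α _ => ?_
    rw [MvPolynomial.monomial_eq, map_mul, MvPolynomial.coeToMvPowerSeries.ringHom_apply,
      MvPolynomial.coe_C, Finsupp.prod_fintype _ _ (by simp), map_prod]
    congr 1
    refine Finset.prod_congr rfl fun l _ => ?_
    rw [map_pow, MvPolynomial.coeToMvPowerSeries.ringHom_apply, MvPolynomial.coe_X]
  rw [h1]
  refine Ideal.sum_mem _ fun α _ => ?_
  have h2 : C (P.coeff α) ∈ J ^ (N - α.degree) := by
    have h3 := Ideal.mem_map_of_mem (C : A →+* MvPowerSeries (Fin n) A) (hP α)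
    rw [Ideal.map_pow] at h3
    exact Ideal.pow_right_mono le_sup_left _ h3
  have h3 : ∏ l, (X l : MvPowerSeries (Fin n) A) ^ α l ∈ J ^ α.degree := by
    rw [Finsupp.degree_eq_sum, ← Finset.prod_pow_eq_pow_sum]
    exact Ideal.prod_mem_prod fun l _ => Ideal.pow_mem_pow (hX l) _
  have h4 := Ideal.mul_mem_mul h2 h3
  rw [← pow_add] at h4
  exact Ideal.pow_le_pow_right (by omega) h4

/-- Power series rings over noetherian complete rings are complete. -/
theorem isAdicComplete_mvPowerSeries [IsNoetherianRing A] [IsAdicComplete m A] :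
    IsAdicComplete (m.map (C : A →+* MvPowerSeries (Fin n) A) ⊔ Ideal.span (Set.range X))
      (MvPowerSeries (Fin n) A) := by
  set J := m.map (C : A →+* MvPowerSeries (Fin n) A) ⊔ Ideal.span (Set.range X) with hJ
  have hH : IsHausdorff J (MvPowerSeries (Fin n) A) := by
    refine ⟨fun f hf => ?_⟩
    ext α
    rw [map_zero]
    refine IsHausdorff.haus (I := m) inferInstance _ fun N => ?_
    have h1 := hf (N + α.degree)
    rw [SModEq.zero, smul_eq_mul, Ideal.mul_top] at h1 ⊢
    have h2 := pow_le_mG m _ h1 α
    rwa [show N + α.degree - α.degree = N by omega] at h2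
  have hP : IsPrecomplete J (MvPowerSeries (Fin n) A) := by
    refine ⟨fun f hf => ?_⟩
    have hf' : ∀ {a b : ℕ}, a ≤ b → f a - f b ∈ mG m a := fun {a b} h => by
      have h1 := hf h
      rw [SModEq.sub_mem, smul_eq_mul, Ideal.mul_top] at h1
      exact pow_le_mG m _ h1
    have hα : ∀ α : Fin n →₀ ℕ, ∃ L : A, ∀ N, coeff α (f (N + α.degree)) - L ∈ m ^ N := by
      intro α
      obtain ⟨L, hL⟩ := IsPrecomplete.prec (I := m) inferInstance
        (f := fun N => coeff α (f (N + α.degree))) (fun {a b} h => by
          rw [SModEq.sub_mem, smul_eq_mul, Ideal.mul_top, ← map_sub]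
          have h2 := hf' (Nat.add_le_add_right h α.degree) α
          rwa [show a + α.degree - α.degree = a by omega] at h2)
      refine ⟨L, fun N => ?_⟩
      have h3 := hL N
      rwa [SModEq.sub_mem, smul_eq_mul, Ideal.mul_top] at h3
    choose L hL using hα
    let g : MvPowerSeries (Fin n) A := fun α => L α
    refine ⟨g, fun N => ?_⟩
    rw [SModEq.sub_mem, smul_eq_mul, Ideal.mul_top]
    refine mG_le_pow m N fun α => ?_
    rw [map_sub]
    change coeff α (f N) - L α ∈ _
    rcases Nat.lt_or_ge α.degree N with h | h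
    · have h1 := hL α (N - α.degree)
      rwa [show N - α.degree + α.degree = N by omega] at h1
    · rw [show N - α.degree = 0 by omega]
      simp
  exact { hH, hP with }

end

/-- `W(k)[[u]]` is complete. -/
theorem isAdicComplete_lam (p : ℕ) [Fact p.Prime] (k : Type*) [Field k] [CharP k p]
    [PerfectRing k p] (r : ℕ) :
    IsAdicComplete (maximalIdeal (MvPowerSeries (Fin r) (WittVector p k)))
      (MvPowerSeries (Fin r) (WittVector p k)) := by
  have h1 : maximalIdeal (WittVector p k) = Ideal.span {(p : WittVector p k)} :=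
    (WittVector.irreducible p).maximalIdeal_eq
  have h2 : IsAdicComplete (maximalIdeal (WittVector p k)) (WittVector p k) := by
    rw [h1]
    infer_instance
  rw [mvPowerSeries_maximalIdeal_gen]
  exact isAdicComplete_mvPowerSeries (maximalIdeal (WittVector p k))

end Vale.Agent.P177.Full
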