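import Vale.Agent.P177.Full.Core
import Vale.Agent.P177.Full.LamC

/-!
P177, block RELS: the homomorphisms `φ_σ : Λ[[x]] → W(C)` are compatible with the evaluation of
polynomials at the Teichmueller representatives, up to `[η]`.
-/

namespace Vale.Agent.P177.Full

open TensorProduct IsLocalRing RingTheory.Sequence Function Vale.Agent.P202.Mix
  Vale.Agent.P177.Flag Vale.Agent.P177.PI Vale.Agent.P177.Lev WittVector
open scoped ENNReal

universe u

section

variable {p : ℕ} [Fact p.Prime] {R : Type u} [CommRing R] [IsRegularLocalRing R]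
    [CharP (ResidueField R) p] [PerfectRing (ResidueField R) p] {d : ℕ} {P : Ideal R}
    {hs : List R} {r : ℕ} [IsRegularLocalRing (Lam p (ResidueField R) r)]
    [Algebra (Lam p (ResidueField R) r) R] {Ω : Type u} [Field Ω]
    [Algebra (Lam p (ResidueField R) r) Ω] {F : Fin 2 → FlagMod (Lam p (ResidueField R) r) Ω hs}
    (X : Core p d P hs r Ω F)

omit [CharP (ResidueField R) p] [PerfectRing (ResidueField R) p]
  [IsRegularLocalRing (Lam p (ResidueField R) r)] in
/-- the characters of a flag kill `hs`. -/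
theorem FlagMod.σ_eq_zero (F : FlagMod (Lam p (ResidueField R) r) Ω hs) (j : Fin F.n) {x : R}
    (hx : x ∈ Ideal.ofList hs) : F.σ j x = 0 := by
  have h1 : Ideal.ofList hs ≤ RingHom.ker (F.σ j) := by
    rw [Ideal.ofList, Ideal.span_le]
    intro s hs'
    exact F.flag.eq_zero_of_smul j (F.kill s hs')
  exact h1 hx

/-- polynomial relations between the values of a character. -/
theorem Core.rel_poly (i : Fin 2) (j : Fin (F i).n) {n : ULift.{u} ℕ → ℕ}
    (hn : ∀ e, p ^ X.K.j e * n e ≤ X.K.I e + 1)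
    (f : MvPolynomial (Fin d) (Lam p (ResidueField R) r)) (g : MvPolynomial (Fin X.m) (Lam p (ResidueField R) r))
    (h : MvPolynomial.aeval X.b g =
      (F i).σ j (MvPolynomial.aeval (fun l => X.Φ (MvPowerSeries.X l)) f)) :
    teichmuller p X.K.η * (X.φ ((F i).σ j) f - tev p (laW X.ψ X.K.C) X.K.c g) ∈ X.K.xiP n := by
  have h1 : X.φ ((F i).σ j) f = tev p (laW X.ψ X.K.C) X.K.c
      (MvPolynomial.rename (X.ix ((F i).σ j)) f) := by
    rw [X.φ_spec, tev, MvPolynomial.coe_eval₂Hom, MvPolynomial.eval₂_rename]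
    rfl
  have h2 : MvPolynomial.aeval X.b (MvPolynomial.rename (X.ix ((F i).σ j)) f - g) = 0 := by
    rw [map_sub, h, MvPolynomial.aeval_rename, sub_eq_zero,
      MvPolynomial.comp_aeval_apply]
    congr 2
    funext l
    exact X.ix_spec i j l
  have h3 := X.K.η_rel hn _ h2
  rw [h1, ← map_sub]
  exact h3

variable [IsAdicComplete (maximalIdeal R) R]

/-- **RELS** -/
theorem Core.rels (hN : Norm p R r hs) (i : Fin 2) (j : Fin (F i).n) {n : ULift.{u} ℕ → ℕ}
    (hn : ∀ e, p ^ X.K.j e * n e ≤ X.K.I e + 1) (s : Sx p (ResidueField R) d)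
    (f : MvPolynomial (Fin X.m) (Lam p (ResidueField R) r))
    (hf : MvPolynomial.aeval X.b f = (F i).σ j (X.Φ s)) :
    teichmuller p X.K.η * (X.φ ((F i).σ j) (MvPowerSeries.map MvPowerSeries.C s) -
      tev p (laW X.ψ X.K.C) X.K.c f) ∈ X.K.xiP n := by
  have c1 : IsAdicComplete (maximalIdeal (Lam p (ResidueField R) r)) (Lam p (ResidueField R) r) :=
    isAdicComplete_lam p (ResidueField R) r
  have c2 : Module.Finite (Lam p (ResidueField R) r) (R ⧸ Ideal.ofList hs) := hN.finite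
  obtain ⟨g, hg⟩ := Lf.exists_poly_of_surjective (maximalIdeal (Lam p (ResidueField R) r))
    (maximalIdeal R) (MvPowerSeries.C : WittVector p (ResidueField R) →+* Lam p (ResidueField R) r)
    X.Φ (Ideal.ofList hs) X.Φ_C X.Φ_X hN.pow_le s
  have h1 : teichmuller p X.K.η * (X.φ ((F i).σ j) (MvPowerSeries.map MvPowerSeries.C s) -
      X.φ ((F i).σ j) g) ∈ X.K.xiP n := by
    refine Lf.compat_S (maximalIdeal (Lam p (ResidueField R) r))
      (maximalIdeal R) (MvPowerSeries.C : WittVector p (ResidueField R) →+* Lam p (ResidueField R) r)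
      X.Φ (Ideal.ofList hs) X.Φ_C X.Φ_X hN.pow_le (X.φ ((F i).σ j)) (X.K.xiP n)
      (teichmuller p X.K.η) (fun q hq => ?_) s g hg
    have h2 := X.rel_poly i j hn q 0 (by rw [map_zero, (F i).σ_eq_zero j hq])
    rwa [map_zero, sub_zero] at h2
  have h2 : teichmuller p X.K.η * (X.φ ((F i).σ j) g - tev p (laW X.ψ X.K.C) X.K.c f) ∈
      X.K.xiP n := by
    refine X.rel_poly i j hn g f ?_
    rw [hf, ← sub_eq_zero, ← map_sub]
    exact (F i).σ_eq_zero j hg
  have h3 := add_mem h1 h2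
  rwa [← mul_add, sub_add_sub_cancel] at h3

/-- the case of power series with `σ (Φ s) = 0`. -/
theorem Core.rels_zero (hN : Norm p R r hs) (i : Fin 2) (j : Fin (F i).n) {n : ULift.{u} ℕ → ℕ}
    (hn : ∀ e, p ^ X.K.j e * n e ≤ X.K.I e + 1) (s : Sx p (ResidueField R) d)
    (h : (F i).σ j (X.Φ s) = 0) :
    teichmuller p X.K.η * X.φ ((F i).σ j) (MvPowerSeries.map MvPowerSeries.C s) ∈ X.K.xiP n := by
  have h1 := X.rels hN i j hn s 0 (by rw [map_zero, h])
  rwa [map_zero, sub_zero] at h1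

/-- the case of power series with `σ (Φ s) = a`, `a ∈ Λ`. -/
theorem Core.rels_const (hN : Norm p R r hs) (i : Fin 2) (j : Fin (F i).n) {n : ULift.{u} ℕ → ℕ}
    (hn : ∀ e, p ^ X.K.j e * n e ≤ X.K.I e + 1) (s : Sx p (ResidueField R) d)
    (a : Lam p (ResidueField R) r)
    (h : (F i).σ j (X.Φ s) = algebraMap (Lam p (ResidueField R) r) Ω a) :
    teichmuller p X.K.η * (X.φ ((F i).σ j) (MvPowerSeries.map MvPowerSeries.C s) -
      laW X.ψ X.K.C a) ∈ X.K.xiP n := by
  have h1 := X.rels hN i j hn s (MvPolynomial.C a) (by rw [MvPolynomial.aeval_C, h])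
  rwa [tev, MvPolynomial.coe_eval₂Hom, MvPolynomial.eval₂_C] at h1

omit [IsAdicComplete (maximalIdeal R) R] in
/-- the condition on `n` holds for `n e = j e + 2 c0`. -/
theorem Core.n_le {n : ULift.{u} ℕ → ℕ} (h : ∀ e, n e ≤ (X.K.j e + 2 * X.c0) * p ^ X.K.j e) :
    ∀ e, p ^ X.K.j e * n e ≤ X.K.I e + 1 := by
  intro e
  have h1 := X.K.le_I e
  have h2 := X.gr_le (X.K.j e)
  have h3 : p ^ X.K.j e * n e ≤ p ^ X.K.j e * ((X.K.j e + 2 * X.c0) * p ^ X.K.j e) :=
    Nat.mul_le_mul_left _ (h e)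
  have h4 : p ^ X.K.j e * ((X.K.j e + 2 * X.c0) * p ^ X.K.j e) =
      (X.K.j e + 2 * X.c0) * (p ^ X.K.j e * p ^ X.K.j e) := by ring
  omega

end

end Vale.Agent.P177.Full
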