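import Vale.Agent.P177.Full.CoreFlag
import Vale.Agent.P177.Full.CoreDefs
import Vale.Agent.P177.Full.Rels

/-!
P177, inner assembly: the flag formula with the honest modules `HJ` as pieces.
-/

namespace Vale.Agent.P177.Full

open TensorProduct IsLocalRing RingTheory.Sequence Function Vale.Agent.P202.Mix
  Vale.Agent.P177.Flag Vale.Agent.P177.PI Vale.Agent.P177.Lev Vale.Agent.P177.Ap
  Vale.Agent.P177.TH WittVector
open scoped ENNReal

universe u

namespace Core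

variable {p : ℕ} [Fact p.Prime] {R : Type u} [CommRing R] [IsRegularLocalRing R]
    [CharP (ResidueField R) p] [PerfectRing (ResidueField R) p] {d : ℕ} {P : Ideal R}
    {hs : List R} {r : ℕ} [IsRegularLocalRing (Lam p (ResidueField R) r)]
    [Algebra (Lam p (ResidueField R) r) R] {Ω : Type u} [Field Ω]
    [Algebra (Lam p (ResidueField R) r) Ω] {F : Fin 2 → FlagMod (Lam p (ResidueField R) r) Ω hs}
    (X : Core p d P hs r Ω F)

/-- the degree of the `j`-th piece. -/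
abbrev sd (n j : ℕ) : Fin n → ℤ := sb n + dg n j - dg n (j + 1)

/-- the ideal of the `j`-th piece. -/
noncomputable abbrev Jd (i : Fin 2) (j : ℕ) : Ideal X.K.C := X.K.J (F i).n (X.pl i) (sd (F i).n j)

variable {C' : Type u} [CommRing C'] [CharP C' p] [PerfectRing C' p] (f : X.K.C →+* C')

/-- The `j`-th piece of the flag `i` is the truncation of the honest module of `σ`, up to
`[e0] ^ k`. -/
def PieceStmt (i : Fin 2) (j : ℕ) (σ : R →ₐ[Lam p (ResidueField R) r] Ω) (e0 : X.K.C) (k : ℕ) :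
    Prop :=
  (∀ h : X.HJ f σ (X.Jd i j), (X.α ⊗ₜ[ℤ] (1 : WittVector p X.K.C)) • h = 0 → h = 0) ∧
  ∃ π : Gr (X.fm i) (sd (F i).n j) →+ (X.HJ f σ (X.Jd i j) ⧸ X.KJ f σ (X.Jd i j) 1),
    (∀ y, ∃ x, π x = ((1 : R) ⊗ₜ[ℤ] teichmuller p e0) ^ k • y) ∧
    (∀ x, π x = 0 → teichmuller p e0 ^ k • x = 0) ∧
    (∀ (a : WittVector p X.K.C) x, π (a • x) = ((1 : R) ⊗ₜ[ℤ] a) • π x) ∧
    (∀ (s : Sx p (ResidueField R) d) x,
      π (X.psi σ s • x) = ((X.Φ s) ⊗ₜ[ℤ] (1 : WittVector p X.K.C)) • π x)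

/-- the Euler characteristic of the `j`-th piece of the character `σ`. -/
noncomputable abbrev chiHJ (i : Fin 2) (nn : ℕ) (σ : R →ₐ[Lam p (ResidueField R) r] Ω) (j : ℕ) : ℝ :=
  TH.chi X.LD nn (X.HJ f σ (X.Jd i j)) ((R ⊗[ℤ] WittVector p X.K.C) ⊗[R] (R ⧸ P))

omit [CharP C' p] [PerfectRing C' p] in
theorem sum_chiHJ (i : Fin 2) (nn : ℕ) (sg : ℕ → (R →ₐ[Lam p (ResidueField R) r] Ω))
    (hsg : ∀ j (hj : j < (F i).n), sg j = (F i).σ ⟨j, hj⟩) :
    ∑ j ∈ Finset.range (F i).n, X.chiHJ f i nn (sg j) j =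
      ∑ j : Fin (F i).n, X.chiHJ f i nn ((F i).σ j) j := by
  have h1 : ∀ G : (R →ₐ[Lam p (ResidueField R) r] Ω) → ℕ → ℝ,
      ∑ j ∈ Finset.range (F i).n, G (sg j) j = ∑ j : Fin (F i).n, G ((F i).σ j) j := by
    intro G
    rw [Finset.sum_range]
    refine Finset.sum_congr rfl fun j _ => ?_
    rw [hsg j j.2]
  exact h1 (X.chiHJ f i nn)

omit [CharP C' p] [PerfectRing C' p] in
/-- **The flag formula with honest pieces.** -/
theorem chi_flag_H [IsAdicComplete (maximalIdeal R) R] (hNorm : Norm p R r hs) (i : Fin 2)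
    (hn : 0 < (F i).n) (hd : ringKrullDim R = d) (hd1 : 1 ≤ d) (nn : ℕ) (hnn : d ≤ nn)
    (hfin : ∀ l, X.LD.len (TorM (R ⊗[ℤ] WittVector p X.K.C) l
      (TenM X.la (X.YJ (X.Jb i)) (F i).L) ((R ⊗[ℤ] WittVector p X.K.C) ⊗[R] (R ⧸ P))) < ⊤)
    (e0 y0 : X.K.C) (he0 : e0 = X.K.η * y0) (hkil : KM.Kil X.K.mass (teichmuller p e0)) (k : ℕ)
    (hpiece : ∀ j : Fin (F i).n, X.PieceStmt f i j ((F i).σ j) e0 k)
    (hHfin : ∀ j : Fin (F i).n, ∀ l, X.LD.len (TorM (R ⊗[ℤ] WittVector p X.K.C) l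
      (X.HJ f ((F i).σ j) (X.Jd i j)) ((R ⊗[ℤ] WittVector p X.K.C) ⊗[R] (R ⧸ P))) < ⊤) :
    TH.chi X.LD nn (TenM X.la (X.YJ (X.Jb i)) (F i).L)
        ((R ⊗[ℤ] WittVector p X.K.C) ⊗[R] (R ⧸ P)) =
      ∑ j : Fin (F i).n, TH.chi X.LD nn (X.HJ f ((F i).σ j) (X.Jd i j))
        ((R ⊗[ℤ] WittVector p X.K.C) ⊗[R] (R ⧸ P)) := by
  classical
  -- the characters
  obtain ⟨sg, hsg⟩ : ∃ sg : ℕ → (R →ₐ[Lam p (ResidueField R) r] Ω),
      ∀ j (hj : j < (F i).n), sg j = (F i).σ ⟨j, hj⟩ :=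
    ⟨fun j => if hj : j < (F i).n then (F i).σ ⟨j, hj⟩ else (F i).σ ⟨0, hn⟩,
      fun j hj => dif_pos hj⟩
  have hp1 : ∀ j < (F i).n, X.PieceStmt f i j (sg j) e0 k := by
    intro j hj
    rw [hsg j hj]
    exact hpiece ⟨j, hj⟩
  have hp2 : ∀ j, ∃ π : Gr (X.fm i) (sd (F i).n j) →+
      (X.HJ f (sg j) (X.Jd i j) ⧸ X.KJ f (sg j) (X.Jd i j) 1), j < (F i).n →
      (∀ y, ∃ x, π x = ((1 : R) ⊗ₜ[ℤ] teichmuller p e0) ^ k • y) ∧
      (∀ x, π x = 0 → teichmuller p e0 ^ k • x = 0) ∧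
      (∀ (a : WittVector p X.K.C) x, π (a • x) = ((1 : R) ⊗ₜ[ℤ] a) • π x) ∧
      (∀ (s : Sx p (ResidueField R) d) x,
        π (X.psi (sg j) s • x) = ((X.Φ s) ⊗ₜ[ℤ] (1 : WittVector p X.K.C)) • π x) := by
    intro j
    by_cases hj : j < (F i).n
    · obtain ⟨π, hπ⟩ := (hp1 j hj).2
      exact ⟨π, fun _ => hπ⟩
    · exact ⟨0, fun h => absurd h hj⟩
  choose π hπ using hp2
  -- the scalars
  choose sx hsx using X.Φ_surj
  -- the polynomials
  have hpoly : ∀ (x : R) (j : ℕ), ∃ g : MvPolynomial (Fin X.m) (Lam p (ResidueField R) r),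
      j < (F i).n → MvPolynomial.aeval X.b g = sg j x := by
    intro x j
    by_cases hj : j < (F i).n
    · have c1 : IsAdicComplete (maximalIdeal (Lam p (ResidueField R) r))
          (Lam p (ResidueField R) r) := isAdicComplete_lam p (ResidueField R) r
      have c2 : Module.Finite (Lam p (ResidueField R) r) (R ⧸ Ideal.ofList hs) := hNorm.finite
      obtain ⟨g, hg⟩ := Lf.exists_poly_of_surjective (maximalIdeal (Lam p (ResidueField R) r))
        (maximalIdeal R)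
        (MvPowerSeries.C : WittVector p (ResidueField R) →+* Lam p (ResidueField R) r)
        X.Φ (Ideal.ofList hs) X.Φ_C X.Φ_X hNorm.pow_le (sx x)
      refine ⟨MvPolynomial.rename (X.ix ((F i).σ ⟨j, hj⟩)) g, fun _ => ?_⟩
      have h1 := (F i).σ_eq_zero ⟨j, hj⟩ hg
      rw [map_sub, sub_eq_zero, hsx] at h1
      rw [hsg j hj, h1, MvPolynomial.aeval_rename, MvPolynomial.comp_aeval_apply]
      congr 2
      funext l
      exact X.ix_spec i ⟨j, hj⟩ l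
    · exact ⟨0, fun h => absurd h hj⟩
  choose ff hff using hpoly
  have key := X.chi_flag i hn hd hd1 nn hnn hfin e0 y0 he0 hkil (fun x j => X.psi (sg j) (sx x)) ff
    (fun x j hj => by rw [hff x j hj, hsg j hj]) 1 ?_ k
    (fun j => X.HJ f (sg j) (X.Jd i j) ⧸ X.KJ f (sg j) (X.Jd i j) 1) π
    (fun j hj m => (hπ j hj).1 m) (fun j hj x hx => (hπ j hj).2.1 x hx)
    (fun j hj a x => (hπ j hj).2.2.1 a x) (fun j hj x y => ?_)
    (fun j => X.HJ f (sg j) (X.Jd i j)) (fun j hj v hv => (hp1 j hj).1 v hv)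
    (fun j hj l => by rw [hsg j hj]; exact hHfin ⟨j, hj⟩ l)
    (fun j => (X.KJ f (sg j) (X.Jd i j) 1).mkQ) (fun j _ => Submodule.mkQ_surjective _)
    (fun j hj v => ?_)
  · exact key.trans (X.sum_chiHJ f i nn sg hsg)
  · -- relations
    intro x j hj
    have h1 : ∀ e, p ^ X.K.j e * (X.c0 * (1 + 1)) ≤ X.K.I e + 1 := by
      refine X.n_le (n := fun _ => X.c0 * (1 + 1)) fun e => ?_
      have hpos : 0 < p ^ X.K.j e := pow_pos (Fact.out : p.Prime).pos _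
      calc X.c0 * (1 + 1) = (2 * X.c0) * 1 := by ring
        _ ≤ (X.K.j e + 2 * X.c0) * p ^ X.K.j e :=
          Nat.mul_le_mul (Nat.le_add_left _ _) hpos
    have h2 := X.rels hNorm i ⟨j, hj⟩ (n := fun _ => X.c0 * (1 + 1)) h1 (sx x) (ff x j) (by
      rw [hff x j hj, hsg j hj, hsx])
    have h3 := X.K.xiP_le_xiM (n := fun _ => X.c0 * (1 + 1)) (fun _ => le_rfl) h2
    rw [pow_one, Pkg.XI_eq_xiM, hsg j hj]
    exact h3
  · have h := (hπ j hj).2.2.2 (sx x) y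
    rw [hsx] at h
    exact h
  · rw [Submodule.mkQ_apply, Submodule.Quotient.mk_eq_zero]
    constructor
    · rintro ⟨w, hw⟩
      exact ⟨w, hw.symm⟩
    · rintro ⟨w, hw⟩
      exact ⟨w, hw.symm⟩

end Core

end Vale.Agent.P177.Full
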