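import Vale.Agent.P177.Ap.FlagX
import Vale.Agent.P177.TH.Theta

/-!
P177, inner assembly, part A: the Euler characteristic of the honest module `L ⊗ J^#` is the sum
of the Euler characteristics of the honest modules `H j` of the eigencharacters.
-/

namespace Vale.Agent.P177.Full

open TensorProduct Vale.Agent.P202.Mix Vale.Agent.P177.Flag Vale.Agent.P177.PI
  Vale.Agent.P177.Ap Vale.Agent.P177.TH
open scoped ENNReal

universe u v w

variable {R Λ L Y : Type u} [CommRing R] [CommRing Λ] [Algebra Λ R] [AddCommGroup L]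
  [Module R L] [Module Λ L] [IsScalarTower Λ R L] [AddCommGroup Y] [Module Λ Y] {n : ℕ}
  (b : Module.Basis (Fin n) Λ L)
  {W : Type w} [CommRing W] {G : Type v} [AddCommGroup G]
  {F : RFam W G} {τ : ∀ j : ℕ, (Fin j → Fin n) → W} {dg : ℕ → G} {good : G → Prop} {η : W}
  {D B : Type u} [CommRing D] [CommRing B] [Algebra D B] {α : D} {LD : AddLen D}

/-- The flag formula for honest modules: `VL = L ⊗ J^#`, `H j` the honest module of the `j`-th
eigencharacter. -/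
theorem chi_flag (k : ℕ) (iR : R →+* D) (iW : W →+* D) (ψ : Λ →+* W)
    (hgen : ∀ y : D, y ∈ AddSubgroup.closure {z : D | ∃ (r : R) (a : W), z = iW a * iR r})
    -- TH
    (HB : IsHypersurface D B α) (hη : EtaNull LD (iW η)) {m : ℕ} (hm : 1 ≤ m)
    (A : Type u) [AddCommGroup A] [Module D A] [Module B A] [IsScalarTower D B A]
    (hA : ∀ i, FPn B i A) (nn s' : ℕ) (hs' : s' + 1 ≤ nn) (hVn : Vn D B s' A)
    -- flag data
    (h : FDataE F τ dg good η) (hn : 0 < n) {s : G}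
    (hs : good s) (hs1 : ∀ j < n, good (s + dg j - dg (j + 1)))
    (hs2 : ∀ j < n, good (s - dg (j + 1)))
    (hcol : ∀ j < n, ColN F τ dg (j + 1) (s + dg j))
    (hsko : ∀ j < n, SkoN F τ dg j (s + dg j - dg (j + 1)))
    (eY : Y ≃+ Gr F s) (hY : ∀ (a : Λ) (y : Y), eY (a • y) = ψ a • eY y)
    -- the modules `X` and `VL`
    {X : Type u} [AddCommGroup X] [Module D X] (hq : ∀ x : X, α ^ (m + 1) • x = 0)
    (eX : Y ⊗[Λ] L ≃+ X)
    (heXR : ∀ (r : R) (y : Y) (l : L), eX (y ⊗ₜ (r • l)) = iR r • eX (y ⊗ₜ l))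
    (heXW : ∀ (a : W) (y : Y) (l : L), eX (eY.symm (a • eY y) ⊗ₜ l) = iW a • eX (y ⊗ₜ l))
    {VL : Type u} [AddCommGroup VL] [Module D VL]
    (hVL : ∃ k : ℕ, ∀ v : VL, α • v = 0 → iW η ^ k • v = 0)
    (hVLfin : ∀ i, LD.len (TorM D i VL A) < ⊤) (fL : VL →ₗ[D] X) (hfL : Function.Surjective fL)
    (hkerL : ∀ v, fL v = 0 ↔ ∃ w, v = α ^ (m + 1) • w)
    -- the eigencharacters
    (c : R → ℕ → W) (hEig : ∀ r, EigNA F τ dg η ((actMat b r).map ψ) (c r))
    (N : ℕ → Type u) [∀ j, AddCommGroup (N j)] [∀ j, Module D (N j)]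
    (π : ∀ j, Gr F (s + dg j - dg (j + 1)) →+ N j)
    (hπ : ∀ j < n, ∀ m : N j, ∃ g, π j g = iW η ^ k • m)
    (hπ0 : ∀ j < n, ∀ x, π j x = 0 → η ^ k • x = 0)
    (hπW : ∀ j < n, ∀ (a : W) (x), π j (a • x) = iW a • π j x)
    (hπR : ∀ j < n, ∀ (r : R) (x), π j (c r j • x) = iR r • π j x)
    (H : ℕ → Type u) [∀ j, AddCommGroup (H j)] [∀ j, Module D (H j)]
    (hH : ∀ j < n, ∃ k : ℕ, ∀ v : H j, α • v = 0 → iW η ^ k • v = 0)
    (hHfin : ∀ j < n, ∀ i, LD.len (TorM D i (H j) A) < ⊤) (f : ∀ j, H j →ₗ[D] N j)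
    (hf : ∀ j < n, Function.Surjective (f j))
    (hker : ∀ j < n, ∀ v, f j v = 0 ↔ ∃ w, v = α ^ (m + 1) • w) :
    TH.chi LD nn VL A = ∑ j ∈ Finset.range n, TH.chi LD nn (H j) A := by
  have Θ := isTheta (B := B) (α := α) (L := LD) (η := iW η) HB hη hm A hA nn s' hs' hVn
  have h1 := fun j hj => theta_trunc (B := B) (α := α) (L := LD) (η := iW η) HB hη (m := m) A hA nn (hH j hj)
    (hHfin j hj) (f j) (hf j hj) (hker j hj)
  have h2 := theta_trunc (B := B) (α := α) (L := LD) (η := iW η) HB hη (m := m) A hA nn hVL hVLfin fL hfL hkerL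
  have h3 := theta_tensor b k iR iW ψ hgen Θ h hn hs hs1 hs2 hcol hsko eY hY hq eX heXR heXW
    c hEig N (fun j hj => (h1 j hj).1) (fun j hj x => by
      obtain ⟨v, rfl⟩ := hf j hj x
      rw [← map_smul]
      exact (hker j hj _).2 ⟨v, rfl⟩) π hπ hπ0 hπW hπR
  rw [← h2.2]
  refine h3.2.trans (Finset.sum_congr rfl fun j hj => ?_)
  exact (h1 j (Finset.mem_range.1 hj)).2

end Vale.Agent.P177.Full
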