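import Vale.Agent.P177.Full.FormulaA
import Vale.Agent.P177.Full.FlatW
import Vale.Agent.P177.TH.Supply

/-!
P177, inner assembly, part B: `chi_flag` over `D = R ⊗ W(C)`, `R` a regular local ring.
-/

namespace Vale.Agent.P177.Full

open TensorProduct Vale.Agent.P202.Mix Vale.Agent.P177.Flag Vale.Agent.P177.PI
  Vale.Agent.P177.Ap Vale.Agent.P177.TH
open scoped ENNReal

universe u v w

theorem isHypersurface_quot {D : Type u} [CommRing D] (α : D) (h : IsSMulRegular D α) :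
    IsHypersurface D (D ⧸ Ideal.span {α}) α :=
  ⟨h, Ideal.Quotient.mk_surjective, Ideal.mk_ker⟩

theorem regular_of_flat' {R D : Type u} [CommRing R] [CommRing D] [Algebra R D]
    [Module.Flat R D] {a : R} (h : IsSMulRegular R a) : IsSMulRegular D (algebraMap R D a) := by
  have h1 : IsSMulRegular D a := by
    have h2 := h.of_flat_of_isBaseChange (S := D) (M := R) (N := D)
      (f := Algebra.linearMap R D) (IsBaseChange.linearMap R D)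
    intro x y hxy
    apply h2
    simpa [Algebra.smul_def] using hxy
  intro x y hxy
  apply h1
  simpa [Algebra.smul_def] using hxy

variable {R : Type u} [CommRing R] [IsRegularLocalRing R] {Λ L Y : Type u} [CommRing Λ]
  [Algebra Λ R] [AddCommGroup L]
  [Module R L] [Module Λ L] [IsScalarTower Λ R L] [AddCommGroup Y] [Module Λ Y] {n : ℕ}
  (b : Module.Basis (Fin n) Λ L)
  {W : Type u} [CommRing W] [Module.Flat ℤ W] {G : Type v} [AddCommGroup G]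
  {F : RFam W G} {τ : ∀ j : ℕ, (Fin j → Fin n) → W} {dg : ℕ → G} {good : G → Prop} {η : W}
  {LD : AddLen (R ⊗[ℤ] W)}

/-- `W → R ⊗ W` -/
noncomputable abbrev iWt (R W : Type u) [CommRing R] [CommRing W] : W →+* R ⊗[ℤ] W :=
  (Algebra.TensorProduct.includeRight : W →ₐ[ℤ] R ⊗[ℤ] W).toRingHom

theorem chi_flag_R (d : ℕ) (hd : ringKrullDim R = d) (hd1 : 1 ≤ d) (nn : ℕ) (hnn : d ≤ nn)
    (P : Ideal R) {α : R} (hαP : α ∈ P)
    (hα : IsSMulRegular R α) (k : ℕ) (ψ : Λ →+* W)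
    (hgen : ∀ y : R ⊗[ℤ] W, y ∈ AddSubgroup.closure
      {z : R ⊗[ℤ] W | ∃ (r : R) (a : W), z = iWt R W a * algebraMap R _ r})
    (hη : EtaNull LD (iWt R W η)) {m : ℕ} (hm : 1 ≤ m)
    -- flag data
    (h : FDataE F τ dg good η) (hn : 0 < n) {s : G}
    (hs : good s) (hs1 : ∀ j < n, good (s + dg j - dg (j + 1)))
    (hs2 : ∀ j < n, good (s - dg (j + 1)))
    (hcol : ∀ j < n, ColN F τ dg (j + 1) (s + dg j))
    (hsko : ∀ j < n, SkoN F τ dg j (s + dg j - dg (j + 1)))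
    (eY : Y ≃+ Gr F s) (hY : ∀ (a : Λ) (y : Y), eY (a • y) = ψ a • eY y)
    -- the modules `X` and `VL`
    {X : Type u} [AddCommGroup X] [Module (R ⊗[ℤ] W) X]
    (hq : ∀ x : X, algebraMap R (R ⊗[ℤ] W) α ^ (m + 1) • x = 0)
    (eX : Y ⊗[Λ] L ≃+ X)
    (heXR : ∀ (r : R) (y : Y) (l : L), eX (y ⊗ₜ (r • l)) =
      algebraMap R (R ⊗[ℤ] W) r • eX (y ⊗ₜ l))
    (heXW : ∀ (a : W) (y : Y) (l : L), eX (eY.symm (a • eY y) ⊗ₜ l) = iWt R W a • eX (y ⊗ₜ l))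
    {VL : Type u} [AddCommGroup VL] [Module (R ⊗[ℤ] W) VL]
    (hVL : ∃ k : ℕ, ∀ v : VL, algebraMap R (R ⊗[ℤ] W) α • v = 0 → iWt R W η ^ k • v = 0)
    (hVLfin : ∀ i, LD.len (TorM (R ⊗[ℤ] W) i VL ((R ⊗[ℤ] W) ⊗[R] (R ⧸ P))) < ⊤)
    (fL : VL →ₗ[R ⊗[ℤ] W] X) (hfL : Function.Surjective fL)
    (hkerL : ∀ v, fL v = 0 ↔ ∃ w, v = algebraMap R (R ⊗[ℤ] W) α ^ (m + 1) • w)
    -- the eigencharacters
    (c : R → ℕ → W) (hEig : ∀ r, EigNA F τ dg η ((actMat b r).map ψ) (c r))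
    (N : ℕ → Type u) [∀ j, AddCommGroup (N j)] [∀ j, Module (R ⊗[ℤ] W) (N j)]
    (π : ∀ j, Gr F (s + dg j - dg (j + 1)) →+ N j)
    (hπ : ∀ j < n, ∀ m : N j, ∃ g, π j g = iWt R W η ^ k • m)
    (hπ0 : ∀ j < n, ∀ x, π j x = 0 → η ^ k • x = 0)
    (hπW : ∀ j < n, ∀ (a : W) (x), π j (a • x) = iWt R W a • π j x)
    (hπR : ∀ j < n, ∀ (r : R) (x), π j (c r j • x) = algebraMap R (R ⊗[ℤ] W) r • π j x)
    (H : ℕ → Type u) [∀ j, AddCommGroup (H j)] [∀ j, Module (R ⊗[ℤ] W) (H j)]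
    (hH : ∀ j < n, ∃ k : ℕ, ∀ v : H j, algebraMap R (R ⊗[ℤ] W) α • v = 0 →
      iWt R W η ^ k • v = 0)
    (hHfin : ∀ j < n, ∀ i, LD.len (TorM (R ⊗[ℤ] W) i (H j) ((R ⊗[ℤ] W) ⊗[R] (R ⧸ P))) < ⊤)
    (f : ∀ j, H j →ₗ[R ⊗[ℤ] W] N j)
    (hf : ∀ j < n, Function.Surjective (f j))
    (hker : ∀ j < n, ∀ v, f j v = 0 ↔ ∃ w, v = algebraMap R (R ⊗[ℤ] W) α ^ (m + 1) • w) :
    TH.chi LD nn VL ((R ⊗[ℤ] W) ⊗[R] (R ⧸ P)) =
      ∑ j ∈ Finset.range n, TH.chi LD nn (H j) ((R ⊗[ℤ] W) ⊗[R] (R ⧸ P)) := by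
  have hK : ∀ x : R ⧸ P, α • x = 0 := by
    intro x
    obtain ⟨y, rfl⟩ := Ideal.Quotient.mk_surjective x
    rw [← Ideal.Quotient.mk_eq_mk, ← Submodule.Quotient.mk_smul, Submodule.Quotient.mk_eq_zero]
    exact P.mul_mem_right _ hαP
  let B := (R ⊗[ℤ] W) ⧸ Ideal.span {algebraMap R (R ⊗[ℤ] W) α}
  have HB : IsHypersurface (R ⊗[ℤ] W) B (algebraMap R (R ⊗[ℤ] W) α) :=
    isHypersurface_quot _ (regular_of_flat' hα)
  obtain ⟨e⟩ := exists_toB_equiv (B := B) HB (R ⧸ P) hK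
  have e1 : ∀ (i : ℕ) (M : Type u) [AddCommGroup M] [Module (R ⊗[ℤ] W) M],
      LD.len (TorM (R ⊗[ℤ] W) i M ((R ⊗[ℤ] W) ⊗[R] (R ⧸ P))) =
        LD.len (TorM (R ⊗[ℤ] W) i M (B ⊗[R] (R ⧸ P))) := fun i M _ _ =>
    TH.len_congr _ (torCongrRight i M e)
  have e2 : ∀ (M : Type u) [AddCommGroup M] [Module (R ⊗[ℤ] W) M],
      TH.chi LD nn M ((R ⊗[ℤ] W) ⊗[R] (R ⧸ P)) =
        TH.chi LD nn M (B ⊗[R] (R ⧸ P)) := fun M _ _ =>
    Finset.sum_congr rfl fun i _ => by rw [e1]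
  rw [e2]
  simp only [e2]
  simp only [e1] at hVLfin hHfin
  exact chi_flag b k (algebraMap R _) (iWt R W) ψ hgen HB hη hm (B ⊗[R] (R ⧸ P))
    (fun i => supply_fpn HB i (R ⧸ P) hK) nn (d - 1) (by omega)
    (supply_vn_regular HB hα d (d - 1) hd (by omega) (R ⧸ P) hK) h hn hs hs1 hs2 hcol hsko eY hY
    hq eX heXR heXW hVL hVLfin fL hfL hkerL c hEig N π hπ hπ0 hπW hπR H hH hHfin f hf hker

end Vale.Agent.P177.Full
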