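import Vale.Agent.P177.Full.Core
import Vale.Agent.P177.Full.FlagP
import Vale.Agent.P177.Regular

/-!
P177, inner assembly: the product of the cofactors of the Pluecker coordinates is, up to `[η]` and
modulo `(p - [t], P)`, in `WI J`.
-/

namespace Vale.Agent.P177.Full

open TensorProduct IsLocalRing RingTheory.Sequence Function Module Vale.Agent.P177.Flag
  Vale.Agent.P202.Mix Vale.Agent.P177.Lev WittVector
open scoped ENNReal

universe u

namespace Pkg

variable {p : ℕ} [Fact p.Prime] {k : Type u} [Field k] [CharP k p] {r : ℕ}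
variable {Λ : Type u} [CommRing Λ] [IsLocalRing Λ] {ψ : Λ →+* WittVector p (Rp p k r)}
variable {Ω : Type u} [Field Ω] [Algebra Λ Ω] {s : ℕ} {b : Fin s → Ω}
    {F G : Fin s → Polynomial Λ} {D : ℕ} {ε : ℝ≥0∞} {Φ : ℕ → ℕ} (K : Pkg ψ b F G D ε Φ) {n : ℕ}

/-- products of the coordinates are in the ideals `J`. -/
theorem prod_mem_J (ix : ∀ j, (Fin j → Fin n) → Fin s) (z : Fin n → ℤ)
    (t : ∀ i : Fin n, Fin ((i : ℕ) + 1) → Fin n) :
    ∏ i, K.c (ix _ (t i)) ^ (z i).toNat ∈ K.J n ix z := by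
  unfold J PI.JP
  rw [Ideal.mem_pi]
  intro e
  refine Perf.le_perfHull ?_
  rw [Finset.prod_apply]
  refine Ideal.prod_mem_prod fun i _ => ?_
  rw [Pi.pow_apply]
  have h1 : K.c (ix _ (t i)) e ∈ K.IJ n ix e i := Ideal.subset_span ⟨t i, rfl⟩
  exact Ideal.pow_mem_pow h1 _

/-- the relation of the cofactors. -/
theorem exists_gam [IsDomain Λ] (cof : ∀ l, b l ≠ 0 → ∃ (f : Polynomial Λ) (γ : Λ), γ ≠ 0 ∧
      b l * Polynomial.aeval (b l) f = algebraMap Λ Ω γ)
    (ix : ∀ j, (Fin j → Fin n) → Fin s)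
    (hix : ∀ i : Fin n, ∃ t : Fin ((i : ℕ) + 1) → Fin n, b (ix _ t) ≠ 0) (z : Fin n → ℤ) :
    ∃ (γ : Λ) (w : WittVector p K.C), γ ≠ 0 ∧ w ∈ PI.WI p (K.J n ix z) ∧
      ∀ m : ULift.{u} ℕ → ℕ, (∀ e, p ^ K.j e * m e ≤ K.I e + 1) →
        teichmuller p K.η * (laW ψ K.C γ - w) ∈ K.xiP m := by
  choose t ht using hix
  choose f γ hγ hf using fun i => cof _ (ht i)
  let q : Fin n → MvPolynomial (Fin s) Λ := fun i =>
    MvPolynomial.X (ix _ (t i)) * Polynomial.toMvPolynomial (ix _ (t i)) (f i)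
  let ev := MvPolynomial.eval₂Hom (laW ψ K.C) fun l => teichmuller p (K.c l)
  refine ⟨∏ i, γ i ^ (z i).toNat, ev (∏ i, q i ^ (z i).toNat), ?_, ?_, ?_⟩
  · exact Finset.prod_ne_zero_iff.2 fun i _ => pow_ne_zero _ (hγ i)
  · have h1 : ev (∏ i, q i ^ (z i).toNat) =
        ev (∏ i, (Polynomial.toMvPolynomial (ix _ (t i)) (f i)) ^ (z i).toNat) *
          teichmuller p (∏ i, K.c (ix _ (t i)) ^ (z i).toNat) := by
      rw [map_prod, map_prod, map_prod, ← Finset.prod_mul_distrib]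
      refine Finset.prod_congr rfl fun i _ => ?_
      rw [map_pow, map_pow, map_pow, ← mul_pow, mul_comm]
      congr 1
      change ev (_ * _) = _
      rw [map_mul, MvPolynomial.coe_eval₂Hom, MvPolynomial.eval₂_X]
    rw [h1]
    exact Ideal.mul_mem_left _ _ (PI.te_mem_WI p (K.prod_mem_J ix z t))
  · intro m hm
    have h1 := K.η_rel hm (MvPolynomial.C (∏ i, γ i ^ (z i).toNat) - ∏ i, q i ^ (z i).toNat) (by
      rw [map_sub, MvPolynomial.aeval_C, map_prod, map_prod, sub_eq_zero]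
      refine Finset.prod_congr rfl fun i _ => ?_
      rw [map_pow, map_pow]
      congr 1
      change _ = MvPolynomial.aeval b (_ * _)
      rw [map_mul, MvPolynomial.aeval_X, ← hf i]
      congr 1
      rw [MvPolynomial.aeval_toMvPolynomial])
    have h2 : MvPolynomial.eval₂ (laW ψ K.C) (fun l => teichmuller p (K.c l))
        (MvPolynomial.C (∏ i, γ i ^ (z i).toNat) - ∏ i, q i ^ (z i).toNat) =
        laW ψ K.C (∏ i, γ i ^ (z i).toNat) - ev (∏ i, q i ^ (z i).toNat) := by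
      rw [MvPolynomial.eval₂_sub, MvPolynomial.eval₂_C]
      rfl
    rw [h2] at h1
    exact h1

end Pkg

namespace Core

variable {p : ℕ} [Fact p.Prime] {R : Type u} [CommRing R] [IsRegularLocalRing R]
    [CharP (ResidueField R) p] [PerfectRing (ResidueField R) p] {d : ℕ} {P : Ideal R}
    {hs : List R} {r : ℕ} [IsRegularLocalRing (Lam p (ResidueField R) r)]
    [Algebra (Lam p (ResidueField R) r) R] {Ω : Type u} [Field Ω]
    [Algebra (Lam p (ResidueField R) r) Ω] {F : Fin 2 → FlagMod (Lam p (ResidueField R) r) Ω hs}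
    (X : Core p d P hs r Ω F)

/-- the relation of the cofactors. -/
theorem exists_gam (i : Fin 2) (z : Fin (F i).n → ℤ) :
    ∃ (γ : Lam p (ResidueField R) r) (w : WittVector p X.K.C), γ ≠ 0 ∧
      w ∈ PI.WI p (X.K.J (F i).n (X.pl i) z) ∧
      ∀ m : ULift.{u} ℕ → ℕ, (∀ e, p ^ X.K.j e * m e ≤ X.K.I e + 1) →
        teichmuller p X.K.η * (laW X.ψ X.K.C γ - w) ∈ X.K.xiP m := by
  have hdom : IsDomain (Lam p (ResidueField R) r) := regular_isDomain _
  refine X.K.exists_gam X.cof (X.pl i) (fun j => ?_) z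
  obtain ⟨t, ht⟩ := (F i).flag.exists_detT_ne_zero ((j : ℕ) + 1) j.2
  refine ⟨t, ?_⟩
  rw [X.pl_spec i _ j.2]
  exact ht

end Core

end Vale.Agent.P177.Full
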