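import Vale.Agent.P177.Flag.Tri
import Vale.Agent.P177.Transfer

/-!
P177, inner statement: the data of the flag formula with given Noether normalization and given
flags (definitions only).
-/

namespace Vale.Agent.P177.Full

open TensorProduct IsLocalRing RingTheory.Sequence Function Module Vale.Agent.P177.Flag

universe u

/-- `W(k)[[u_1, .., u_r]]`. -/
abbrev Lam (p : ℕ) [Fact p.Prime] (k : Type u) [CommRing k] (r : ℕ) : Type u :=
  MvPowerSeries (Fin r) (WittVector p k)

/-- The ring `R` with the complete intersection `hs` and its Noether normalization. -/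
structure Norm (p : ℕ) [Fact p.Prime] (R : Type u) [CommRing R] [IsLocalRing R] (r : ℕ)
    [IsLocalRing (Lam p (ResidueField R) r)]
    [Algebra (Lam p (ResidueField R) r) R] (hs : List R) : Prop where
  mem : ∀ h ∈ hs, h ∈ maximalIdeal R
  residue : ∀ w, residue R (algebraMap (Lam p (ResidueField R) r) R (MvPowerSeries.C w)) =
    w.coeff 0
  X_mem : ∀ i, algebraMap (Lam p (ResidueField R) r) R (MvPowerSeries.X i) ∈ maximalIdeal R
  max : maximalIdeal (Lam p (ResidueField R) r) =
    Ideal.span ({(p : Lam p (ResidueField R) r)} ∪ Set.range MvPowerSeries.X)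
  dim : ringKrullDim (Lam p (ResidueField R) r) = ringKrullDim (R ⧸ Ideal.ofList hs)
  finite : Module.Finite (Lam p (ResidueField R) r) (R ⧸ Ideal.ofList hs)
  free : Module.Free (Lam p (ResidueField R) r) (R ⧸ Ideal.ofList hs)
  pow_le : ∃ M : ℕ, maximalIdeal R ^ M ≤ Ideal.ofList hs ⊔
    (maximalIdeal (Lam p (ResidueField R) r)).map (algebraMap (Lam p (ResidueField R) r) R)
  reg : IsWeaklyRegular R (hs ++ ((p : R) :: List.ofFn fun i =>
    algebraMap (Lam p (ResidueField R) r) R (MvPowerSeries.X i)))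

/-- An `R`-module `L` killed by `hs`, free over `Λ`, with a flag of eigenvectors over `Ω`. -/
structure FlagMod {R : Type u} [CommRing R] (Λ : Type u) [CommRing Λ] [Algebra Λ R]
    (Ω : Type u) [Field Ω] [Algebra Λ Ω] (hs : List R) where
  L : Type u
  [grp : AddCommGroup L]
  [modR : Module R L]
  [modΛ : Module Λ L]
  [tower : IsScalarTower Λ R L]
  n : ℕ
  b : Basis (Fin n) Λ L
  v : ℕ → Fin n → Ω
  σ : Fin n → R →ₐ[Λ] Ω
  flag : EigFlag b v σ
  kill : ∀ h ∈ hs, ∀ x : L, h • x = 0
  finite : Module.Finite R L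

attribute [instance] FlagMod.grp FlagMod.modR FlagMod.modΛ FlagMod.tower FlagMod.finite

/-- The flag formula with given normalization and given flags. -/
def InnerStmt : Prop :=
  ∀ (p : ℕ) [Fact p.Prime] (R : Type u) [CommRing R] [IsRegularLocalRing R]
    [IsAdicComplete (maximalIdeal R) R] [CharP (ResidueField R) p] [PerfectRing (ResidueField R) p]
    (d : ℕ), ringKrullDim R = d → (p : R) ≠ 0 → (p : R) ∈ maximalIdeal R ^ 2 →
    ∀ (P : Ideal R), P.IsPrime → ∀ hs : List R,
      maximalIdeal R ≤ (P ⊔ Ideal.ofList hs).radical →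
      ∀ a r : ℕ, ringKrullDim (R ⧸ P) = a → hs.length + (r + 1) = d →
        ringKrullDim (R ⧸ Ideal.ofList hs) = ((r + 1 : ℕ) : WithBot ℕ∞) → a + (r + 1) ≤ d →
      ∀ [IsRegularLocalRing (Lam p (ResidueField R) r)] [Algebra (Lam p (ResidueField R) r) R],
        Norm p R r hs →
      ∀ (Ω : Type u) [Field Ω] [IsAlgClosed Ω] [CharZero Ω] [Algebra (Lam p (ResidueField R) r) Ω]
        [FaithfulSMul (Lam p (ResidueField R) r) Ω]
        [Algebra.IsAlgebraic (Lam p (ResidueField R) r) Ω]
        (F : Fin 2 → FlagMod (Lam p (ResidueField R) r) Ω hs),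
        ∃ w : (R →ₐ[Lam p (ResidueField R) r] Ω) → ℝ,
          (∀ i j, 0 ≤ w ((F i).σ j) ∧ (a + (r + 1) = d → 0 < w ((F i).σ j))) ∧
          ∀ i, (eulerTor R (d + 1) (R ⧸ P) (F i).L : ℝ) = ∑ j, w ((F i).σ j)

end Vale.Agent.P177.Full
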