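import Vale.Agent.P177.PI.Choice
import Vale.Agent.P177.Full.OuterDef
import Vale.Agent.P177.OEndDef

/-!
P177, outer part of the assembly: `FlagStmt` follows from `InnerStmt`, where the Noether
normalization `W(k)[[u]] → R`, the algebraically closed field and the flags of eigenvectors are
given.
-/

namespace Vale.Agent.P177.Full

open TensorProduct IsLocalRing RingTheory.Sequence Function Module Vale.Agent.P177.Flag

universe u

section Aux

variable {R Λ : Type u} [CommRing R] [CommRing Λ] [Algebra Λ R]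

/-- A finite `R`-module killed by `I` is finite over `Λ` if `R/I` is. -/
theorem finite_of_kill (I : Ideal R) [Module.Finite Λ (R ⧸ I)] (L : Type u) [AddCommGroup L]
    [Module R L] [Module.Finite R L] [Module Λ L] [IsScalarTower Λ R L]
    (h : ∀ r ∈ I, ∀ x : L, r • x = 0) : Module.Finite Λ L := by
  let m : Module (R ⧸ I) L :=
    Module.IsTorsionBySet.module (R := R) (M := L) (I := I) (fun x a => h a.1 a.2 x)
  have h1 : ∀ (r : R) (x : L), (Ideal.Quotient.mk I r) • x = r • x := fun r x => rfl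
  have t1 : IsScalarTower R (R ⧸ I) L := ⟨fun r q x => by
    obtain ⟨s, rfl⟩ := Ideal.Quotient.mk_surjective q
    rw [Algebra.smul_def, Ideal.Quotient.algebraMap_eq, ← map_mul, h1, h1, mul_smul]⟩
  have t2 : IsScalarTower Λ (R ⧸ I) L := ⟨fun a q x => by
    obtain ⟨s, rfl⟩ := Ideal.Quotient.mk_surjective q
    have : a • (Ideal.Quotient.mk I s) = Ideal.Quotient.mk I (a • s) := rfl
    rw [this, h1, h1, smul_assoc]⟩
  have : Module.Finite (R ⧸ I) L := Module.Finite.of_restrictScalars_finite R (R ⧸ I) L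
  exact Module.Finite.trans (R ⧸ I) L

theorem exists_flagMod (Ω : Type u) [IsDomain Λ] [Field Ω] [IsAlgClosed Ω]
    [Algebra Λ Ω] [FaithfulSMul Λ Ω] [Algebra.IsAlgebraic Λ Ω] (hs : List R)
    [Module.Finite Λ (R ⧸ Ideal.ofList hs)] (L : Type u) [AddCommGroup L]
    [Module R L] [Module.Finite R L] [Module Λ L] [IsScalarTower Λ R L] [Module.Free Λ L]
    (h : ∀ h ∈ hs, ∀ x : L, h • x = 0) :
    ∃ (n : ℕ) (b : Basis (Fin n) Λ L) (v : ℕ → Fin n → Ω) (σ : Fin n → R →ₐ[Λ] Ω),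
      EigFlag b v σ := by
  have hk : ∀ r ∈ Ideal.ofList hs, ∀ x : L, r • x = 0 := by
    intro r hr x
    have h1 : Ideal.ofList hs ≤ LinearMap.ker (LinearMap.toSpanSingleton R L x) := by
      rw [Ideal.ofList, Ideal.span_le]
      intro s hs'
      exact h s hs' x
    exact h1 hr
  have := finite_of_kill (Λ := Λ) (Ideal.ofList hs) L hk
  obtain ⟨v, σ, hf⟩ := exists_eigFlag (R := R) (Ω := Ω) (Module.finBasis Λ L)
  exact ⟨_, _, v, σ, hf⟩

end Aux

theorem flagStmt_of_inner (H : InnerStmt.{u}) : FlagStmt.{u} := by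
  classical
  intro p _ R _ _ _ _ _ d hd hp0 hp2 P hP hs hm hreg hrad a b ha hlen hb hdim hab
  obtain ⟨r, rfl⟩ : ∃ r, b = r + 1 := ⟨b - 1, by omega⟩
  have key := exists_choice_flag p hd hs hm hreg hlen hb hdim
  rw [Nat.add_sub_cancel] at key
  obtain ⟨i1, i2, h1, h2, h3, h4, h5, h6, h7, h8⟩ := key
  have hN : Norm p R r hs := ⟨hm, h1, h2, h4, h3, h5, h6, h7, h8⟩
  have hc := ch_charZero (ResidueField R) p r
  have hdom : IsDomain (Lam p (ResidueField R) r) := regular_isDomain _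
  let Ω := AlgebraicClosure (FractionRing (Lam p (ResidueField R) r))
  have j1 : Function.Injective (algebraMap (Lam p (ResidueField R) r) Ω) := by
    rw [IsScalarTower.algebraMap_eq (Lam p (ResidueField R) r)
      (FractionRing (Lam p (ResidueField R) r)) Ω]
    exact (algebraMap (FractionRing (Lam p (ResidueField R) r)) _).injective.comp
      (IsFractionRing.injective (Lam p (ResidueField R) r) _)
  have j2 : CharZero Ω := charZero_of_injective_ringHom j1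
  have j3 : FaithfulSMul (Lam p (ResidueField R) r) Ω :=
    (faithfulSMul_iff_algebraMap_injective _ _).2 j1
  have j4 : Algebra.IsAlgebraic (Lam p (ResidueField R) r) Ω :=
    (IsFractionRing.comap_isAlgebraic_iff (K := FractionRing (Lam p (ResidueField R) r))).2
      inferInstance
  refine ⟨Lam p (ResidueField R) r, inferInstance, i1, i2, Ω, inferInstance, inferInstance, j2,
    inferInstance, j3, h5, h3, ?_⟩
  intro L₁ L₂ _ _ _ _ _ _ _ _ _ _ _ _ hL₁ hL₂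
  obtain ⟨n₁, b₁, v₁, σ₁, f₁⟩ :=
    exists_flagMod (Λ := Lam p (ResidueField R) r) Ω hs L₁ hL₁
  obtain ⟨n₂, b₂, v₂, σ₂, f₂⟩ :=
    exists_flagMod (Λ := Lam p (ResidueField R) r) Ω hs L₂ hL₂
  let F₁ : FlagMod (Lam p (ResidueField R) r) Ω hs := ⟨L₁, n₁, b₁, v₁, σ₁, f₁, hL₁, inferInstance⟩
  let F₂ : FlagMod (Lam p (ResidueField R) r) Ω hs := ⟨L₂, n₂, b₂, v₂, σ₂, f₂, hL₂, inferInstance⟩
  obtain ⟨w, hw, hF⟩ := H p R d hd hp0 hp2 P hP hs hrad a r ha hlen hdim hab hN Ω ![F₁, F₂]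
  have hF₁ : (eulerTor R (d + 1) (R ⧸ P) L₁ : ℝ) = ∑ j, w (σ₁ j) := hF 0
  have hF₂ : (eulerTor R (d + 1) (R ⧸ P) L₂ : ℝ) = ∑ j, w (σ₂ j) := hF 1
  have hw₁ : ∀ j, 0 ≤ w (σ₁ j) ∧ (a + (r + 1) = d → 0 < w (σ₁ j)) := hw 0
  have hw₂ : ∀ j, 0 ≤ w (σ₂ j) ∧ (a + (r + 1) = d → 0 < w (σ₂ j)) := hw 1
  let w' : (R →ₐ[Lam p (ResidueField R) r] Ω) → ℝ := fun τ =>
    if (∃ j, σ₁ j = τ) ∨ ∃ j, σ₂ j = τ then w τ else 1
  have e₁ : ∀ j, w' (σ₁ j) = w (σ₁ j) := fun j => if_pos (Or.inl ⟨j, rfl⟩)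
  have e₂ : ∀ j, w' (σ₂ j) = w (σ₂ j) := fun j => if_pos (Or.inr ⟨j, rfl⟩)
  refine ⟨w', fun τ _ => ?_, ⟨n₁, σ₁, fun j h hh => f₁.eq_zero_of_smul j (hL₁ h hh),
    fun x => f₁.trace_eq x, ?_⟩, ⟨n₂, σ₂, fun j h hh => f₂.eq_zero_of_smul j (hL₂ h hh),
    fun x => f₂.trace_eq x, ?_⟩⟩
  · by_cases hτ : (∃ j, σ₁ j = τ) ∨ ∃ j, σ₂ j = τ
    · rcases hτ with ⟨j, rfl⟩ | ⟨j, rfl⟩
      · rw [e₁]
        exact hw₁ j
      · rw [e₂]
        exact hw₂ j
    · have : w' τ = 1 := if_neg hτ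
      rw [this]
      exact ⟨zero_le_one, fun _ => zero_lt_one⟩
  · simp only [e₁]
    exact hF₁
  · simp only [e₂]
    exact hF₂

end Vale.Agent.P177.Full
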