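import Vale.Agent.P177.Full.RhoFin
import Vale.Agent.P177.Full.CutK
import Vale.Agent.P177.Rho.Main

/-!
P177, inner assembly: `RhoStmt` holds for all ideals of the flag family.
-/

namespace Vale.Agent.P177.Full

open TensorProduct IsLocalRing RingTheory.Sequence Function Module Vale.Agent.P177.Flag
  Vale.Agent.P202.Mix Vale.Agent.P177.Lev WittVector Vale.Agent.P177.KG Vale.Agent.P177.PI
  Vale.Agent.P177.KM Vale.Agent.P177.Perf
open scoped ENNReal

universe u

namespace Core

variable {p : ℕ} [Fact p.Prime] {R : Type u} [CommRing R] [IsRegularLocalRing R]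
    [CharP (ResidueField R) p] [PerfectRing (ResidueField R) p] {d : ℕ} {P : Ideal R}
    {hs : List R} {r : ℕ} [IsRegularLocalRing (Lam p (ResidueField R) r)]
    [Algebra (Lam p (ResidueField R) r) R] {Ω : Type u} [Field Ω]
    [Algebra (Lam p (ResidueField R) r) Ω] {F : Fin 2 → FlagMod (Lam p (ResidueField R) r) Ω hs}
    (X : Core p d P hs r Ω F)

/-- **RHO**. -/
theorem rhoStmt (hN : Norm p R r hs) (i : Fin 2) (z : Fin (F i).n → ℤ) :
    X.RhoStmt (X.K.J (F i).n (X.pl i) z) := by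
  let _ := algW p X.K.C
  have hdom : IsDomain (Lam p (ResidueField R) r) := regular_isDomain _
  have hJ := X.K.isPerf_J (F i).n (X.pl i) z
  have hmax : maximalIdeal (Lam p (ResidueField R) r) = Ideal.span (insert
      (p : Lam p (ResidueField R) r) (Set.range fun i : Fin r => MvPowerSeries.X i)) := by
    rw [hN.max, Set.singleton_union]
  obtain ⟨γ, w, hγ, hw, hrel⟩ := X.exists_gam i z
  have hfin : ∀ j, X.K.mass.len ((KC (R := WittVector p X.K.C) ↥(X.K.J (F i).n (X.pl i) z)
      (List.ofFn fun l => teichmuller p (xC p (ResidueField R) r X.K.C l))).H j) ≠ ⊤ :=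
    fun j => (X.KC_J_lt_top i z j).ne
  have hn : ∀ e, p ^ X.K.j e * (X.K.j e) ≤ X.K.I e + 1 := by
    intro e
    have h1 := X.K.le_I e
    have h2 := X.gr_le (X.K.j e)
    have h4 : 1 ≤ p ^ X.K.j e := Nat.one_le_pow _ _ (Fact.out : p.Prime).pos
    calc p ^ X.K.j e * X.K.j e ≤ p ^ X.K.j e * ((X.K.j e + 2 * X.c0) * p ^ X.K.j e) := by
          refine Nat.mul_le_mul_left _ ?_
          calc X.K.j e ≤ (X.K.j e + 2 * X.c0) * 1 := by omega
            _ ≤ _ := Nat.mul_le_mul_left _ h4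
      _ = (X.K.j e + 2 * X.c0) * (p ^ X.K.j e * p ^ X.K.j e) := by ring
      _ ≤ _ := by omega
  have key := X.K.kchi_pi hmax (prime_p_lam p (ResidueField R) r)
    (fun l => X.base.psi_u l) X.ε_ne
    (fun e => PI.JJ p (X.K.IJ (F i).n (X.pl i) e) z) (fun e => CN.SP_perfHull _) γ hγ
    (teichmuller p X.K.η * w) (Ideal.mul_mem_left _ _ hw) (fun e => X.K.j e)
    (fun M => ⟨M, fun e he => he.trans ((Nat.le_add_right _ _).trans (X.K.le_j e))⟩)
    (by rw [← mul_sub]; exact hrel _ hn) hfin (r + 2) (by omega)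
  refine ⟨fun j => ?_, ?_⟩
  · rw [X.len_KC_YJ _ hJ j]
    exact hfin j
  · have h1 : ∑ j ∈ Finset.range (r + 2), (-1 : ℝ) ^ j * (X.K.mass.len
      ((KC (R := WittVector p X.K.C) (X.YJ (X.K.J (F i).n (X.pl i) z))
        ((parL p (ResidueField R) r).map X.la)).H j)).toReal =
        ∑ j ∈ Finset.range (r + 2), (-1 : ℝ) ^ j * (X.K.mass.len
      ((KC (R := WittVector p X.K.C) ↥(X.K.J (F i).n (X.pl i) z)
        (List.ofFn fun l => teichmuller p (xC p (ResidueField R) r X.K.C l))).H j)).toReal :=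
      Finset.sum_congr rfl fun j _ => by rw [X.len_KC_YJ _ hJ j]
    rw [h1]
    refine Eq.trans ?_ key
    rw [Rho.kchi, Finset.sum_range_succ _ (r + 2)]
    have h2 : X.K.mass.len ((KC (R := WittVector p X.K.C) ↥(X.K.J (F i).n (X.pl i) z)
        (List.ofFn fun l => teichmuller p (xC p (ResidueField R) r X.K.C l))).H (r + 2)) = 0 :=
      KC_len_eq_zero (ALen.of X.K.mass) _ _ (by rw [List.length_ofFn]; omega)
    have h3 : (-1 : ℝ) ^ (r + 2) * (X.K.mass.len ((KC (R := WittVector p X.K.C)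
        (Ideal.pi fun e => PI.JJ p (X.K.IJ (F i).n (X.pl i) e) z : Ideal X.K.C)
        X.K.xs).H (r + 2))).toReal = 0 := by
      have h4 : X.K.mass.len ((KC (R := WittVector p X.K.C)
        (Ideal.pi fun e => PI.JJ p (X.K.IJ (F i).n (X.pl i) e) z : Ideal X.K.C)
        X.K.xs).H (r + 2)) = 0 := h2
      rw [h4, ENNReal.toReal_zero, mul_zero]
    rw [h3, add_zero]
    rfl

end Core

end Vale.Agent.P177.Full
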