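import Vale.Agent.P177.Full.MainD
import Vale.Agent.P177.Full.B7Core
import Vale.Agent.P177.Full.RhoCore
import Vale.Agent.P177.Full.CoreEx
import Vale.Agent.P177.Full.EtM
import Vale.Agent.P177.Full.Outer

/-!
P177: the flag formula `FlagStmt`.
-/

namespace Vale.Agent.P177.Full

open IsLocalRing

universe u

/-- **The inner statement.** -/
theorem innerStmt : InnerStmt.{u} := by
  intro p _ R _ _ _ _ _ d hd hp0 hp2 P hP hs hrad a r ha hlen hdim hab _ _ hN Ω _ _ _ _ _ _ F
  obtain ⟨X, -⟩ := exists_core 0 p R d hd hp2 P hs hrad r hN Ω F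
  obtain ⟨M0, h⟩ := X.b7 hN hd hP hdim hrad hlen ha hab (d + r + 3) le_rfl
  obtain ⟨Z⟩ := X.K.exists_natZ X.ε_ne (max M0 (2 * X.c0 + 1))
  refine X.conclude hN hd hdim hrad (nn := d + r + 3) le_rfl (fun i _ => X.rhoStmt hN i _)
    (fun σ => X.chiH Z.f (d + r + 3) σ ⊤)
    (fun i j => (h _ (le_max_left _ _) Z i j).2) fun i hi => ?_
  rw [X.flag_HJ hN hd hdim hrad (by omega) (le_max_right _ _) Z i hi _ (by omega)
    (X.rhoStmt hN i _)]
  exact Finset.sum_congr rfl fun j _ => (h _ (le_max_left _ _) Z i j).1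

end Vale.Agent.P177.Full

namespace Vale.Agent.P177

universe u

/-- **The flag formula.** -/
theorem flagStmt : FlagStmt.{u} := Full.flagStmt_of_inner Full.innerStmt

end Vale.Agent.P177
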