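import Vale.Agent.P177.Full.Core
import Vale.Agent.P177.Full.FlagP
import Vale.Agent.P177.B8.Ten
import Vale.Agent.P177.TH.Basic
import Vale.Agent.P177.CAdd

/-!
P177, inner assembly: the elementary hypotheses of the multiplicativity formula for the rings
`Λ → R`.
-/

namespace Vale.Agent.P177.Full

open TensorProduct IsLocalRing RingTheory.Sequence Function Module Vale.Agent.P177.Flag

universe u

section R

variable {R : Type u} [CommRing R] [IsRegularLocalRing R]

theorem length_tensor_ne_top {P : Ideal R} {hs : List R}
    (hrad : maximalIdeal R ≤ (P ⊔ Ideal.ofList hs).radical) (X : Type u) [AddCommGroup X]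
    [Module R X] [Module.Finite R X] (hX : ∀ h ∈ hs, ∀ x : X, h • x = 0) :
    Module.length R ((R ⧸ P) ⊗[R] X) ≠ ⊤ := by
  obtain ⟨k, hk⟩ := Ideal.exists_pow_le_of_le_radical_of_fg hrad (IsNoetherian.noetherian _)
  rw [Module.length_ne_top_iff]
  refine isFiniteLength_of_pow_smul_eq_zero k fun a ha z => ?_
  obtain ⟨b, hb, c, hc, rfl⟩ := Submodule.mem_sup.1 (hk ha)
  have h1 : ∀ x : X, c • x = 0 := by
    intro x
    have h2 : Ideal.ofList hs ≤ LinearMap.ker (LinearMap.toSpanSingleton R X x) := by
      rw [Ideal.ofList, Ideal.span_le]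
      intro s hs'
      exact hX s hs' x
    exact h2 hc
  induction z using TensorProduct.induction_on with
  | zero => exact smul_zero _
  | tmul y x =>
    obtain ⟨y, rfl⟩ := Ideal.Quotient.mk_surjective y
    have h3 : b • (Ideal.Quotient.mk P y) = 0 := Ideal.Quotient.eq_zero_iff_mem.2
      (Ideal.mul_mem_right _ _ hb)
    rw [add_smul, TensorProduct.smul_tmul', h3, TensorProduct.zero_tmul, zero_add,
      ← TensorProduct.tmul_smul, h1, TensorProduct.tmul_zero]
  | add x y hx hy => rw [smul_add, hx, hy, add_zero]

theorem length_tor_ne_top {P : Ideal R} {hs : List R}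
    (hrad : maximalIdeal R ≤ (P ⊔ Ideal.ofList hs).radical) (X : Type u) [AddCommGroup X]
    [Module R X] [Module.Finite R X] (hX : ∀ h ∈ hs, ∀ x : X, h • x = 0) (i : ℕ) :
    Module.length R (TorM R i (R ⧸ P) X) ≠ ⊤ :=
  tor_length_ne_top i _ _ (length_tensor_ne_top hrad X hX)

theorem eulerTor_eq_of_le {d : ℕ} (hd : ringKrullDim R = d) (P : Ideal R) (X : Type u)
    [AddCommGroup X] [Module R X] [Module.Finite R X] {nn : ℕ} (h : d + 1 ≤ nn) :
    eulerTor R nn (R ⧸ P) X = eulerTor R (d + 1) (R ⧸ P) X :=
  eulerTor_of_vanish _ _ _ _ h fun j hj => regular_tor_vanish R d hd _ _ j hj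

omit [IsRegularLocalRing R] in
theorem eulerTor_subsingleton (A X : Type u) [AddCommGroup A] [Module R A]
    [AddCommGroup X] [Module R X] [Subsingleton X] (n : ℕ) : eulerTor R n A X = 0 := by
  unfold eulerTor
  refine Finset.sum_eq_zero fun i _ => ?_
  have h1 : Subsingleton (TorM R i A X) := by
    cases i with
    | zero =>
      have h2 : Subsingleton (A ⊗[R] X) := by
        refine ⟨fun x y => ?_⟩
        have h3 : ∀ z : A ⊗[R] X, z = 0 := fun z => by
          induction z using TensorProduct.induction_on with
          | zero => rfl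
          | tmul a x => rw [Subsingleton.elim x 0, TensorProduct.tmul_zero]
          | add x y hx hy => rw [hx, hy, add_zero]
        rw [h3 x, h3 y]
      exact (torZero A X).toEquiv.subsingleton
    | succ i =>
      obtain ⟨e⟩ := tor_symm (i + 1) A X (R := R)
      have h2 : Subsingleton (TorM R (i + 1) X A) := tor_subsingleton_of_flat i
      exact e.toEquiv.subsingleton
  rw [Module.length_eq_zero_iff.2 h1]
  simp

end R

section Lam

variable {p : ℕ} [Fact p.Prime] {R : Type u} [CommRing R] [IsRegularLocalRing R]
    [CharP (ResidueField R) p] {hs : List R} {r : ℕ} [IsRegularLocalRing (Lam p (ResidueField R) r)]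
    [Algebra (Lam p (ResidueField R) r) R]

theorem Norm.isLocalHom (h : Norm p R r hs) :
    IsLocalHom (algebraMap (Lam p (ResidueField R) r) R) := by
  constructor
  intro a ha
  by_contra hna
  have h1 : a ∈ maximalIdeal (Lam p (ResidueField R) r) := (mem_maximalIdeal a).2 hna
  have h2 : maximalIdeal (Lam p (ResidueField R) r) ≤
      (maximalIdeal R).comap (algebraMap (Lam p (ResidueField R) r) R) := by
    rw [h.max, Ideal.span_le]
    rintro x (hx | ⟨i, rfl⟩)
    · rw [Set.mem_singleton_iff] at hx
      subst hx
      change algebraMap _ R _ ∈ maximalIdeal R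
      rw [map_natCast, ← residue_eq_zero_iff, map_natCast, CharP.cast_eq_zero]
    · exact h.X_mem i
  exact (mem_maximalIdeal _).1 (h2 h1) ha

theorem Norm.length_residue (h : Norm p R r hs)
    [IsLocalHom (algebraMap (Lam p (ResidueField R) r) R)] :
    Module.length (ResidueField (Lam p (ResidueField R) r)) (ResidueField R) = 1 := by
  have hs : Surjective (algebraMap (ResidueField (Lam p (ResidueField R) r)) (ResidueField R)) := by
    intro z
    refine ⟨IsLocalRing.residue (Lam p (ResidueField R) r)
      (MvPowerSeries.C (WittVector.teichmuller p z)), ?_⟩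
    have h1 := h.residue (WittVector.teichmuller p z)
    rw [WittVector.teichmuller_coeff_zero] at h1
    refine Eq.trans ?_ h1
    rfl
  let e : ResidueField (Lam p (ResidueField R) r) ≃ₗ[ResidueField (Lam p (ResidueField R) r)]
      ResidueField R := LinearEquiv.ofBijective
    (Algebra.linearMap (ResidueField (Lam p (ResidueField R) r)) (ResidueField R))
    ⟨(algebraMap (ResidueField (Lam p (ResidueField R) r)) (ResidueField R)).injective, hs⟩
  rw [← e.length_eq]
  exact Module.length_eq_one _ _

end Lam

end Vale.Agent.P177.Full
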