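import Vale.Agent.P177.Full.MainB

/-!
P177, inner assembly: `InnerStmt` from the flag formula, the masses and the signs.
-/

namespace Vale.Agent.P177.Full

open TensorProduct IsLocalRing RingTheory.Sequence Function Module Vale.Agent.P177.Flag
  Vale.Agent.P202.Mix Vale.Agent.P177.Lev WittVector Vale.Agent.P177.KG
open scoped ENNReal

universe u

namespace Core

variable {p : ℕ} [Fact p.Prime] {R : Type u} [CommRing R] [IsRegularLocalRing R]
    [CharP (ResidueField R) p] [PerfectRing (ResidueField R) p] {d : ℕ} {P : Ideal R}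
    {hs : List R} {r : ℕ} [IsRegularLocalRing (Lam p (ResidueField R) r)]
    [Algebra (Lam p (ResidueField R) r) R] {Ω : Type u} [Field Ω]
    [Algebra (Lam p (ResidueField R) r) Ω] {F : Fin 2 → FlagMod (Lam p (ResidueField R) r) Ω hs}
    (X : Core p d P hs r Ω F)

/-- the ideal of the flag in the base degree. -/
noncomputable abbrev Jb (i : Fin 2) : Ideal X.K.C := X.K.J (F i).n (X.pl i) (PI.sb (F i).n)

/-- the masses of the Koszul homology of `WI J / ξ`. -/
def RhoStmt (J : Ideal X.K.C) : Prop :=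
  (∀ j, X.K.mass.len ((KC (R := WittVector p X.K.C) (X.YJ J)
      ((parL p (ResidueField R) r).map X.la)).H j) ≠ ⊤) ∧
  ∑ j ∈ Finset.range (r + 2), (-1 : ℝ) ^ j * (X.K.mass.len
      ((KC (R := WittVector p X.K.C) (X.YJ J)
        ((parL p (ResidueField R) r).map X.la)).H j)).toReal = X.rho

/-- **The conclusion of `InnerStmt`** from the flag formula. -/
theorem conclude (hN : Norm p R r hs) (hd : ringKrullDim R = d)
    (hdim : ringKrullDim (R ⧸ Ideal.ofList hs) = ((r + 1 : ℕ) : WithBot ℕ∞))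
    (hrad : maximalIdeal R ≤ (P ⊔ Ideal.ofList hs).radical) {strict : Prop} {nn : ℕ}
    (hnn : d + r + 3 ≤ nn) (hrho : ∀ i, 0 < (F i).n → X.RhoStmt (X.Jb i))
    (Hσ : (R →ₐ[Lam p (ResidueField R) r] Ω) → ℝ)
    (hpos : ∀ i j, 0 ≤ Hσ ((F i).σ j) ∧ (strict → 0 < Hσ ((F i).σ j)))
    (hflag : ∀ i, 0 < (F i).n →
      TH.chi X.LD nn (Ap.TenM X.la (X.YJ (X.Jb i)) (F i).L)
        ((R ⊗[ℤ] WittVector p X.K.C) ⊗[R] (R ⧸ P)) = ∑ j, Hσ ((F i).σ j)) :
    ∃ w : (R →ₐ[Lam p (ResidueField R) r] Ω) → ℝ,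
      (∀ i j, 0 ≤ w ((F i).σ j) ∧ (strict → 0 < w ((F i).σ j))) ∧
      ∀ i, (eulerTor R (d + 1) (R ⧸ P) (F i).L : ℝ) = ∑ j, w ((F i).σ j) := by
  have hρ := X.rho_pos
  refine ⟨fun σ => Hσ σ / X.rho, fun i j => ⟨div_nonneg (hpos i j).1 hρ.le,
    fun h => div_pos ((hpos i j).2 h) hρ⟩, fun i => ?_⟩
  rcases Nat.eq_zero_or_pos (F i).n with h0 | h0
  · have h1 : IsEmpty (Fin (F i).n) := by
      rw [h0]
      infer_instance
    have h2 : Subsingleton (F i).L := by
      have := (F i).b.repr.toEquiv.subsingleton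
      exact this
    rw [eulerTor_subsingleton, Finset.univ_eq_empty, Finset.sum_empty, Int.cast_zero]
  · obtain ⟨h1, h2⟩ := hrho i h0
    have h3 := (X.euler_mul hN hd hdim hrad i (X.Jb i) h1 h2).2 nn hnn
    rw [hflag i h0] at h3
    rw [← Finset.sum_div, h3, mul_div_assoc, div_self hρ.ne', mul_one]

end Core

end Vale.Agent.P177.Full
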