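import Vale.Agent.P177.Full.CoreDefs
import Vale.Agent.P177.Full.FlagP
import Vale.Agent.P177.Full.CoreFlag
import Vale.Agent.P177.Nat.AnnE

/-!
P177, inner assembly: the pieces of the flags are the truncations of the honest modules.
-/

namespace Vale.Agent.P177.NatG

open Vale.Agent.P177.PI Vale.Agent.P177.NatC WittVector TensorProduct Function
  Vale.Agent.P202.Mix Vale.Agent.P177.Ap

universe u

section

variable (p : ℕ) [hp : Fact p.Prime] {S R C C' : Type u} [CommRing S] [CommRing R]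
  [CommRing C] [CharP C p] [PerfectRing C p] [CommRing C'] [CharP C' p] [PerfectRing C' p]
  (f : C →+* C') (Φ : S →+* R) (hΦ : Surjective Φ) (E : S) (hE : RingHom.ker Φ = Ideal.span {E})
  (ψ : S →+* WittVector p C)

omit [CharP C p] [PerfectRing C p] in
theorem inR_eq_tmul (x : R) : inR R (WittVector p C) x = x ⊗ₜ[ℤ] 1 := rfl

omit [CharP C p] [PerfectRing C p] in
theorem inW_eq_tmul (w : WittVector p C) : inW R (WittVector p C) w = 1 ⊗ₜ[ℤ] w := rfl

omit [CharP C' p] [PerfectRing C' p] [CharP C p] [PerfectRing C p] in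
/-- the kernel of `H → H / α ^ (m + 1)`. -/
theorem mkQ_KJ_eq_zero (J : Ideal C) (α : R) (m : ℕ) (v : HJ p f Φ hΦ E hE ψ J) :
    (KJ p f Φ hΦ E hE ψ J α m).mkQ v = 0 ↔
      ∃ w, v = inR R (WittVector p C) α ^ (m + 1) • w := by
  rw [Submodule.mkQ_apply, Submodule.Quotient.mk_eq_zero, LinearMap.mem_range, inR_eq_tmul]
  exact ⟨fun ⟨w, hw⟩ => ⟨w, hw.symm⟩, fun ⟨w, hw⟩ => ⟨w, hw.symm⟩⟩

end

end Vale.Agent.P177.NatG

namespace Vale.Agent.P177.Full

open TensorProduct IsLocalRing RingTheory.Sequence Function Vale.Agent.P202.Mix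
  Vale.Agent.P177.Flag Vale.Agent.P177.PI Vale.Agent.P177.Lev Vale.Agent.P177.Ap WittVector
open scoped ENNReal

universe u

namespace Pkg

variable {p : ℕ} [Fact p.Prime] {k : Type u} [Field k] [CharP k p] {r : ℕ}
variable {Λ : Type u} [CommRing Λ] [IsLocalRing Λ] {ψ : Λ →+* WittVector p (Rp p k r)}
variable {Ω : Type u} [Field Ω] [Algebra Λ Ω] {s : ℕ} {b : Fin s → Ω}
    {F G : Fin s → Polynomial Λ} {D : ℕ} {ε : ℝ≥0∞} {Φ : ℕ → ℕ} (K : Pkg ψ b F G D ε Φ)

theorem sp_J (n : ℕ) (ix : ∀ j, (Fin j → Fin n) → Fin s) (z : Fin n → ℤ) :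
    CN.SP p (K.J n ix z) :=
  CN.SP_pi fun _ => CN.SP_perfHull _

end Pkg

namespace Core

variable {p : ℕ} [hp : Fact p.Prime] {R : Type u} [CommRing R] [IsRegularLocalRing R]
    [CharP (ResidueField R) p] [PerfectRing (ResidueField R) p] {d : ℕ} {P : Ideal R}
    {hs : List R} {r : ℕ} [IsRegularLocalRing (Lam p (ResidueField R) r)]
    [Algebra (Lam p (ResidueField R) r) R] {Ω : Type u} [Field Ω]
    [Algebra (Lam p (ResidueField R) r) Ω] {F : Fin 2 → FlagMod (Lam p (ResidueField R) r) Ω hs}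
    (X : Core p d P hs r Ω F)

section rho

variable {C' : Type u} [CommRing C'] (f : X.K.C →+* C')
  (σ : R →ₐ[Lam p (ResidueField R) r] Ω)

/-- the action of `R` on the honest modules. -/
noncomputable abbrev rh : R →+* WittVector p C' ⧸
    Ideal.span {((WittVector.map f).comp (X.psi σ)) X.E} :=
  NatG.rhoR X.Φ X.Φ_surj X.E X.ker_Φ ((WittVector.map f).comp (X.psi σ))

variable {f σ}

/-- an element of `XM` is a multiple of `p ^ M` modulo `E`. -/
theorem mk_of_mem_XM {M : ℕ} {t' : C'}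
    (hE : ∃ z w : WittVector p C', IsUnit z ∧ WittVector.map f (X.psi σ X.E) =
      ((p : WittVector p C') - teichmuller p t') * z + (p : WittVector p C') ^ M * w)
    {x : WittVector p C'} (hx : x ∈ NatC.XM p t' M) :
    ∃ y, Ideal.Quotient.mk (Ideal.span {((WittVector.map f).comp (X.psi σ)) X.E}) x =
      Ideal.Quotient.mk _ ((p : WittVector p C') ^ M * y) := by
  obtain ⟨z, w, hz, hE⟩ := hE
  obtain ⟨a, b, rfl⟩ := (NatC.mem_XM (p := p)).1 hx
  obtain ⟨zi, hzi⟩ := hz.exists_right_inv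
  refine ⟨b - w * zi * a, ?_⟩
  rw [Ideal.Quotient.eq, Ideal.mem_span_singleton']
  refine ⟨zi * a, ?_⟩
  have hE' : ((WittVector.map f).comp (X.psi σ)) X.E =
      ((p : WittVector p C') - teichmuller p t') * z + (p : WittVector p C') ^ M * w := hE
  rw [hE']
  linear_combination ((p : WittVector p C') - teichmuller p t') * a * hzi

/-- elements of `(hs)` act as multiples of `p ^ M`. -/
theorem rh_of_mem {M : ℕ} {t' : C'}
    (hE : ∃ z w : WittVector p C', IsUnit z ∧ WittVector.map f (X.psi σ X.E) =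
      ((p : WittVector p C') - teichmuller p t') * z + (p : WittVector p C') ^ M * w)
    (hβ : ∀ s, X.Φ s ∈ Ideal.ofList hs → WittVector.map f (X.psi σ s) ∈ NatC.XM p t' M)
    {x : R} (hx : x ∈ Ideal.ofList hs) :
    ∃ y, X.rh f σ x = Ideal.Quotient.mk _ ((p : WittVector p C') ^ M * y) := by
  obtain ⟨s, rfl⟩ := X.Φ_surj x
  obtain ⟨y, hy⟩ := X.mk_of_mem_XM hE (hβ s hx)
  refine ⟨y, ?_⟩
  rw [← hy]
  exact NatG.rhoR_apply _ _ _ _ _ _

/-- `α` acts as `p ^ c0` times a unit. -/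
theorem rh_alpha {M : ℕ} (hM : X.c0 + 1 ≤ M) {t' : C'}
    (hE : ∃ z w : WittVector p C', IsUnit z ∧ WittVector.map f (X.psi σ X.E) =
      ((p : WittVector p C') - teichmuller p t') * z + (p : WittVector p C') ^ M * w)
    (hβ : ∀ s, X.Φ s ∈ Ideal.ofList hs → WittVector.map f (X.psi σ s) ∈ NatC.XM p t' M) :
    ∃ y, X.rh f σ X.α = Ideal.Quotient.mk _
      ((p : WittVector p C') ^ X.c0 + (p : WittVector p C') ^ (X.c0 + 1) * y) := by
  obtain ⟨y, hy⟩ := X.rh_of_mem hE hβ X.β_mem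
  refine ⟨-((p : WittVector p C') ^ (M - (X.c0 + 1)) * y), ?_⟩
  have h1 : X.rh f σ X.α = X.rh f σ ((p : R) ^ X.c0) - X.rh f σ X.β := by
    rw [← map_sub, X.α_add, add_sub_cancel_right]
  rw [h1, hy, map_pow, map_natCast]
  have h2 : (p : WittVector p C') ^ M = (p : WittVector p C') ^ (X.c0 + 1) *
      (p : WittVector p C') ^ (M - (X.c0 + 1)) := by
    rw [← pow_add, Nat.add_sub_cancel' hM]
  have h3 : (p : WittVector p C') ^ X.c0 + (p : WittVector p C') ^ (X.c0 + 1) *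
      -((p : WittVector p C') ^ (M - (X.c0 + 1)) * y) = (p : WittVector p C') ^ X.c0 -
      (p : WittVector p C') ^ M * y := by
    rw [h2]
    ring
  rw [h3, map_sub, map_pow, map_natCast]

end rho



variable {η : X.K.C}
    (Z : CN.NatZ p X.K.C (tC p (ResidueField R) r X.K.C) η)
    (σ : R →ₐ[Lam p (ResidueField R) r] Ω)

/-- **The pieces of the flags**: the truncations of the honest modules are the graded pieces of
the families, up to `η ^ (3 N)`. -/
theorem exists_piece {M : ℕ} (hM : X.c0 * (1 + 1) ≤ M)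
    (hE : ∃ z w : WittVector p Z.C', IsUnit z ∧ WittVector.map Z.f (X.psi σ X.E) =
      ((p : WittVector p Z.C') - teichmuller p (Z.f (tC p (ResidueField R) r X.K.C))) * z +
        (p : WittVector p Z.C') ^ M * w)
    (hβ : ∀ s, X.Φ s ∈ Ideal.ofList hs → WittVector.map Z.f (X.psi σ s) ∈
      NatC.XM p (Z.f (tC p (ResidueField R) r X.K.C)) M)
    (n : ℕ) (ix : ∀ j, (Fin j → Fin n) → Fin X.m) (z : Fin n → ℤ) :
    (∀ h : X.HJ Z.f σ (X.K.J n ix z),
      inR R (WittVector p X.K.C) X.α • h = 0 → h = 0) ∧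
    ∃ π : Gr (X.K.fam n ix (X.c0 * (1 + 1))) z →+
        (X.HJ Z.f σ (X.K.J n ix z) ⧸ X.KJ Z.f σ (X.K.J n ix z) 1),
      (∀ y, ∃ x, π x = inW R (WittVector p X.K.C) (teichmuller p η) ^
        (3 * (X.c0 * (1 + 1))) • y) ∧
      (∀ x, π x = 0 → teichmuller p η ^ (3 * (X.c0 * (1 + 1))) • x = 0) ∧
      (∀ (a : WittVector p X.K.C) (x), π (a • x) = inW R (WittVector p X.K.C) a • π x) ∧
      (∀ (s : Sx p (ResidueField R) d) (x), π (X.psi σ s • x) =
        inR R (WittVector p X.K.C) (X.Φ s) • π x) := by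
  have hc0 := X.c0_pos
  obtain ⟨zz, w, hz, hE1⟩ := hE
  have hα := X.rh_alpha (f := Z.f) (σ := σ) (by omega : X.c0 + 1 ≤ M)
    (t' := Z.f (tC p (ResidueField R) r X.K.C)) ⟨zz, w, hz, hE1⟩ hβ
  have hJ := X.K.isPerf_J n ix z
  have hJ' : IsPerf p ((X.K.J n ix z).map Z.f) :=
    (CN.SP.map Z.f (X.K.sp_J n ix z)).isPerf
  have hM1 : ∀ x, x ∈ (X.K.fam n ix (X.c0 * (1 + 1))).M z ↔ x ∈ WI p (X.K.J n ix z) :=
    fun x => by rw [X.K.fam_M]
  have hN1 : ∀ x, x ∈ (X.K.fam n ix (X.c0 * (1 + 1))).N z ↔ ∃ u ∈ WI p (X.K.J n ix z),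
      ∃ v ∈ WI p (X.K.J n ix z), x = ((p : WittVector p X.K.C) -
        teichmuller p (tC p (ResidueField R) r X.K.C)) * u +
        (p : WittVector p X.K.C) ^ (X.c0 * (1 + 1)) * v := fun x => by
      rw [X.K.fam_N, mem_XI_mul]
  have h3 : 1 ≤ M := by omega
  have key := NatG.exists_piece Z.f X.Φ X.Φ_surj X.E X.ker_Φ (X.psi σ)
    (J := X.K.J n ix z) hJ hJ' (tC p (ResidueField R) r X.K.C) η Z.reg (Z.n1 _)
    (Z.n2 _ (X.K.sp_J n ix z))
    ((X.K.fam n ix (X.c0 * (1 + 1))).M z) ((X.K.fam n ix (X.c0 * (1 + 1))).N z)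
    (X.c0 * (1 + 1)) hM1 hN1 hz h3 hM hE1 X.α X.c0 1 rfl hα
  obtain ⟨h4, π, h5, h6, h7, h8⟩ := key
  refine ⟨h4, π, h5, h6, h7, fun s x => ?_⟩
  exact h8 s (X.psi σ s) ⟨0, 0, by rw [sub_self, mul_zero, mul_zero, add_zero]⟩ x

variable {Z σ}

/-- the kernel of `H → H / α ^ (m + 1)`. -/
theorem mkQ_KJ_eq_zero {J : Ideal X.K.C} {m : ℕ} (v : X.HJ Z.f σ J) :
    (X.KJ Z.f σ J m).mkQ v = 0 ↔ ∃ w, v = inR R (WittVector p X.K.C) X.α ^ (m + 1) • w :=
  NatG.mkQ_KJ_eq_zero p Z.f X.Φ X.Φ_surj X.E X.ker_Φ (X.psi σ) J X.α m v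

end Core

end Vale.Agent.P177.Full
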