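import Vale.Agent.P177.Full.FlagHJ
import Vale.Agent.P177.Full.ChiH
import Vale.Agent.P177.Full.MainC
import Vale.Agent.P177.Full.ExCore
import Vale.Agent.P177.Full.FinCore
import Vale.Agent.P177.Full.PieceCore

/-!
P177, inner assembly: the Euler characteristic of `(WI J / ξ) ⊗ L` is the sum of those of the
honest modules of the characters of the flag.
-/

namespace Vale.Agent.P177.Full

open TensorProduct IsLocalRing RingTheory.Sequence Function Vale.Agent.P202.Mix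
  Vale.Agent.P177.Flag Vale.Agent.P177.PI Vale.Agent.P177.Lev Vale.Agent.P177.Ap
  Vale.Agent.P177.TH WittVector
open scoped ENNReal

universe u

namespace Core

variable {p : ℕ} [Fact p.Prime] {R : Type u} [CommRing R] [IsRegularLocalRing R]
    [CharP (ResidueField R) p] [PerfectRing (ResidueField R) p] {d : ℕ} {P : Ideal R}
    {hs : List R} {r : ℕ} [IsRegularLocalRing (Lam p (ResidueField R) r)]
    [Algebra (Lam p (ResidueField R) r) R] {Ω : Type u} [Field Ω]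
    [Algebra (Lam p (ResidueField R) r) Ω] {F : Fin 2 → FlagMod (Lam p (ResidueField R) r) Ω hs}
    (X : Core p d P hs r Ω F)

/-- finiteness of the masses of `Tor(H_J, R / P)` for the pieces. -/
theorem z_fin [IsAdicComplete (maximalIdeal R) R] (hN : Norm p R r hs)
    (hrad : maximalIdeal R ≤ (P ⊔ Ideal.ofList hs).radical) {M : ℕ}
    (hM : 2 * X.c0 + 1 ≤ M)
    (Z : CN.NatZ p X.K.C (tC p (ResidueField R) r X.K.C) (X.K.etM M)) (i : Fin 2)
    (j : Fin (F i).n) (z : Fin (F i).n → ℤ) (l : ℕ) :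
    X.LD.len (TorM (R ⊗[ℤ] WittVector p X.K.C) l
      (X.HJ Z.f ((F i).σ j) (X.K.J (F i).n (X.pl i) z))
      ((R ⊗[ℤ] WittVector p X.K.C) ⊗[R] (R ⧸ P))) < ⊤ := by
  have hM2 : 2 ≤ M := by
    have := X.c0_pos
    omega
  exact X.fin_HJ_J Z ((F i).σ j) hN hrad (X.K.kil_etM M) (M := M) (by omega)
    (X.z_E hN hM2 Z i j)
    (fun s hs' => X.z_hs hN Z i j s (Ideal.subset_span hs'))
    (fun l s hs' => X.ex_X Z.f hN Z.reg (X.errOK_etM M) Z.dvd i j s l hs') i z l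

/-- finiteness of the masses of `Tor(H, R / P)` for the unit ideal. -/
theorem z_fin_top [IsAdicComplete (maximalIdeal R) R] (hN : Norm p R r hs)
    (hrad : maximalIdeal R ≤ (P ⊔ Ideal.ofList hs).radical) {M : ℕ}
    (hM : 2 * X.c0 + 1 ≤ M)
    (Z : CN.NatZ p X.K.C (tC p (ResidueField R) r X.K.C) (X.K.etM M)) (i : Fin 2)
    (j : Fin (F i).n) (l : ℕ) :
    X.LD.len (TorM (R ⊗[ℤ] WittVector p X.K.C) l (X.HJ Z.f ((F i).σ j) ⊤)
      ((R ⊗[ℤ] WittVector p X.K.C) ⊗[R] (R ⧸ P))) < ⊤ := by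
  have hM2 : 2 ≤ M := by
    have := X.c0_pos
    omega
  exact X.fin_HJ_top Z ((F i).σ j) hN hrad (X.K.kil_etM M) (M := M) (by omega)
    (X.z_E hN hM2 Z i j)
    (fun s hs' => X.z_hs hN Z i j s (Ideal.subset_span hs'))
    (fun l s hs' => X.ex_X Z.f hN Z.reg (X.errOK_etM M) Z.dvd i j s l hs') l

/-- **The flag formula with honest pieces**, from the pieces. -/
theorem flag_HJ_of [IsAdicComplete (maximalIdeal R) R] (hN : Norm p R r hs)
    (hd : ringKrullDim R = d)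
    (hdim : ringKrullDim (R ⧸ Ideal.ofList hs) = ((r + 1 : ℕ) : WithBot ℕ∞))
    (hrad : maximalIdeal R ≤ (P ⊔ Ideal.ofList hs).radical) (hd1 : 1 ≤ d) {M : ℕ}
    (hM : 2 * X.c0 + 1 ≤ M)
    (Z : CN.NatZ p X.K.C (tC p (ResidueField R) r X.K.C) (X.K.etM M)) (i : Fin 2)
    (hn : 0 < (F i).n) (nn : ℕ) (hnn : d ≤ nn) (hrho : X.RhoStmt (X.Jb i)) (k : ℕ)
    (hpiece : ∀ j : Fin (F i).n, X.PieceStmt Z.f i j ((F i).σ j) (X.K.etM M) k) :
    TH.chi X.LD nn (Ap.TenM X.la (X.YJ (X.Jb i)) (F i).L)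
      ((R ⊗[ℤ] WittVector p X.K.C) ⊗[R] (R ⧸ P)) = ∑ j, X.chiH Z.f nn ((F i).σ j) (X.Jp i j) :=
  X.chi_flag_H Z.f hN i hn hd hd1 nn hnn (X.euler_mul hN hd hdim hrad i _ hrho.1 hrho.2).1
    (X.K.etM M) (X.K.tl (M + 2)) (X.K.etM_def M) (X.K.kil_etM M) k hpiece
    fun j l => X.z_fin hN hrad hM Z i j _ l

/-- the pieces are the truncations of the honest modules. -/
theorem z_piece [IsAdicComplete (maximalIdeal R) R] (hN : Norm p R r hs) {M : ℕ}
    (hM : 2 * X.c0 + 1 ≤ M)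
    (Z : CN.NatZ p X.K.C (tC p (ResidueField R) r X.K.C) (X.K.etM M)) (i : Fin 2)
    (j : Fin (F i).n) :
    X.PieceStmt Z.f i j ((F i).σ j) (X.K.etM M) (3 * (X.c0 * (1 + 1))) := by
  have hM2 : 2 ≤ M := by
    have := X.c0_pos
    omega
  have key := X.exists_piece Z ((F i).σ j) (M := M) (by omega) (X.z_E hN hM2 Z i j)
    (fun s hs' => X.z_hs hN Z i j s hs') (F i).n (X.pl i) (sd (F i).n j)
  exact key

/-- **The flag formula with honest pieces.** -/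
theorem flag_HJ [IsAdicComplete (maximalIdeal R) R] (hN : Norm p R r hs)
    (hd : ringKrullDim R = d)
    (hdim : ringKrullDim (R ⧸ Ideal.ofList hs) = ((r + 1 : ℕ) : WithBot ℕ∞))
    (hrad : maximalIdeal R ≤ (P ⊔ Ideal.ofList hs).radical) (hd1 : 1 ≤ d) {M : ℕ}
    (hM : 2 * X.c0 + 1 ≤ M)
    (Z : CN.NatZ p X.K.C (tC p (ResidueField R) r X.K.C) (X.K.etM M)) (i : Fin 2)
    (hn : 0 < (F i).n) (nn : ℕ) (hnn : d ≤ nn) (hrho : X.RhoStmt (X.Jb i)) :
    TH.chi X.LD nn (Ap.TenM X.la (X.YJ (X.Jb i)) (F i).L)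
      ((R ⊗[ℤ] WittVector p X.K.C) ⊗[R] (R ⧸ P)) =
        ∑ j, X.chiH Z.f nn ((F i).σ j) (X.Jp i j) :=
  X.flag_HJ_of hN hd hdim hrad hd1 hM Z i hn nn hnn hrho _ fun j => X.z_piece hN hM Z i j

end Core

end Vale.Agent.P177.Full
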