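import Vale.Agent.P177.Full.EtM

/-!
P177, block NATK: the NAT ring `C'` for the data `X : Core ..` and the error element `etM M`.
-/

namespace Vale.Agent.P177.Full

open IsLocalRing Vale.Agent.P202.Mix Vale.Agent.P177.Flag Vale.Agent.P177.Lev WittVector

universe u

namespace Core

variable {p : ℕ} [Fact p.Prime] {R : Type u} [CommRing R] [IsRegularLocalRing R]
    [CharP (ResidueField R) p] [PerfectRing (ResidueField R) p] {d : ℕ} {P : Ideal R}
    {hs : List R} {r : ℕ} [IsRegularLocalRing (Lam p (ResidueField R) r)]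
    [Algebra (Lam p (ResidueField R) r) R] {Ω : Type u} [Field Ω]
    [Algebra (Lam p (ResidueField R) r) Ω] {F : Fin 2 → FlagMod (Lam p (ResidueField R) r) Ω hs}
    (X : Core p d P hs r Ω F)

/-- the NAT ring for the error element `etM M`. -/
theorem exists_natZ (M : ℕ) :
    Nonempty (CN.NatZ p X.K.C (tC p (ResidueField R) r X.K.C) (X.K.etM M)) :=
  X.K.exists_natZ X.ε_ne M

end Core

end Vale.Agent.P177.Full
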