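import Vale.Agent.P177.Lev.Defs
import Vale.Agent.P177.Pos.Mass
import Vale.Agent.P177.PI.Pack
import Vale.Agent.P202.Mix.Tei1
import Vale.Agent.P202.Mix.VarReg

/-!
P177, package: the product `C = ∏ C_e` of the levels, its elements `x, c, Θ, η`, the relations over
`W(C)`, the additive length `mass`.
-/

namespace Vale.Agent.P177.Full

open Vale.Agent.P202.Mix Vale.Agent.P177.Lev Vale.Agent.P177.SL WittVector Polynomial Filter
open scoped ENNReal

universe u

section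

variable {p : ℕ} [Fact p.Prime] {k : Type u} [Field k] [CharP k p] {r : ℕ}
variable {Λ : Type u} [CommRing Λ] [IsLocalRing Λ] (ψ : Λ →+* WittVector p (Rp p k r))
variable {Ω : Type u} [Field Ω] [Algebra Λ Ω] {s : ℕ} (b : Fin s → Ω) (F G : Fin s → Λ[X])
    (D : ℕ) (ε : ℝ≥0∞) (Φ : ℕ → ℕ)

/-- A sequence of levels `e + N`, `e ∈ ℕ`, and a nonprincipal ultrafilter. -/
structure Pkg where
  N : ℕ
  U : Ultrafilter (ULift.{u} ℕ)
  ev : ∀ c : ℕ, ∀ᶠ e in (U : Filter (ULift.{u} ℕ)), c ≤ e.down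
  lv : ∀ e : ULift.{u} ℕ, Level ψ b F G D ε Φ (e.down + N)

/-- there is a nonprincipal ultrafilter -/
theorem exists_ultra : ∃ U : Ultrafilter (ULift.{u} ℕ), ∀ c : ℕ,
    ∀ᶠ f in (U : Filter (ULift.{u} ℕ)), c ≤ f.down := by
  have h : (Filter.comap ULift.down.{u} (atTop : Filter ℕ)).NeBot :=
    Filter.comap_neBot fun t ht => by
      obtain ⟨a, ha⟩ := Filter.nonempty_of_mem ht
      exact ⟨⟨a⟩, ha⟩
  refine ⟨Ultrafilter.of (Filter.comap ULift.down.{u} (atTop : Filter ℕ)), fun c => ?_⟩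
  exact Ultrafilter.of_le _ ((Filter.eventually_ge_atTop c).comap ULift.down)

/-- the package from a supply of levels -/
theorem exists_pkg (N : ℕ) (h : ∀ e : ℕ, Nonempty (Level ψ b F G D ε Φ e)) :
    ∃ K : Pkg ψ b F G D ε Φ, K.N = N := by
  obtain ⟨U, hU⟩ := exists_ultra.{u}
  exact ⟨⟨N, U, hU, fun e => (h (e.down + N)).some⟩, rfl⟩

end

namespace Pkg

variable {p : ℕ} [Fact p.Prime] {k : Type u} [Field k] [CharP k p] {r : ℕ}
variable {Λ : Type u} [CommRing Λ] [IsLocalRing Λ] {ψ : Λ →+* WittVector p (Rp p k r)}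
variable {Ω : Type u} [Field Ω] [Algebra Λ Ω] {s : ℕ} {b : Fin s → Ω} {F G : Fin s → Λ[X]}
    {D : ℕ} {ε : ℝ≥0∞} {Φ : ℕ → ℕ} (K : Pkg ψ b F G D ε Φ)

/-- the ring of the level `e` -/
abbrev Ce (e : ULift.{u} ℕ) : Type u := (K.lv e).ext.C

/-- THE ring -/
abbrev C : Type u := ∀ e, K.Ce e

instance instCharP : CharP K.C p := PI.charP_pi p _

instance instPerfect : PerfectRing K.C p := PI.perfectRing_pi p _

/-- the Teichmueller representatives of the `b l` -/
def c (l : Fin s) : K.C := fun e => (K.lv e).c l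

/-- the element killing the junk -/
def Θ : K.C := fun e => (K.lv e).Θ

/-- the exponent: `η_e = Θ_e^(1/p^j_e)` -/
def j (e : ULift.{u} ℕ) : ℕ := (K.lv e).j

/-- the precision -/
def I (e : ULift.{u} ℕ) : ℕ := (K.lv e).I

/-- the error element -/
noncomputable def η : K.C := fun e => rt p (K.j e) (K.Θ e)

/-- the projection to the level `e` -/
noncomputable abbrev pr (e : ULift.{u} ℕ) : WittVector p K.C →+* WittVector p (K.Ce e) :=
  prW p K.Ce e

theorem pr_te (e : ULift.{u} ℕ) (a : K.C) : K.pr e (teichmuller p a) = teichmuller p (a e) :=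
  prW_teichmuller p K.Ce e a

theorem pr_ext {x y : WittVector p K.C} (h : ∀ e, K.pr e x = K.pr e y) : x = y :=
  prW_ext p K.Ce h

theorem exists_pr (x : ∀ e, WittVector p (K.Ce e)) : ∃ y : WittVector p K.C, ∀ e, K.pr e y = x e :=
  PI.exists_prj p x

theorem pr_surjective (e : ULift.{u} ℕ) : Function.Surjective (K.pr e) :=
  prW_surjective p K.Ce e

/-- roots in the product are componentwise -/
theorem rt_apply (f : ℕ) (a : K.C) (e : ULift.{u} ℕ) : rt p f a e = rt p f (a e) := by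
  have h1 : rt p f a e ^ p ^ f = a e := by
    rw [← Pi.pow_apply, rt_pow_self]
  have h2 : rt p f (a e) ^ p ^ f = a e := rt_pow_self _ _ _ _
  have h3 : Function.Injective fun x : K.Ce e => x ^ p ^ f := by
    have := (iterateFrobeniusEquiv (K.Ce e) p f).injective
    exact this
  exact h3 (h1.trans h2.symm)

theorem η_pow (e : ULift.{u} ℕ) : K.η e ^ p ^ K.j e = K.Θ e := rt_pow_self _ _ _ _

theorem le_j (e : ULift.{u} ℕ) : e.down + K.N ≤ K.j e := (K.lv e).le_j

theorem le_I (e : ULift.{u} ℕ) : Φ (K.j e) ≤ K.I e := (K.lv e).le_I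

/-- the element with components `p ^ n_e`. -/
noncomputable def PP (n : ULift.{u} ℕ → ℕ) : WittVector p K.C :=
  (K.exists_pr fun e => (p : WittVector p (K.Ce e)) ^ n e).choose

theorem pr_PP (n : ULift.{u} ℕ → ℕ) (e : ULift.{u} ℕ) :
    K.pr e (K.PP n) = (p : WittVector p (K.Ce e)) ^ n e :=
  (K.exists_pr fun e => (p : WittVector p (K.Ce e)) ^ n e).choose_spec e

/-- `(p - [t], P_n)` -/
noncomputable def xiP (n : ULift.{u} ℕ → ℕ) : Ideal (WittVector p K.C) :=
  Ideal.span {(p : WittVector p K.C) - teichmuller p (tC p k r K.C), K.PP n}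

theorem mem_xiM_iff {C : Type u} [CommRing C] [Algebra (Rp p k r) C] {M : ℕ}
    {x : WittVector p C} : x ∈ xiM p k r C M ↔ ∃ a b : WittVector p C,
      x = a * ((p : WittVector p C) - teichmuller p (tC p k r C)) + b * (p : WittVector p C) ^ M := by
  rw [xiM, Ideal.mem_span_pair]
  exact ⟨fun ⟨a, b, h⟩ => ⟨a, b, h.symm⟩, fun ⟨a, b, h⟩ => ⟨a, b, h.symm⟩⟩

/-- membership is checked componentwise -/
theorem mem_xiP {n : ULift.{u} ℕ → ℕ} {x : WittVector p K.C} :
    x ∈ K.xiP n ↔ ∀ e, K.pr e x ∈ xiM p k r (K.Ce e) (n e) := by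
  rw [xiP, Ideal.mem_span_pair]
  constructor
  · rintro ⟨a, b, rfl⟩ e
    rw [mem_xiM_iff]
    refine ⟨K.pr e a, K.pr e b, ?_⟩
    rw [map_add, map_mul, map_mul, map_sub, map_natCast, pr_te, pr_PP]
    rfl
  · intro h
    choose a b hab using fun e => mem_xiM_iff.1 (h e)
    obtain ⟨a', ha'⟩ := K.exists_pr a
    obtain ⟨b', hb'⟩ := K.exists_pr b
    refine ⟨a', b', K.pr_ext fun e => ?_⟩
    rw [map_add, map_mul, map_mul, map_sub, map_natCast, pr_te, pr_PP, ha', hb', hab]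
    rfl

theorem xiP_le {n m : ULift.{u} ℕ → ℕ} (h : ∀ e, n e ≤ m e) : K.xiP m ≤ K.xiP n := by
  intro x hx
  rw [mem_xiP] at hx ⊢
  intro e
  obtain ⟨a, b, hab⟩ := mem_xiM_iff.1 (hx e)
  refine mem_xiM_iff.2 ⟨a, b * (p : WittVector p (K.Ce e)) ^ (m e - n e), ?_⟩
  rw [hab, mul_assoc b, ← pow_add, Nat.sub_add_cancel (h e)]

/-- `(p - [t], P_n) ⊆ (p - [t], p ^ m)` if `m ≤ n_e` for all `e`. -/
theorem xiP_le_xiM {n : ULift.{u} ℕ → ℕ} {m : ℕ} (h : ∀ e, m ≤ n e) :
    K.xiP n ≤ xiM p k r K.C m := by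
  intro x hx
  rw [mem_xiP] at hx
  choose a b hab using fun e => mem_xiM_iff.1 (hx e)
  obtain ⟨a', ha'⟩ := K.exists_pr a
  obtain ⟨b', hb'⟩ := K.exists_pr fun e => b e * (p : WittVector p (K.Ce e)) ^ (n e - m)
  refine mem_xiM_iff.2 ⟨a', b', K.pr_ext fun e => ?_⟩
  rw [map_add, map_mul, map_mul, map_sub, map_pow, map_natCast, pr_te, ha', hb', hab, mul_assoc (b e),
    ← pow_add, Nat.sub_add_cancel (h e)]
  rfl

theorem pr_laW (e : ULift.{u} ℕ) (a : Λ) : K.pr e (laW ψ K.C a) = laW ψ (K.Ce e) a := by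
  ext n
  change (prW p K.Ce e (WittVector.map _ (ψ a))).coeff n = (WittVector.map _ (ψ a)).coeff n
  rw [prW_coeff, WittVector.map_coeff, WittVector.map_coeff]
  rfl

theorem pr_eval₂ {m : ℕ} (e : ULift.{u} ℕ) (f : MvPolynomial (Fin m) Λ) (a : Fin m → K.C) :
    K.pr e (MvPolynomial.eval₂ (laW ψ K.C) (fun l => teichmuller p (a l)) f) =
      MvPolynomial.eval₂ (laW ψ (K.Ce e)) (fun l => teichmuller p (a l e)) f := by
  have h : (K.pr e).comp (laW ψ K.C) = laW ψ (K.Ce e) := RingHom.ext fun a => K.pr_laW e a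
  rw [MvPolynomial.hom_eval₂, h]
  congr 1
  funext l
  exact K.pr_te e _

theorem pr_peval₂ (e : ULift.{u} ℕ) (f : Λ[X]) (a : K.C) :
    K.pr e (Polynomial.eval₂ (laW ψ K.C) (teichmuller p a) f) =
      Polynomial.eval₂ (laW ψ (K.Ce e)) (teichmuller p (a e)) f := by
  have h : (K.pr e).comp (laW ψ K.C) = laW ψ (K.Ce e) := RingHom.ext fun a => K.pr_laW e a
  rw [Polynomial.hom_eval₂, pr_te, h]

/-- all relations -/
theorem rel (f : MvPolynomial (Fin s) Λ) (hf : MvPolynomial.aeval b f = 0) :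
    teichmuller p K.Θ * MvPolynomial.eval₂ (laW ψ K.C) (fun l => teichmuller p (K.c l)) f ∈
      K.xiP fun e => K.I e + 1 := by
  rw [mem_xiP]
  intro e
  rw [map_mul, pr_te, pr_eval₂]
  exact (K.lv e).rel f hf

/-- the honest relations -/
theorem relG (l : Fin s) : Polynomial.eval₂ (laW ψ K.C) (teichmuller p (K.c l)) (G l) ∈
    K.xiP fun e => K.I e + 1 := by
  rw [mem_xiP]
  intro e
  rw [pr_peval₂]
  exact (K.lv e).relG l

theorem disc : teichmuller p K.Θ ∈ Ideal.span {∏ l, Polynomial.eval₂ (laW ψ K.C)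
    (teichmuller p (K.c l)) (derivative (G l))} ⊔ K.xiP fun e => K.I e + 1 := by
  have h1 : ∀ e, ∃ a : WittVector p (K.Ce e), teichmuller p (K.Θ e) -
      a * ∏ l, Polynomial.eval₂ (laW ψ (K.Ce e)) (teichmuller p (K.c l e)) (derivative (G l)) ∈
        xiM p k r (K.Ce e) (K.I e + 1) := by
    intro e
    obtain ⟨y, hy, z, hz, hyz⟩ := Submodule.mem_sup.1 (K.lv e).disc
    obtain ⟨a, rfl⟩ := Ideal.mem_span_singleton'.1 hy
    refine ⟨a, ?_⟩
    have h2 : teichmuller p (K.Θ e) - a * ∏ l, Polynomial.eval₂ (laW ψ (K.Ce e))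
        (teichmuller p (K.c l e)) (derivative (G l)) = z := by
      rw [sub_eq_iff_eq_add']
      exact hyz.symm
    rw [h2]
    exact hz
  choose a ha using h1
  obtain ⟨a', ha'⟩ := K.exists_pr a
  refine Submodule.mem_sup.2 ⟨a' * ∏ l, Polynomial.eval₂ (laW ψ K.C) (teichmuller p (K.c l))
    (derivative (G l)), Ideal.mem_span_singleton'.2 ⟨a', rfl⟩, _, ?_, add_sub_cancel _ _⟩
  rw [mem_xiP]
  intro e
  rw [map_sub, pr_te, map_mul, map_prod, ha']
  simp only [pr_peval₂]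
  exact ha e

theorem dvd (l : Fin s) (h : b l ≠ 0) : K.c l ∣ K.Θ := by
  choose a ha using fun e => (K.lv e).dvd l h
  exact ⟨a, funext fun e => ha e⟩

theorem nil (l : Fin s) (h : ∀ i < (F l).natDegree, (F l).coeff i ∈ IsLocalRing.maximalIdeal Λ) :
    K.c l ^ D ∈ Ideal.span (Set.range (xC p k r K.C)) := by
  have h1 : ∀ e, ∃ a : Fin (r + 1) → K.Ce e, ∑ i, a i * xC p k r (K.Ce e) i = K.c l e ^ D :=
    fun e => (Ideal.mem_span_range_iff_exists_fun).1 ((K.lv e).nil l h)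
  choose a ha using h1
  refine (Ideal.mem_span_range_iff_exists_fun).2 ⟨fun i e => a e i, funext fun e => ?_⟩
  rw [Pi.pow_apply, ← ha e, Finset.sum_apply]
  rfl

/-- `t` is a nonzerodivisor in every `C_e` -/
theorem te_reg (e : ULift.{u} ℕ) : tC p k r (K.Ce e) ∈ nonZeroDivisors (K.Ce e) :=
  tC_mem_nonZeroDivisors (K.lv e).ext

theorem t_reg : tC p k r K.C ∈ nonZeroDivisors K.C :=
  PI.mem_nonZeroDivisors_pi (t := fun e => tC p k r (K.Ce e)) K.te_reg

end Pkg

end Vale.Agent.P177.Full
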