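import Vale.Agent.P177.Full.MainC
import Vale.Agent.P177.Full.FinCore
import Vale.Agent.P177.Full.H4

/-!
P177, inner assembly: the statement `RhoStmt` from the independence of the Koszul characteristic of
the ideals `J` of `C`.
-/

namespace Vale.Agent.P177.Full

open TensorProduct IsLocalRing RingTheory.Sequence Function Module Vale.Agent.P177.Flag
  Vale.Agent.P202.Mix Vale.Agent.P177.Lev WittVector Vale.Agent.P177.KG Vale.Agent.P177.PI
  Vale.Agent.P177.KM Vale.Agent.P177.Perf
open scoped ENNReal

universe u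

section YJ

variable {p : ℕ} [hp : Fact p.Prime] {C : Type u} [CommRing C] [CharP C p] [PerfectRing C p]

/-- `H_i(p :: xs; WI J / ξ) = H_i([t] :: xs; J)`. -/
theorem len_KC_JSh (L : ALen (WittVector p C)) {J : Ideal C} (hJ : IsPerf p J) {t : C}
    (ht : t ∈ nonZeroDivisors C) (xs : List (WittVector p C)) (i : ℕ) :
    letI := algW p C
    L.len ((KC (Ap.JSh (Ap.xiW p t) (WI p J)) ((p : WittVector p C) :: xs)).H i) =
      L.len ((KC ↥J (teichmuller p t :: xs)).H i) := by
  let _ := algW p C
  refine MN.KC_len_WIE L (fun r => rfl) hJ (teichmuller p t) ?_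
    ((p : WittVector p C) - teichmuller p t) (-1) ?_ (Submodule.mkQ _)
    (Submodule.mkQ_surjective _) (fun x => ?_) xs i
  · change (teichmuller p t).coeff 0 ∈ nonZeroDivisors C
    rw [teichmuller_coeff_zero]
    exact ht
  · rw [SL.coeff_zero_xi]
    change _ = _ * (teichmuller p t).coeff 0
    rw [teichmuller_coeff_zero]
    simp
  · rw [Submodule.mkQ_apply]
    exact Ap.JSh.mk_eq_zero_iff x

end YJ

namespace Core

variable {p : ℕ} [Fact p.Prime] {R : Type u} [CommRing R] [IsRegularLocalRing R]
    [CharP (ResidueField R) p] [PerfectRing (ResidueField R) p] {d : ℕ} {P : Ideal R}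
    {hs : List R} {r : ℕ} [IsRegularLocalRing (Lam p (ResidueField R) r)]
    [Algebra (Lam p (ResidueField R) r) R] {Ω : Type u} [Field Ω]
    [Algebra (Lam p (ResidueField R) r) Ω] {F : Fin 2 → FlagMod (Lam p (ResidueField R) r) Ω hs}
    (X : Core p d P hs r Ω F)

theorem la_X (l : Fin r) : X.la (MvPowerSeries.X l) =
    teichmuller p (xC p (ResidueField R) r X.K.C l.succ) := by
  change (WittVector.map _) (X.ψ (MvPowerSeries.X l)) = _
  rw [X.base.psi_u, map_teichmuller]

theorem parL_map_la : (parL p (ResidueField R) r).map X.la =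
    (p : WittVector p X.K.C) :: List.ofFn fun l : Fin r =>
      teichmuller p (xC p (ResidueField R) r X.K.C l.succ) := by
  rw [parL, List.map_cons, map_natCast, List.map_ofFn]
  congr 2
  funext l
  exact X.la_X l

theorem len_KC_YJ (J : Ideal X.K.C) (hJ : IsPerf p J) (j : ℕ) :
    letI := algW p X.K.C
    X.K.mass.len ((KC (R := WittVector p X.K.C) (X.YJ J)
      ((parL p (ResidueField R) r).map X.la)).H j) =
    X.K.mass.len ((KC (R := WittVector p X.K.C) ↥J
      (List.ofFn fun l => teichmuller p (xC p (ResidueField R) r X.K.C l))).H j) := by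
  let _ := algW p X.K.C
  rw [X.parL_map_la, List.ofFn_succ]
  exact len_KC_JSh (ALen.of X.K.mass) hJ X.K.t_reg _ j

/-- the Koszul characteristic of the unit ideal. -/
theorem sum_KC_top :
    letI := algW p X.K.C
    ∑ j ∈ Finset.range (r + 2), (-1 : ℝ) ^ j * (X.K.mass.len
      ((KC (R := WittVector p X.K.C) ↥(⊤ : Ideal X.K.C)
        (List.ofFn fun l => teichmuller p (xC p (ResidueField R) r X.K.C l))).H j)).toReal =
      X.rho := by
  let _ := algW p X.K.C
  rw [Finset.sum_range_succ', Finset.sum_eq_zero, zero_add, pow_zero, one_mul]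
  · have h1 := len_KC_top_H0 p (ALen.of X.K.mass) X.K.t_reg
      (List.ofFn fun l : Fin r => teichmuller p (xC p (ResidueField R) r X.K.C l.succ))
    rw [List.ofFn_succ]
    refine congrArg ENNReal.toReal (h1.trans ?_)
    have h2 : Ideal.ofList ((p : WittVector p X.K.C) ::
        teichmuller p (tC p (ResidueField R) r X.K.C) ::
        List.ofFn fun l : Fin r => teichmuller p (xC p (ResidueField R) r X.K.C l.succ)) =
        vW p (ResidueField R) r X.K.C := by
      rw [vW, Ideal.ofList]
      congr 1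
      ext x
      simp only [List.mem_cons, List.mem_ofFn, Set.mem_ofPred_eq, Set.mem_insert_iff,
        Set.mem_range]
      constructor
      · rintro (h | h | ⟨l, rfl⟩)
        · exact Or.inl h
        · exact Or.inr ⟨0, h.symm⟩
        · exact Or.inr ⟨l.succ, rfl⟩
      · rintro (h | ⟨l, rfl⟩)
        · exact Or.inl h
        · refine Fin.cases ?_ (fun l => ?_) l
          · exact Or.inr (Or.inl rfl)
          · exact Or.inr (Or.inr ⟨l, rfl⟩)
    rw [h2]
    rfl
  · intro j _
    have h1 := len_KC_top_pos p (ALen.of X.K.mass) X.K.isWeaklyRegular_xC j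
    rw [List.map_ofFn] at h1
    have h2 : X.K.mass.len ((KC (R := WittVector p X.K.C) ↥(⊤ : Ideal X.K.C)
        (List.ofFn fun l => teichmuller p (xC p (ResidueField R) r X.K.C l))).H (j + 1)) = 0 := h1
    rw [h2, ENNReal.toReal_zero, mul_zero]

/-- **`RhoStmt`** from the independence of the Koszul characteristic. -/
theorem rhoStmt_of (i : Fin 2) (z : Fin (F i).n → ℤ)
    (h : letI := algW p X.K.C
      ∑ j ∈ Finset.range (r + 2), (-1 : ℝ) ^ j * (X.K.mass.len
      ((KC (R := WittVector p X.K.C) ↥(X.K.J (F i).n (X.pl i) z)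
        (List.ofFn fun l => teichmuller p (xC p (ResidueField R) r X.K.C l))).H j)).toReal =
      ∑ j ∈ Finset.range (r + 2), (-1 : ℝ) ^ j * (X.K.mass.len
      ((KC (R := WittVector p X.K.C) ↥(⊤ : Ideal X.K.C)
        (List.ofFn fun l => teichmuller p (xC p (ResidueField R) r X.K.C l))).H j)).toReal) :
    X.RhoStmt (X.K.J (F i).n (X.pl i) z) := by
  have hJ := X.K.isPerf_J (F i).n (X.pl i) z
  refine ⟨fun j => ?_, ?_⟩
  · rw [X.len_KC_YJ _ hJ j]
    exact (X.KC_J_lt_top i z j).ne
  · rw [← X.sum_KC_top, ← h]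
    refine Finset.sum_congr rfl fun j _ => ?_
    rw [X.len_KC_YJ _ hJ j]

end Core

end Vale.Agent.P177.Full
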